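import Claimed.Agent.R289.S1P.Raw
import Claimed.Agent.R289.Vor.Cov
import Claimed.Agent.R289.PppPv
import Claimed.Agent.R289.Mesh.Tri
import Claimed.Agent.R289.Mesh.Stat
import Claimed.Agent.R289.Del.GenPos

/-!
# Row 289 (S0537, Cardy for Poisson-Voronoi), box S1P (head helper244), file S1P/Cov = COVARIANCE      (helper107; prefix `pvcv_`, record `PvIso`)

SIMILARITY COVARIANCE of the full-plane model (used by Prop. "Closed-sum tail", 01-fields.tex, and by every stationarity / scaling argument).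
* sec. 1  `PvIso T T'` = isomorphism of dart structures; transport of `tgt apex SF Occ Tag Wall CStep InComp SameLab lsum`, and of `side bary upart qpart` when the positions are related by `z ↦ a z + b`.
* sec. 2  covariance of `DelAdj DelTri delApex DelGood` under `vorSim a b` (`a ≠ 0`), in the cast-free form `Y' = vorSim a b '' Y`.
* sec. 3  **(NAT) for similarities**: `pvcv_nat : PvqNat (vorSim a b) (DelTri Y) (DelTri Y')`; colours `pvcv_col`; weights `pvqq pvqp pvqWQ pvqWU pvqBar`; raw notions of the model `pvcv_tag pvcv_same pvcv_lab_sum pvcv_card`.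
* sec. 4  sums of Dirac masses over raw darts under a similarity (`pvcv_sum_map`): the generic form of `hcov`, `hsc` of `Mesh/Stat.lean`.
* sec. 5  **(F) finite intensity**: a sum of Dirac masses over raw darts, mass `≤ C diam(t)^k`, location in the closed triangle, is below `C * pvmZS k 3 3 ε w s` on every subset of the square (`pvcv_mass_le`), so its mean is finite (`pvcv_mean_fin`, `pvcv_theta_fin`).
* sec. 6  quantifiers over the label of an image dart (`pvcv_label pvcv_forall_same pvcv_exists_same`), live darts; `pvcvN C η = C ∑_{darts} |q_t|² δ_{z_t}` : `pvcv_N_fin` (F), `pvcv_N_cov`, `pvcv_N_sc` (= `hcov`, `hsc` of `Mesh/Stat.lean`).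
-/

set_option autoImplicit false

namespace Claimed.Agent.R289

open Set Relation

/-! ## 1. isomorphisms of dart structures -/

/-- isomorphism of dart structures -/
structure PvIso {V D V' D' : Type} (T : PvMap V D) (T' : PvMap V' D') where
  fV : V ≃ V'
  fD : D ≃ D'
  src : ∀ d, T'.src (fD d) = fV (T.src d)
  nxt : ∀ d, T'.nxt (fD d) = fD (T.nxt d)
  opp : ∀ d, T'.opp (fD d) = fD (T.opp d)

theorem pvcv_rtg {α β : Type} (f : α ≃ β) {r : α → α → Prop} {r' : β → β → Prop} (h : ∀ a b, r' (f a) (f b) ↔ r a b) (a b : α) :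
    ReflTransGen r' (f a) (f b) ↔ ReflTransGen r a b := by
  constructor
  · intro H
    have := ReflTransGen.lift (p := r) f.symm (fun x y hxy => (h (f.symm x) (f.symm y)).1 (by simpa using hxy)) _ _ H
    simpa [Function.onFun] using this
  · exact fun H => ReflTransGen.lift (p := r') f (fun x y hxy => (h x y).2 hxy) _ _ H

namespace PvIso

variable {V D V' D' : Type} {T : PvMap V D} {T' : PvMap V' D'} (I : PvIso T T')

theorem tgt (d : D) : T'.tgt (I.fD d) = I.fV (T.tgt d) := by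
  unfold PvMap.tgt; rw [I.nxt, I.src]

theorem apex (d : D) : T'.apex (I.fD d) = I.fV (T.apex d) := by
  unfold PvMap.apex; rw [I.nxt, I.nxt, I.src]

theorem sf (d d' : D) : T'.SF (I.fD d) (I.fD d') ↔ T.SF d d' := by
  unfold PvMap.SF; rw [I.nxt, I.nxt]; simp only [EmbeddingLike.apply_eq_iff_eq]

theorem occ (s' : V' → Bool) (d : D) : T'.Occ s' (I.fD d) ↔ T.Occ (s' ∘ I.fV) d := by
  unfold PvMap.Occ; rw [I.src, I.tgt]; rfl

theorem tag (s' : V' → Bool) (d : D) : T'.Tag s' (I.fD d) ↔ T.Tag (s' ∘ I.fV) d := by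
  unfold PvMap.Tag; rw [I.src, I.tgt, I.apex]; rfl

theorem wall (s' : V' → Bool) (d d' : D) : T'.Wall s' (I.fD d) (I.fD d') ↔ T.Wall (s' ∘ I.fV) d d' := by
  unfold PvMap.Wall
  refine pvcv_rtg I.fD (fun a b => ?_) d d'
  rw [I.sf, I.occ, I.opp]; simp only [EmbeddingLike.apply_eq_iff_eq]

theorem cstep (s' : V' → Bool) (d₀ a b : D) : T'.CStep s' (I.fD d₀) (I.fD a) (I.fD b) ↔ T.CStep (s' ∘ I.fV) d₀ a b := by
  unfold PvMap.CStep
  rw [I.sf, I.wall, I.opp]; simp only [EmbeddingLike.apply_eq_iff_eq]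

theorem inComp (s' : V' → Bool) (d e : D) : T'.InComp s' (I.fD d) (I.fD e) ↔ T.InComp (s' ∘ I.fV) d e := by
  unfold PvMap.InComp
  exact pvcv_rtg I.fD (fun a b => I.cstep s' d a b) d e

theorem sameLab (s' : V' → Bool) (d d' : D) : T'.SameLab s' (I.fD d) (I.fD d') ↔ T.SameLab (s' ∘ I.fV) d d' := by
  unfold PvMap.SameLab
  rw [I.tag, I.tag, I.wall, I.inComp]

theorem lsum (s' : V' → Bool) (w' : D' → ℂ) (d : D) : T'.lsum s' w' (I.fD d) = T.lsum (s' ∘ I.fV) (w' ∘ I.fD) d := by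
  unfold PvMap.lsum
  rw [← finsum_comp_equiv I.fD]
  exact finsum_congr fun d' => finsum_congr_Prop (propext (I.sameLab s' d d')) fun _ => rfl

/-- the label of `fD d` is the image of the label of `d` -/
theorem label_image (s' : V' → Bool) (d : D) : {e | T'.SameLab s' (I.fD d) e} = I.fD '' {e | T.SameLab (s' ∘ I.fV) d e} := by
  ext e
  constructor
  · intro he
    refine ⟨I.fD.symm e, ?_, by simp⟩
    have : T'.SameLab s' (I.fD d) (I.fD (I.fD.symm e)) := by simpa using he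
    exact (I.sameLab s' d _).1 this
  · rintro ⟨e0, he0, rfl⟩
    exact (I.sameLab s' d e0).2 he0

variable {pos : V → ℂ} {pos' : V' → ℂ} {a b : ℂ}

theorem side (hp : ∀ v, pos' (I.fV v) = a * pos v + b) (d : D) : T'.side pos' (I.fD d) = a * T.side pos d := by
  unfold PvMap.side; rw [I.src, I.tgt, hp, hp]; ring

theorem bary (hp : ∀ v, pos' (I.fV v) = a * pos v + b) (d : D) : T'.bary pos' (I.fD d) = a * T.bary pos d + b := by
  unfold PvMap.bary; rw [I.src, I.tgt, I.apex, hp, hp, hp]; ring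

theorem upart (hp : ∀ v, pos' (I.fV v) = a * pos v + b) (d : D) : T'.upart pos' (I.fD d) = a * T.upart pos d := by
  unfold PvMap.upart; rw [I.nxt, I.nxt, I.side hp, I.side hp, I.side hp]; ring

theorem qpart (hp : ∀ v, pos' (I.fV v) = a * pos v + b) (d : D) : T'.qpart pos' (I.fD d) = a * T.qpart pos d := by
  unfold PvMap.qpart; rw [I.nxt, I.nxt, I.side hp, I.side hp, I.side hp]; ring

end PvIso

/-- a constant factor comes out of a label sum -/
theorem pvcv_lsum_mul {V D : Type} (T : PvMap V D) (s : V → Bool) (w : D → ℂ) (a : ℂ) (d : D) :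
    T.lsum s (fun e => a * w e) d = a * T.lsum s w d := by
  classical
  unfold PvMap.lsum
  have e1 : ∀ d' : D, (∑ᶠ (_ : T.SameLab s d d'), a * w d') = a * ∑ᶠ (_ : T.SameLab s d d'), w d' := by
    intro d'
    by_cases h : T.SameLab s d d'
    · rw [finsum_eq_if, finsum_eq_if, if_pos h, if_pos h]
    · rw [finsum_eq_if, finsum_eq_if, if_neg h, if_neg h, mul_zero]
  simp_rw [e1]
  exact (mul_finsum _ a).symm

/-! ## 2. covariance of the Delaunay notions -/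

section del

variable {a b : ℂ} {Y Y' : Set ℂ}

theorem pvcv_mem (ha : a ≠ 0) (hY : Y' = vorSim a b '' Y) (x : ℂ) : vorSim a b x ∈ Y' ↔ x ∈ Y := by
  subst hY; exact (vorc_sim_vorSim a b ha).mem_image Y x

theorem pvcv_cell (ha : a ≠ 0) (hY : Y' = vorSim a b '' Y) (x : ℂ) : vorCell Y' (vorSim a b x) = vorSim a b '' vorCell Y x := by
  subst hY; exact vorc_cell (vorc_sim_vorSim a b ha) Y x

theorem pvcv_adj (ha : a ≠ 0) (hY : Y' = vorSim a b '' Y) (x y : ℂ) : DelAdj Y' (vorSim a b x) (vorSim a b y) ↔ DelAdj Y x y := by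
  have hs := vorc_sim_vorSim a b ha
  unfold DelAdj
  rw [pvcv_mem ha hY, pvcv_mem ha hY, pvcv_cell ha hY, pvcv_cell ha hY, ← image_inter hs.inj, image_nonempty, hs.inj.ne_iff]

theorem pvcv_det (a b x y z : ℂ) : vorDet (vorSim a b x) (vorSim a b y) (vorSim a b z) = Complex.normSq a * vorDet x y z :=
  vorc_det_affine a b x y z

theorem pvcv_tri (ha : a ≠ 0) (hY : Y' = vorSim a b '' Y) (x y z : ℂ) :
    DelTri Y' (vorSim a b x) (vorSim a b y) (vorSim a b z) ↔ DelTri Y x y z := by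
  have hs := vorc_sim_vorSim a b ha
  have hn : 0 < Complex.normSq a := Complex.normSq_pos.2 ha
  unfold DelTri
  rw [pvcv_mem ha hY, pvcv_mem ha hY, pvcv_mem ha hY, pvcv_cell ha hY, pvcv_cell ha hY, pvcv_cell ha hY, ← image_inter hs.inj,
    ← image_inter hs.inj, image_nonempty, pvcv_det, mul_pos_iff_of_pos_left hn]

theorem pvcv_gp (ha : a ≠ 0) (hY : Y' = vorSim a b '' Y) (h : VorGP Y) : VorGP Y' := by
  subst hY; exact vorc_gp_image (vorc_sim_vorSim a b ha) h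

theorem pvcv_apex (ha : a ≠ 0) (hY : Y' = vorSim a b '' Y) (h : VorGP Y) (x y : ℂ) :
    delApex Y' (vorSim a b x) (vorSim a b y) = vorSim a b (delApex Y x y) := by
  by_cases hc : ∃ c, DelTri Y x y c
  · obtain ⟨c, hc⟩ := hc
    rw [del_apex_eq h hc, del_apex_eq (pvcv_gp ha hY h) ((pvcv_tri ha hY x y c).2 hc)]
  · have hc' : ¬ ∃ c, DelTri Y' (vorSim a b x) (vorSim a b y) c := by
      rintro ⟨c, hc'⟩
      obtain ⟨c0, rfl⟩ := (vorc_sim_vorSim a b ha).surj c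
      exact hc ⟨c0, (pvcv_tri ha hY x y c0).1 hc'⟩
    unfold delApex
    rw [dif_neg hc, dif_neg hc']

theorem pvcv_good (ha : a ≠ 0) (hY : Y' = vorSim a b '' Y) (h : DelGood Y) : DelGood Y' := by
  have hs := vorc_sim_vorSim a b ha
  refine ⟨?_, pvcv_gp ha hY h.gp, fun v => ?_, ?_⟩
  · subst hY; exact vorc_lf_image hs h.lf
  · obtain ⟨v0, rfl⟩ := hs.surj v
    rw [pvcv_cell ha hY]
    exact hs.isBounded_image.2 (h.bdd v0)
  · subst hY; exact h.ne.image _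

theorem pvcv_good_iff (ha : a ≠ 0) (hY : Y' = vorSim a b '' Y) : DelGood Y' ↔ DelGood Y := by
  refine ⟨fun h => ?_, pvcv_good ha hY⟩
  have hY2 : Y = vorSim a⁻¹ (-(a⁻¹ * b)) '' Y' := by
    subst hY
    rw [image_image]
    simp only [vorSim_inv_left ha b, image_id']
  exact pvcv_good (inv_ne_zero ha) hY2 h

end del

/-! ## 3. (NAT) for similarities, colours, weights -/

section nat

variable {a b : ℂ} {Y Y' : Set ℂ}

/-- **(NAT) for the similarity `z ↦ a z + b`** -/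
theorem pvcv_nat (ha : a ≠ 0) (hY : Y' = vorSim a b '' Y) : PvqNat (vorSim a b) (DelTri Y) (DelTri Y') :=
  ⟨vorSim_injective ha b, pvcv_tri ha hY, fun _ _ c' _ => by
    obtain ⟨c, rfl⟩ := vorSim_surjective ha b c'
    exact ⟨c, rfl⟩⟩

theorem pvcv_sites (a b : ℂ) (η : Conf PvPt) : cfSites (cfMap (vorSim a b) η) = vorSim a b '' cfSites η := vorc_sites_image _ η

theorem pvcv_nat_cf (ha : a ≠ 0) (η : Conf PvPt) : PvqNat (vorSim a b) (DelTri (cfSites η)) (DelTri (cfSites (cfMap (vorSim a b) η))) :=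
  pvcv_nat ha (pvcv_sites a b η)

/-- the colours travel with the sites -/
theorem pvcv_col (ha : a ≠ 0) (η : Conf PvPt) (p : ℂ) : cfCol (cfMap (vorSim a b) η) (vorSim a b p) = cfCol η p := by
  have h := Set.ext_iff.1 (vorc_col_image (vorSim a b) η true) (vorSim a b p)
  have h2 : ((vorSim a b p, true) ∈ (cfMap (vorSim a b) η).pts) ↔ (p, true) ∈ η.pts := by
    refine Iff.trans h ?_
    exact (vorSim_injective ha b).mem_set_image
  unfold cfCol
  exact decide_eq_decide.2 h2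

theorem pvcv_col_comp (ha : a ≠ 0) (η : Conf PvPt) : cfCol (cfMap (vorSim a b) η) ∘ vorSim a b = cfCol η :=
  funext fun p => pvcv_col ha η p

theorem pvcv_qq (a b x y z : ℂ) : pvqq (vorSim a b x) (vorSim a b y) (vorSim a b z) = a * pvqq x y z := by
  unfold pvqq vorSim; ring

theorem pvcv_pp (a b x y z : ℂ) : pvqp (vorSim a b x) (vorSim a b y) (vorSim a b z) = a * pvqp x y z := by
  unfold pvqp vorSim; ring

theorem pvcv_WQ (ha : a ≠ 0) (hY : Y' = vorSim a b '' Y) (h : VorGP Y) (x : ℂ × ℂ) :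
    pvqWQ Y' (Prod.map (vorSim a b) (vorSim a b) x) = a * pvqWQ Y x := by
  unfold pvqWQ
  simp only [Prod.map_fst, Prod.map_snd]
  rw [pvcv_apex ha hY h, pvcv_qq]

theorem pvcv_WU (ha : a ≠ 0) (hY : Y' = vorSim a b '' Y) (h : VorGP Y) (x : ℂ × ℂ) :
    pvqWU Y' (Prod.map (vorSim a b) (vorSim a b) x) = a * pvqWU Y x := by
  unfold pvqWU
  simp only [Prod.map_fst, Prod.map_snd]
  rw [pvcv_apex ha hY h, pvcv_pp]

theorem pvcv_Bar (ha : a ≠ 0) (hY : Y' = vorSim a b '' Y) (h : VorGP Y) (x : ℂ × ℂ) :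
    pvqBar Y' (Prod.map (vorSim a b) (vorSim a b) x) = vorSim a b (pvqBar Y x) := by
  unfold pvqBar
  simp only [Prod.map_fst, Prod.map_snd]
  rw [pvcv_apex ha hY h]
  unfold vorSim; ring

/-- a constant factor comes out of a raw label sum -/
theorem pvcv_sum_mul {V : Type} (Tr : V → V → V → Prop) (s : V → Bool) (w : V × V → ℂ) (c : ℂ) (x : V × V) :
    pvqSum Tr s (fun e => c * w e) x = c * pvqSum Tr s w x := by
  classical
  unfold pvqSum
  have e1 : ∀ y : V × V, (∑ᶠ (_ : pvqSame Tr s x y), c * w y) = c * ∑ᶠ (_ : pvqSame Tr s x y), w y := by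
    intro y
    by_cases h : pvqSame Tr s x y
    · rw [finsum_eq_if, finsum_eq_if, if_pos h, if_pos h]
    · rw [finsum_eq_if, finsum_eq_if, if_neg h, if_neg h, mul_zero]
  simp_rw [e1]
  exact (mul_finsum _ c).symm

/-- the raw notions of the model under a similarity -/
theorem pvcv_tag (ha : a ≠ 0) (η : Conf PvPt) (x : ℂ × ℂ) :
    pvqTag (DelTri (cfSites (cfMap (vorSim a b) η))) (cfCol (cfMap (vorSim a b) η)) (Prod.map (vorSim a b) (vorSim a b) x) ↔
      pvqTag (DelTri (cfSites η)) (cfCol η) x := by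
  rw [pvq_nat_tag (pvcv_nat_cf ha η), pvcv_col_comp ha]

theorem pvcv_same (ha : a ≠ 0) (η : Conf PvPt) (x y : ℂ × ℂ) :
    pvqSame (DelTri (cfSites (cfMap (vorSim a b) η))) (cfCol (cfMap (vorSim a b) η)) (Prod.map (vorSim a b) (vorSim a b) x)
      (Prod.map (vorSim a b) (vorSim a b) y) ↔ pvqSame (DelTri (cfSites η)) (cfCol η) x y := by
  rw [pvq_nat_same' (pvcv_nat_cf ha η), pvcv_col_comp ha]

theorem pvcv_wall (ha : a ≠ 0) (η : Conf PvPt) (x y : ℂ × ℂ) :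
    pvqWall (DelTri (cfSites (cfMap (vorSim a b) η))) (cfCol (cfMap (vorSim a b) η)) (Prod.map (vorSim a b) (vorSim a b) x)
      (Prod.map (vorSim a b) (vorSim a b) y) ↔ pvqWall (DelTri (cfSites η)) (cfCol η) x y := by
  rw [pvq_nat_wall' (pvcv_nat_cf ha η), pvcv_col_comp ha]

theorem pvcv_card (ha : a ≠ 0) (η : Conf PvPt) (x : ℂ × ℂ) :
    pvqCard (DelTri (cfSites (cfMap (vorSim a b) η))) (cfCol (cfMap (vorSim a b) η)) (Prod.map (vorSim a b) (vorSim a b) x) =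
      pvqCard (DelTri (cfSites η)) (cfCol η) x := by
  rw [pvq_nat_card (pvcv_nat_cf ha η), pvcv_col_comp ha]

/-- label sums with an arbitrary weight -/
theorem pvcv_lab_sum (ha : a ≠ 0) (η : Conf PvPt) (w' : ℂ × ℂ → ℂ) (x : ℂ × ℂ) :
    pvqSum (DelTri (cfSites (cfMap (vorSim a b) η))) (cfCol (cfMap (vorSim a b) η)) w' (Prod.map (vorSim a b) (vorSim a b) x) =
      pvqSum (DelTri (cfSites η)) (cfCol η) (w' ∘ Prod.map (vorSim a b) (vorSim a b)) x := by
  rw [pvq_nat_sum (pvcv_nat_cf ha η), pvcv_col_comp ha]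

/-- **the closed sums `Q_λ(1)` are homogeneous of degree one** -/
theorem pvcv_sum_WQ (ha : a ≠ 0) (η : Conf PvPt) (h : VorGP (cfSites η)) (x : ℂ × ℂ) :
    pvqSum (DelTri (cfSites (cfMap (vorSim a b) η))) (cfCol (cfMap (vorSim a b) η)) (pvqWQ (cfSites (cfMap (vorSim a b) η)))
      (Prod.map (vorSim a b) (vorSim a b) x) = a * pvqSum (DelTri (cfSites η)) (cfCol η) (pvqWQ (cfSites η)) x := by
  rw [pvcv_lab_sum ha, ← pvcv_sum_mul]
  congr 1
  funext y
  exact pvcv_WQ ha (pvcv_sites a b η) h y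

theorem pvcv_sum_WU (ha : a ≠ 0) (η : Conf PvPt) (h : VorGP (cfSites η)) (x : ℂ × ℂ) :
    pvqSum (DelTri (cfSites (cfMap (vorSim a b) η))) (cfCol (cfMap (vorSim a b) η)) (pvqWU (cfSites (cfMap (vorSim a b) η)))
      (Prod.map (vorSim a b) (vorSim a b) x) = a * pvqSum (DelTri (cfSites η)) (cfCol η) (pvqWU (cfSites η)) x := by
  rw [pvcv_lab_sum ha, ← pvcv_sum_mul]
  congr 1
  funext y
  exact pvcv_WU ha (pvcv_sites a b η) h y

end nat

/-! ## 4. sums of Dirac masses over raw darts -/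

section meas

open MeasureTheory
open scoped ENNReal

/-- the similarity on raw darts, as an equivalence -/
noncomputable def pvcvE (a b : ℂ) (ha : a ≠ 0) : ℂ × ℂ ≃ ℂ × ℂ :=
  Equiv.prodCongr (vorSimH a b ha).toEquiv (vorSimH a b ha).toEquiv

theorem pvcv_E_apply (a b : ℂ) (ha : a ≠ 0) (x : ℂ × ℂ) : pvcvE a b ha x = Prod.map (vorSim a b) (vorSim a b) x := rfl

theorem pvcv_measurable (a b : ℂ) : Measurable (vorSim a b) := (vorSim_continuous a b).measurable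

/-- **generic covariance**: `M = ∑_x m x δ_{loc x}` over raw darts; if masses are multiplied by `κ` and locations travel with the similarity, `M' = κ • map g M` -/
theorem pvcv_sum_map {a b : ℂ} (ha : a ≠ 0) {m m' : ℂ × ℂ → ℝ≥0∞} {loc loc' : ℂ × ℂ → ℂ} {κ : ℝ≥0∞}
    (hm : ∀ x, m' (Prod.map (vorSim a b) (vorSim a b) x) = κ * m x)
    (hl : ∀ x, m x ≠ 0 → loc' (Prod.map (vorSim a b) (vorSim a b) x) = vorSim a b (loc x)) :
    Measure.sum (fun x : ℂ × ℂ => m' x • Measure.dirac (loc' x)) = κ • (Measure.sum fun x : ℂ × ℂ => m x • Measure.dirac (loc x)).map (vorSim a b) := by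
  ext B hB
  rw [Measure.sum_apply _ hB, Measure.smul_apply, Measure.map_apply (pvcv_measurable a b) hB,
    Measure.sum_apply _ (pvcv_measurable a b hB), ← (pvcvE a b ha).tsum_eq, smul_eq_mul, ← ENNReal.tsum_mul_left]
  refine tsum_congr fun x => ?_
  rw [pvcv_E_apply, Measure.smul_apply, Measure.smul_apply, smul_eq_mul, smul_eq_mul, hm, mul_assoc]
  by_cases h0 : m x = 0
  · rw [h0]; simp
  · rw [hl x h0, Measure.dirac_apply' _ hB, Measure.dirac_apply' _ (pvcv_measurable a b hB)]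
    rfl

end meas

/-! ## 5. (F): finite intensity -/

section fin

open MeasureTheory
open scoped ENNReal

theorem pvcv_om_norm : ‖pvOm‖ = 1 := by
  have h : ‖pvOm‖ ^ 2 = 1 := by
    rw [← Complex.normSq_eq_norm_sq, Complex.normSq_apply, pvOm_re, pvOm_im]
    have := pv_sqrt3_sq
    nlinarith
  have h0 := norm_nonneg pvOm
  nlinarith

theorem pvcv_om_conj_norm : ‖(starRingEnd ℂ) pvOm‖ = 1 := by rw [Complex.norm_conj, pvcv_om_norm]

theorem pvcv_qq_le (a b c : ℂ) : ‖pvqq a b c‖ ≤ pvmtD (a, b, c) := by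
  unfold pvqq pvmtD
  simp only
  have h1 : ‖(a - b) + pvOm * (b - c) + (starRingEnd ℂ) pvOm * (c - a)‖ ≤ ‖a - b‖ + ‖b - c‖ + ‖c - a‖ := by
    refine (norm_add_le _ _).trans ?_
    refine add_le_add ((norm_add_le _ _).trans ?_) ?_
    · rw [norm_mul, pvcv_om_norm, one_mul]
    · rw [norm_mul, pvcv_om_conj_norm, one_mul]
  rw [norm_div]
  have h3 : ‖(3 : ℂ)‖ = 3 := by simp
  rw [h3, div_le_iff₀ (by norm_num)]
  have m1 := le_max_left ‖a - b‖ (max ‖b - c‖ ‖c - a‖)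
  have m2 := (le_max_left ‖b - c‖ ‖c - a‖).trans (le_max_right ‖a - b‖ (max ‖b - c‖ ‖c - a‖))
  have m3 := (le_max_right ‖b - c‖ ‖c - a‖).trans (le_max_right ‖a - b‖ (max ‖b - c‖ ‖c - a‖))
  linarith

theorem pvcv_pp_le (a b c : ℂ) : ‖pvqp a b c‖ ≤ pvmtD (a, b, c) := by
  unfold pvqp pvmtD
  simp only
  have h1 : ‖(a - b) + (starRingEnd ℂ) pvOm * (b - c) + pvOm * (c - a)‖ ≤ ‖a - b‖ + ‖b - c‖ + ‖c - a‖ := by
    refine (norm_add_le _ _).trans ?_
    refine add_le_add ((norm_add_le _ _).trans ?_) ?_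
    · rw [norm_mul, pvcv_om_conj_norm, one_mul]
    · rw [norm_mul, pvcv_om_norm, one_mul]
  rw [norm_div]
  have h3 : ‖(3 : ℂ)‖ = 3 := by simp
  rw [h3, div_le_iff₀ (by norm_num)]
  have m1 := le_max_left ‖a - b‖ (max ‖b - c‖ ‖c - a‖)
  have m2 := (le_max_left ‖b - c‖ ‖c - a‖).trans (le_max_right ‖a - b‖ (max ‖b - c‖ ‖c - a‖))
  have m3 := (le_max_right ‖b - c‖ ‖c - a‖).trans (le_max_right ‖a - b‖ (max ‖b - c‖ ‖c - a‖))
  linarith

theorem pvcv_fst_mem (a b c : ℂ) : a ∈ convexHull ℝ ({a, b, c} : Set ℂ) := subset_convexHull ℝ _ (by simp)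

theorem pvcv_bar_mem (a b c : ℂ) : (a + b + c) / 3 ∈ convexHull ℝ ({a, b, c} : Set ℂ) := by
  have hc := convex_convexHull ℝ ({a, b, c} : Set ℂ)
  have ha : a ∈ convexHull ℝ ({a, b, c} : Set ℂ) := subset_convexHull ℝ _ (by simp)
  have hb : b ∈ convexHull ℝ ({a, b, c} : Set ℂ) := subset_convexHull ℝ _ (by simp)
  have hcc : c ∈ convexHull ℝ ({a, b, c} : Set ℂ) := subset_convexHull ℝ _ (by simp)
  have h1 : (1 / 2 : ℝ) • a + (1 / 2 : ℝ) • b ∈ convexHull ℝ ({a, b, c} : Set ℂ) := hc ha hb (by norm_num) (by norm_num) (by norm_num)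
  have h2 : (2 / 3 : ℝ) • ((1 / 2 : ℝ) • a + (1 / 2 : ℝ) • b) + (1 / 3 : ℝ) • c ∈ convexHull ℝ ({a, b, c} : Set ℂ) :=
    hc h1 hcc (by norm_num) (by norm_num) (by norm_num)
  have e : (2 / 3 : ℝ) • ((1 / 2 : ℝ) • a + (1 / 2 : ℝ) • b) + (1 / 3 : ℝ) • c = (a + b + c) / 3 := by
    simp only [Complex.real_smul]; push_cast; ring
  rwa [e] at h2

/-- the triple of a raw dart -/
noncomputable def pvcvT (Y : Set ℂ) (x : ℂ × ℂ) : ℂ × ℂ × ℂ := (x.1, x.2, delApex Y x.1 x.2)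

theorem pvcv_T_inj (Y : Set ℂ) : Function.Injective (pvcvT Y) := fun x y h => by
  have h1 : x.1 = y.1 := congrArg (fun t : ℂ × ℂ × ℂ => t.1) h
  have h2 : x.2 = y.2 := congrArg (fun t : ℂ × ℂ × ℂ => t.2.1) h
  exact Prod.ext h1 h2

/-- a LOCAL WEIGHT on raw darts: carried by the darts of Delaunay triangles, mass `≤ C diam^k`, location in the closed triangle -/
def PvcvLoc (Y : Set ℂ) (k : ℕ) (C : ℝ≥0∞) (n : ℂ × ℂ → ℝ≥0∞) (loc : ℂ × ℂ → ℂ) : Prop :=
  ∀ x, n x ≠ 0 → (∃ c, DelTri Y x.1 x.2 c) ∧ n x ≤ C * ENNReal.ofReal (pvmtD (pvcvT Y x) ^ k) ∧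
    loc x ∈ convexHull ℝ ({x.1, x.2, delApex Y x.1 x.2} : Set ℂ)

/-- **the universal measurable majorant** of a local weight -/
theorem pvcv_mass_le {η : Conf PvPt} {n : ℂ × ℂ → ℝ≥0∞} {loc : ℂ × ℂ → ℂ} {k : ℕ} {C : ℝ≥0∞} (h : PvcvLoc (cfSites η) k C n loc)
    {ε : ℝ} (hε : 0 < ε) (w : ℂ) (s : ℝ) {B : Set ℂ} (hB : MeasurableSet B) (hBs : B ⊆ pvmSq w s) :
    (Measure.sum fun x : ℂ × ℂ => n x • Measure.dirac (loc x)) B ≤ C * pvmZS k 3 3 ε w s η := by
  classical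
  rw [Measure.sum_apply _ hB, ENNReal.tsum_eq_iSup_sum]
  refine iSup_le fun F => ?_
  set F' := F.filter (fun x => n x ≠ 0 ∧ loc x ∈ B) with hF'
  have e1 : ∑ x ∈ F, (n x • Measure.dirac (loc x)) B ≤ ∑ x ∈ F', C * ENNReal.ofReal (pvmtD (pvcvT (cfSites η) x) ^ k) := by
    rw [hF', Finset.sum_filter]
    refine Finset.sum_le_sum fun x _ => ?_
    rw [Measure.smul_apply, smul_eq_mul, Measure.dirac_apply' _ hB]
    split_ifs with hx
    · rw [Set.indicator_of_mem hx.2]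
      simpa using (h x hx.1).2.1
    · by_cases h0 : n x = 0
      · rw [h0]; simp
      · have : loc x ∉ B := fun hb => hx ⟨h0, hb⟩
        rw [Set.indicator_of_notMem this]; simp
  refine e1.trans ?_
  rw [← Finset.mul_sum, ← Finset.sum_image (f := fun t => ENNReal.ofReal (pvmtD t ^ k)) (g := pvcvT (cfSites η)) ((pvcv_T_inj _).injOn)]
  gcongr
  refine pvmt_sum_sq k hε w s η _ fun t ht => ?_
  obtain ⟨x, hx, rfl⟩ := Finset.mem_image.1 ht
  rw [hF', Finset.mem_filter] at hx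
  obtain ⟨hc, -, hl⟩ := h x hx.2.1
  exact pvmt_at_of_meet (del_apex_tri hc) ⟨loc x, hl, hBs hx.2.2⟩

/-- **(F)** the mean of a local weight on a bounded set is finite, at every mesh -/
theorem pvcv_mean_fin {n : Conf PvPt → ℂ × ℂ → ℝ≥0∞} {loc : Conf PvPt → ℂ × ℂ → ℂ} {k : ℕ} {C : ℝ≥0∞} (hC : C ≠ ∞)
    (h : ∀ η, PvcvLoc (cfSites η) k C (n η) (loc η)) {ε : ℝ} (hε : 0 < ε) {μ : Measure (Conf PvPt)} (hμ : IsPpp (pvInt ε) μ)
    (w : ℂ) {s : ℝ} (hs : 0 ≤ s) {B : Set ℂ} (hB : MeasurableSet B) (hBs : B ⊆ pvmSq w s) :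
    ∫⁻ η, (Measure.sum fun x : ℂ × ℂ => n η x • Measure.dirac (loc η x)) B ∂μ ≠ ∞ := by
  obtain ⟨K, -, hK⟩ := pvmt_mom (p := 1) one_ne_zero k
  have h1 := hK ε hε μ hμ w s hs
  simp only [pow_one] at h1
  have h2 : ∫⁻ η, (Measure.sum fun x : ℂ × ℂ => n η x • Measure.dirac (loc η x)) B ∂μ ≤ ∫⁻ η, C * pvmZS k 3 3 ε w s η ∂μ :=
    lintegral_mono fun η => pvcv_mass_le (h η) hε w s hB hBs
  rw [lintegral_const_mul _ (pvm_ZS_meas k 3 3 ε w s)] at h2
  exact ne_top_of_le_ne_top (ENNReal.mul_ne_top hC (ne_top_of_le_ne_top ENNReal.ofReal_ne_top h1)) h2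

theorem pvcv_U_sub : pvmsU ⊆ pvmSq 0 1 := by
  intro z hz
  simp only [pvmsU, pvmQ, pvmR, Set.mem_ofPred_eq, Set.mem_Ico] at hz
  obtain ⟨⟨a1, a2⟩, a3, a4⟩ := hz
  simp only [Int.cast_zero, zero_mul, zero_add, one_mul] at a1 a2 a3 a4
  refine ⟨?_, ?_⟩
  · rw [Complex.zero_re, sub_zero, abs_le]; constructor <;> linarith
  · rw [Complex.zero_im, sub_zero, abs_le]; constructor <;> linarith

/-- **(F)** in the form consumed by `pvms_collar`, `pvms_tail` -/
theorem pvcv_theta_fin {n : Conf PvPt → ℂ × ℂ → ℝ≥0∞} {loc : Conf PvPt → ℂ × ℂ → ℂ} {k : ℕ} {C : ℝ≥0∞} (hC : C ≠ ∞)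
    (h : ∀ η, PvcvLoc (cfSites η) k C (n η) (loc η)) {ε : ℝ} (hε : 0 < ε) :
    pvmsTh (fun η => Measure.sum fun x : ℂ × ℂ => n η x • Measure.dirac (loc η x)) ε ≠ ∞ :=
  pvcv_mean_fin hC h hε (pv_isPpp ε) 0 zero_le_one pvms_U_meas pvcv_U_sub

end fin

/-! ## 6. quantifiers over a label, live darts, the shape of `N` -/

section shape

open MeasureTheory
open scoped ENNReal

variable {a b : ℂ}

/-- the label of the image dart is the image of the label -/
theorem pvcv_label (ha : a ≠ 0) (η : Conf PvPt) (x : ℂ × ℂ) :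
    {y' | pvqSame (DelTri (cfSites (cfMap (vorSim a b) η))) (cfCol (cfMap (vorSim a b) η)) (Prod.map (vorSim a b) (vorSim a b) x) y'} =
      Prod.map (vorSim a b) (vorSim a b) '' {y | pvqSame (DelTri (cfSites η)) (cfCol η) x y} := by
  ext y'
  rw [Set.mem_ofPred_eq, pvq_nat_same (pvcv_nat_cf ha η), pvcv_col_comp ha]
  constructor
  · rintro ⟨y, rfl, hy⟩; exact ⟨y, hy, rfl⟩
  · rintro ⟨y, hy, rfl⟩; exact ⟨y, rfl, hy⟩

/-- `∀` over the label of the image dart -/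
theorem pvcv_forall_same (ha : a ≠ 0) (η : Conf PvPt) (x : ℂ × ℂ) (p : ℂ × ℂ → Prop) :
    (∀ y', pvqSame (DelTri (cfSites (cfMap (vorSim a b) η))) (cfCol (cfMap (vorSim a b) η)) (Prod.map (vorSim a b) (vorSim a b) x) y' → p y') ↔
      ∀ y, pvqSame (DelTri (cfSites η)) (cfCol η) x y → p (Prod.map (vorSim a b) (vorSim a b) y) := by
  constructor
  · intro h y hy
    exact h _ ((pvcv_same ha η x y).2 hy)
  · intro h y' hy'
    rw [pvq_nat_same (pvcv_nat_cf ha η), pvcv_col_comp ha] at hy'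
    obtain ⟨y, rfl, hy⟩ := hy'
    exact h y hy

/-- `∃` over the label of the image dart -/
theorem pvcv_exists_same (ha : a ≠ 0) (η : Conf PvPt) (x : ℂ × ℂ) (p : ℂ × ℂ → Prop) :
    (∃ y', pvqSame (DelTri (cfSites (cfMap (vorSim a b) η))) (cfCol (cfMap (vorSim a b) η)) (Prod.map (vorSim a b) (vorSim a b) x) y' ∧ p y') ↔
      ∃ y, pvqSame (DelTri (cfSites η)) (cfCol η) x y ∧ p (Prod.map (vorSim a b) (vorSim a b) y) := by
  constructor
  · rintro ⟨y', hy', hp⟩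
    rw [pvq_nat_same (pvcv_nat_cf ha η), pvcv_col_comp ha] at hy'
    obtain ⟨y, rfl, hy⟩ := hy'
    exact ⟨y, hy, hp⟩
  · rintro ⟨y, hy, hp⟩
    exact ⟨_, (pvcv_same ha η x y).2 hy, hp⟩

/-- live darts -/
theorem pvcv_live {Y Y' : Set ℂ} (ha : a ≠ 0) (hY : Y' = vorSim a b '' Y) (x : ℂ × ℂ) :
    (∃ c', DelTri Y' (vorSim a b x.1) (vorSim a b x.2) c') ↔ ∃ c, DelTri Y x.1 x.2 c := by
  constructor
  · rintro ⟨c', hc'⟩
    obtain ⟨c, rfl⟩ := vorSim_surjective ha b c'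
    exact ⟨c, (pvcv_tri ha hY _ _ _).1 hc'⟩
  · rintro ⟨c, hc⟩
    exact ⟨_, (pvcv_tri ha hY _ _ _).2 hc⟩

theorem pvcv_ofReal_sq (a z : ℂ) : ENNReal.ofReal (‖a * z‖ ^ 2) = ENNReal.ofReal (‖a‖ ^ 2) * ENNReal.ofReal (‖z‖ ^ 2) := by
  rw [norm_mul, mul_pow, ENNReal.ofReal_mul (by positivity)]

open Classical in
/-- the mass of `N` (shape of the ruling of 244): `C |q_t|²` on the live darts -/
noncomputable def pvcvNm (C : ℝ≥0∞) (Y : Set ℂ) (x : ℂ × ℂ) : ℝ≥0∞ :=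
  if ∃ c, DelTri Y x.1 x.2 c then C * ENNReal.ofReal (‖pvqWQ Y x‖ ^ 2) else 0

/-- `N = C ∑_{darts} |q_t|² δ_{z_t}` -/
noncomputable def pvcvN (C : ℝ≥0∞) (η : Conf PvPt) : Measure ℂ :=
  Measure.sum fun x : ℂ × ℂ => pvcvNm C (cfSites η) x • Measure.dirac (pvqBar (cfSites η) x)

theorem pvcv_Nm_loc (C : ℝ≥0∞) (Y : Set ℂ) : PvcvLoc Y 2 C (pvcvNm C Y) (pvqBar Y) := by
  intro x hx
  unfold pvcvNm at hx ⊢
  split_ifs at hx ⊢ with h
  · refine ⟨h, ?_, pvcv_bar_mem _ _ _⟩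
    gcongr
    exact pvcv_qq_le _ _ _
  · exact absurd rfl hx

/-- **(F)** `θ(N) < ∞` at every mesh -/
theorem pvcv_N_fin {C : ℝ≥0∞} (hC : C ≠ ∞) {ε : ℝ} (hε : 0 < ε) : pvmsTh (pvcvN C) ε ≠ ∞ :=
  pvcv_theta_fin hC (fun η => pvcv_Nm_loc C (cfSites η)) hε

theorem pvcv_Nm_map {Y Y' : Set ℂ} (C : ℝ≥0∞) (ha : a ≠ 0) (hY : Y' = vorSim a b '' Y) (h : VorGP Y) (x : ℂ × ℂ) :
    pvcvNm C Y' (Prod.map (vorSim a b) (vorSim a b) x) = ENNReal.ofReal (‖a‖ ^ 2) * pvcvNm C Y x := by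
  unfold pvcvNm
  have hl := pvcv_live (b := b) ha hY x
  by_cases hx : ∃ c, DelTri Y x.1 x.2 c
  · rw [if_pos hx, if_pos (by simpa using hl.2 hx), pvcv_WQ ha hY h, pvcv_ofReal_sq]
    ring
  · rw [if_neg hx, if_neg (by simpa using fun h' => hx (hl.1 h')), mul_zero]

/-- **covariance of `N`** under every similarity, for sites in general position -/
theorem pvcv_N_map (C : ℝ≥0∞) (ha : a ≠ 0) (η : Conf PvPt) (h : VorGP (cfSites η)) :
    pvcvN C (cfMap (vorSim a b) η) = ENNReal.ofReal (‖a‖ ^ 2) • (pvcvN C η).map (vorSim a b) :=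
  pvcv_sum_map ha (fun x => pvcv_Nm_map C ha (pvcv_sites a b η) h x) (fun x _ => pvcv_Bar ha (pvcv_sites a b η) h x)

theorem pvcv_add_eq (t : ℂ) : (fun z : ℂ => z + t) = vorSim 1 t := by
  funext z; simp [vorSim]

theorem pvcv_smul_eq (c : ℝ) : (fun z : ℂ => c • z) = vorSim (c : ℂ) 0 := by
  funext z; simp [vorSim]

/-- `hcov` of `Mesh/Stat.lean` for `N` -/
theorem pvcv_N_cov (C : ℝ≥0∞) (t : ℂ) (η : Conf PvPt) (h : VorGP (cfSites η)) :
    pvcvN C (cfMap (fun z => z + t) η) = (pvcvN C η).map (fun z => z + t) := by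
  rw [pvcv_add_eq, pvcv_N_map C one_ne_zero η h]
  simp

/-- `hsc` of `Mesh/Stat.lean` for `N` (degree two) -/
theorem pvcv_N_sc (C : ℝ≥0∞) {c : ℝ} (hc : 0 < c) (η : Conf PvPt) (h : VorGP (cfSites η)) :
    pvcvN C (cfMap (fun z => c • z) η) = ENNReal.ofReal (c ^ (2 : ℝ)) • (pvcvN C η).map (fun z => c • z) := by
  rw [pvcv_smul_eq, pvcv_N_map C (by exact_mod_cast hc.ne') η h]
  congr 2
  rw [Complex.norm_real, Real.norm_of_nonneg hc.le]
  norm_num

theorem pvcv_gp_ae (ε : ℝ) : ∀ᵐ η ∂(pvP ε), VorGP (cfSites η) := (delgp_ae_conf ε).mono fun _ h => h.2.1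

theorem pvcv_N_cov_ae (C : ℝ≥0∞) (ε : ℝ) (t : ℂ) : ∀ᵐ η ∂(pvP ε), pvcvN C (cfMap (fun z => z + t) η) = (pvcvN C η).map (fun z => z + t) :=
  (pvcv_gp_ae ε).mono fun η h => pvcv_N_cov C t η h

theorem pvcv_N_sc_ae (C : ℝ≥0∞) (ε : ℝ) {c : ℝ} (hc : 0 < c) :
    ∀ᵐ η ∂(pvP ε), pvcvN C (cfMap (fun z => c • z) η) = ENNReal.ofReal (c ^ (2 : ℝ)) • (pvcvN C η).map (fun z => c • z) :=
  (pvcv_gp_ae ε).mono fun η h => pvcv_N_sc C hc η h

/-- **the intensity of `N` does not depend on the mesh**: `E_ε N(B) = θ₁ Area(B)`      (input: measurability, 286) -/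
theorem pvcv_N_intensity {C : ℝ≥0∞} (hC : C ≠ ∞) (hM : ∀ ε : ℝ, 0 < ε → ∀ B, MeasurableSet B → AEMeasurable (fun η => pvcvN C η B) (pvP ε))
    {ε : ℝ} (hε : 0 < ε) {B : Set ℂ} (hB : MeasurableSet B) : ∫⁻ η, pvcvN C η B ∂(pvP ε) = pvmsTh (pvcvN C) 1 * volume B := by
  have := pvms_intensity (k := 2) hM (pvcv_N_cov_ae C 1) (fun c hc => pvcv_N_sc_ae C 1 hc) (pvcv_N_fin hC one_pos) hε hB
  simpa using this

/-- **CAMPBELL for `N`**: `E_ε C ∑_{darts} g(z_t) |q_t|² = θ₁ ∫ g`, uniformly in the mesh: the right side of the annealed Bessel bounds -/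
theorem pvcv_N_campbell {C : ℝ≥0∞} (hC : C ≠ ∞) (hM : ∀ ε : ℝ, 0 < ε → ∀ B, MeasurableSet B → AEMeasurable (fun η => pvcvN C η B) (pvP ε))
    {ε : ℝ} (hε : 0 < ε) {g : ℂ → ℝ≥0∞} (hg : Measurable g) :
    ∫⁻ η, ∫⁻ z, g z ∂(pvcvN C η) ∂(pvP ε) = pvmsTh (pvcvN C) 1 * ∫⁻ z, g z := by
  have := (pvms_pv_campbell (k := 2) hM (pvcv_N_cov_ae C 1) (fun c hc => pvcv_N_sc_ae C 1 hc) (pvcv_N_fin hC one_pos) hε hg).2
  simpa using this

/-- the integral against `N` is the sum over the darts -/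
theorem pvcv_N_lintegral (C : ℝ≥0∞) (η : Conf PvPt) {g : ℂ → ℝ≥0∞} (hg : Measurable g) :
    ∫⁻ z, g z ∂(pvcvN C η) = ∑' x : ℂ × ℂ, pvcvNm C (cfSites η) x * g (pvqBar (cfSites η) x) := by
  unfold pvcvN
  rw [lintegral_sum_measure]
  refine tsum_congr fun x => ?_
  rw [lintegral_smul_measure, lintegral_dirac' _ hg, smul_eq_mul]

end shape

theorem pvcv_cov_eqns_cite : True := by
  have := @pvcvT.eq_1; have := @PvcvLoc.eq_1; have := @pvcvNm.eq_1; have := @pvcvN.eq_1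
  have := @pvcvE.eq_1
  trivial

end Claimed.Agent.R289
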