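import Claimed.Agent.R289.Defs.Bulk
import Claimed.Agent.R289.Del.Plane

/-!
# Row 289 (S0537), box S1P (Section 1 at the POISSON level), file S1P/Raw : LABELS ON RAW DARTS      (head + owner helper244; prefix `pvq`, `Pvq`)

WHY.  The full plane map `(delPl h).toMap : PvMap ↥Y (delPl h).Dart` has types which depend on the configuration.  Covariance (`z ↦ c z + a`), measurability in `ω` and the quenched Fubini all need to
compare the label structure of DIFFERENT configurations / index sets.  Here the label relations of `Pl/Defs.lean` are written once more on RAW DARTS `x : V × V`, generic in a TRIANGLE RELATION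
`Tr : V → V → V → Prop` (`Tr a b c` = `a b c` is a positively oriented face), with no hypothesis and no dependent type, together with exactly TWO transfer principles:

* **(NAT)** `PvqNat f Tr Tr'` : `f : V → V'` injective, `Tr' (f a) (f b) (f c) ↔ Tr a b c`, third vertices of `Tr'` over the range of `f` stay in the range.      Then every raw notion over `Tr'` at `(f a, f b)` is the image of the raw notion over `Tr`.
* **(BR)** for `P : PlTri V` and `plTr P a b c := P.adj a b ∧ P.apex a b = c` the raw notions at `d.1` are the notions of `P.toMap` at `d`.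

USES.      model: `V = ℂ`, `Tr = DelTri (cfSites η)`, `s = cfCol η`.
* covariance           = NAT with `f = (z ↦ c z + a) : ℂ → ℂ`                                  (274, `S1P/Cov.lean`)
* measurability in `ω` = NAT with `f = delgpW ω : DelgpIx → ℂ` + `pvf_meas_rtg` on `Ix × Ix`   (244, `S1P/Code.lean`)
* abstract Bessel, consumers in `PvMap` language = BR + NAT with `f = Subtype.val : ↥Y → ℂ`     (`pvq_del_*` below; 107 `S1P/Ann.lean`, 104 `S1/Closed.lean`)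
-/

set_option autoImplicit false

namespace Claimed.Agent.R289

open Relation

/-! ## 0. definitions -/

section defs

variable {V : Type} (Tr : V → V → V → Prop) (s : V → Bool)

/-- `y` is a dart of the face on the left of the raw dart `x` -/
def pvqSF (x y : V × V) : Prop := ∃ c, Tr x.1 x.2 c ∧ (y = x ∨ y = (x.2, c) ∨ y = (c, x.1))
/-- the face of `x` is used by a wall and `x` is its missing spoke -/
def pvqTag (x : V × V) : Prop := ∃ c, Tr x.1 x.2 c ∧ s x.1 = s x.2 ∧ s c ≠ s x.1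
/-- one step along a wall -/
def pvqWStep (x y : V × V) : Prop := pvqSF Tr x y ∨ (s x.1 ≠ s x.2 ∧ y = x.swap)
/-- `y` lies in a face of the wall through the face of `x` -/
def pvqWall (x y : V × V) : Prop := ReflTransGen (pvqWStep Tr s) x y
/-- one step in `Γ \ L`, `L` = wall of `x₀` -/
def pvqCStep (x₀ a b : V × V) : Prop := b = a.swap ∨ (pvqSF Tr a b ∧ ¬ pvqWall Tr s x₀ a)
/-- the dual edge of `y` belongs to the component reached through the missing spoke `x` -/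
def pvqInComp (x y : V × V) : Prop := ReflTransGen (pvqCStep Tr s x) x y
/-- two tags with the same label -/
def pvqSame (x y : V × V) : Prop := pvqTag Tr s x ∧ pvqTag Tr s y ∧ pvqWall Tr s x y ∧ pvqInComp Tr s x y
/-- sum of a dart function over the label of `x` -/
noncomputable def pvqSum (w : V × V → ℂ) (x : V × V) : ℂ := ∑ᶠ (y : V × V) (_ : pvqSame Tr s x y), w y
/-- number of tags of the label of `x` -/
noncomputable def pvqCard (x : V × V) : ℕ∞ := {y | pvqSame Tr s x y}.encard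

end defs

/-- **(NAT)** the hypothesis of naturality -/
structure PvqNat {V V' : Type} (f : V → V') (Tr : V → V → V → Prop) (Tr' : V' → V' → V' → Prop) : Prop where
  inj : Function.Injective f
  iff : ∀ a b c, Tr' (f a) (f b) (f c) ↔ Tr a b c
  rng : ∀ a b c', Tr' (f a) (f b) c' → ∃ c, c' = f c

/-- the triangle relation of a simple triangulation -/
def plTr {V : Type} (P : PlTri V) (a b c : V) : Prop := P.adj a b ∧ P.apex a b = c

/-- `q_t ω̄^j` for the side `a → b` of the positively oriented triangle `a b c` -/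
noncomputable def pvqq (a b c : ℂ) : ℂ := ((a - b) + pvOm * (b - c) + (starRingEnd ℂ) pvOm * (c - a)) / 3
/-- `p_t ω^j` -/
noncomputable def pvqp (a b c : ℂ) : ℂ := ((a - b) + (starRingEnd ℂ) pvOm * (b - c) + pvOm * (c - a)) / 3
/-- the `Q`-summand of the raw dart `x` of the Delaunay triangulation of `Y` -/
noncomputable def pvqWQ (Y : Set ℂ) (x : ℂ × ℂ) : ℂ := pvqq x.1 x.2 (delApex Y x.1 x.2)
/-- the `U`-summand -/
noncomputable def pvqWU (Y : Set ℂ) (x : ℂ × ℂ) : ℂ := pvqp x.1 x.2 (delApex Y x.1 x.2)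
/-- the barycentre of the face of the raw dart `x` -/
noncomputable def pvqBar (Y : Set ℂ) (x : ℂ × ℂ) : ℂ := (x.1 + x.2 + delApex Y x.1 x.2) / 3
/-- the raw dart of a dart of the Delaunay plane -/
def pvqCode {Y : Set ℂ} {h : DelGood Y} (d : (delPl h).Dart) : ℂ × ℂ := (d.1.1.1, d.1.2.1)

theorem pvq_raw_eqns_cite : True := by
  have := @pvqSF.eq_1; have := @pvqTag.eq_1; have := @pvqWStep.eq_1; have := @pvqWall.eq_1; have := @pvqCStep.eq_1; have := @pvqInComp.eq_1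
  have := @pvqSame.eq_1; have := @pvqSum.eq_1; have := @pvqCard.eq_1; have := @plTr.eq_1; have := @pvqq.eq_1; have := @pvqp.eq_1
  have := @pvqWQ.eq_1; have := @pvqWU.eq_1; have := @pvqBar.eq_1; have := @pvqCode.eq_1
  trivial

/-! ## 1. the transfer of reflexive transitive closures -/

/-- if the `R`-steps from the image of `e` are exactly the images of the `r`-steps, the same holds for the closures -/
theorem pvq_rtg {α β : Type*} (e : α → β) {r : α → α → Prop} {R : β → β → Prop} (h : ∀ a y, R (e a) y ↔ ∃ b, y = e b ∧ r a b) (a : α) (y : β) :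
    ReflTransGen R (e a) y ↔ ∃ b, y = e b ∧ ReflTransGen r a b := by
  constructor
  · intro hy
    induction hy with
    | refl => exact ⟨a, rfl, ReflTransGen.refl⟩
    | tail _ hstep ih =>
      obtain ⟨b, rfl, hab⟩ := ih
      obtain ⟨c, rfl, hbc⟩ := (h _ _).1 hstep
      exact ⟨c, rfl, hab.tail hbc⟩
  · rintro ⟨b, rfl, hab⟩
    induction hab with
    | refl => exact ReflTransGen.refl
    | tail _ hstep ih => exact ih.tail ((h _ _).2 ⟨_, rfl, hstep⟩)

theorem pvq_rtg' {α β : Type*} {e : α → β} (he : Function.Injective e) {r : α → α → Prop} {R : β → β → Prop} (h : ∀ a y, R (e a) y ↔ ∃ b, y = e b ∧ r a b)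
    (a b : α) : ReflTransGen R (e a) (e b) ↔ ReflTransGen r a b := by
  rw [pvq_rtg e h]
  constructor
  · rintro ⟨c, hc, hac⟩
    rwa [he hc]
  · intro hab
    exact ⟨b, rfl, hab⟩

/-! ## 2. (NAT) -/

section nat

variable {V V' : Type} {f : V → V'} {Tr : V → V → V → Prop} {Tr' : V' → V' → V' → Prop}

theorem PvqNat.map_inj (H : PvqNat f Tr Tr') : Function.Injective (Prod.map f f) := H.inj.prodMap H.inj

theorem pvq_nat_sf (H : PvqNat f Tr Tr') (x : V × V) (y' : V' × V') : pvqSF Tr' (Prod.map f f x) y' ↔ ∃ y, y' = Prod.map f f y ∧ pvqSF Tr x y := by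
  constructor
  · rintro ⟨c', hT, hy⟩
    obtain ⟨c, rfl⟩ := H.rng _ _ _ hT
    have hT' := (H.iff _ _ _).1 hT
    rcases hy with rfl | rfl | rfl
    · exact ⟨x, rfl, c, hT', Or.inl rfl⟩
    · exact ⟨(x.2, c), rfl, c, hT', Or.inr (Or.inl rfl)⟩
    · exact ⟨(c, x.1), rfl, c, hT', Or.inr (Or.inr rfl)⟩
  · rintro ⟨y, rfl, c, hT, hy⟩
    refine ⟨f c, (H.iff _ _ _).2 hT, ?_⟩
    rcases hy with rfl | rfl | rfl
    · exact Or.inl rfl
    · exact Or.inr (Or.inl rfl)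
    · exact Or.inr (Or.inr rfl)

theorem pvq_nat_tag (H : PvqNat f Tr Tr') (s' : V' → Bool) (x : V × V) : pvqTag Tr' s' (Prod.map f f x) ↔ pvqTag Tr (s' ∘ f) x := by
  constructor
  · rintro ⟨c', hT, h1, h2⟩
    obtain ⟨c, rfl⟩ := H.rng _ _ _ hT
    exact ⟨c, (H.iff _ _ _).1 hT, h1, h2⟩
  · rintro ⟨c, hT, h1, h2⟩
    exact ⟨f c, (H.iff _ _ _).2 hT, h1, h2⟩

theorem pvq_nat_wstep (H : PvqNat f Tr Tr') (s' : V' → Bool) (x : V × V) (y' : V' × V') :
    pvqWStep Tr' s' (Prod.map f f x) y' ↔ ∃ y, y' = Prod.map f f y ∧ pvqWStep Tr (s' ∘ f) x y := by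
  unfold pvqWStep
  rw [pvq_nat_sf H]
  constructor
  · rintro (⟨y, rfl, hy⟩ | ⟨h1, rfl⟩)
    · exact ⟨y, rfl, Or.inl hy⟩
    · exact ⟨x.swap, rfl, Or.inr ⟨h1, rfl⟩⟩
  · rintro ⟨y, rfl, hy | ⟨h1, rfl⟩⟩
    · exact Or.inl ⟨y, rfl, hy⟩
    · exact Or.inr ⟨h1, rfl⟩

theorem pvq_nat_wall (H : PvqNat f Tr Tr') (s' : V' → Bool) (x : V × V) (y' : V' × V') :
    pvqWall Tr' s' (Prod.map f f x) y' ↔ ∃ y, y' = Prod.map f f y ∧ pvqWall Tr (s' ∘ f) x y :=
  pvq_rtg (Prod.map f f) (pvq_nat_wstep H s') x y'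

theorem pvq_nat_wall' (H : PvqNat f Tr Tr') (s' : V' → Bool) (x y : V × V) : pvqWall Tr' s' (Prod.map f f x) (Prod.map f f y) ↔ pvqWall Tr (s' ∘ f) x y :=
  pvq_rtg' H.map_inj (pvq_nat_wstep H s') x y

theorem pvq_nat_cstep (H : PvqNat f Tr Tr') (s' : V' → Bool) (x₀ x : V × V) (y' : V' × V') :
    pvqCStep Tr' s' (Prod.map f f x₀) (Prod.map f f x) y' ↔ ∃ y, y' = Prod.map f f y ∧ pvqCStep Tr (s' ∘ f) x₀ x y := by
  unfold pvqCStep
  rw [pvq_nat_sf H, pvq_nat_wall' H]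
  constructor
  · rintro (rfl | ⟨⟨y, rfl, hy⟩, hw⟩)
    · exact ⟨x.swap, rfl, Or.inl rfl⟩
    · exact ⟨y, rfl, Or.inr ⟨hy, hw⟩⟩
  · rintro ⟨y, rfl, rfl | ⟨hy, hw⟩⟩
    · exact Or.inl rfl
    · exact Or.inr ⟨⟨y, rfl, hy⟩, hw⟩

theorem pvq_nat_inComp (H : PvqNat f Tr Tr') (s' : V' → Bool) (x : V × V) (y' : V' × V') :
    pvqInComp Tr' s' (Prod.map f f x) y' ↔ ∃ y, y' = Prod.map f f y ∧ pvqInComp Tr (s' ∘ f) x y :=
  pvq_rtg (Prod.map f f) (pvq_nat_cstep H s' x) x y'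

theorem pvq_nat_same' (H : PvqNat f Tr Tr') (s' : V' → Bool) (x y : V × V) : pvqSame Tr' s' (Prod.map f f x) (Prod.map f f y) ↔ pvqSame Tr (s' ∘ f) x y := by
  unfold pvqSame
  rw [pvq_nat_tag H, pvq_nat_tag H, pvq_nat_wall' H]
  have : pvqInComp Tr' s' (Prod.map f f x) (Prod.map f f y) ↔ pvqInComp Tr (s' ∘ f) x y := pvq_rtg' H.map_inj (pvq_nat_cstep H s' x) x y
  rw [this]

theorem pvq_nat_same (H : PvqNat f Tr Tr') (s' : V' → Bool) (x : V × V) (y' : V' × V') :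
    pvqSame Tr' s' (Prod.map f f x) y' ↔ ∃ y, y' = Prod.map f f y ∧ pvqSame Tr (s' ∘ f) x y := by
  constructor
  · intro h
    obtain ⟨y, rfl, -⟩ := (pvq_nat_wall H s' x y').1 h.2.2.1
    exact ⟨y, rfl, (pvq_nat_same' H s' x y).1 h⟩
  · rintro ⟨y, rfl, h⟩
    exact (pvq_nat_same' H s' x y).2 h

theorem pvq_nat_set (H : PvqNat f Tr Tr') (s' : V' → Bool) (x : V × V) :
    {y' | pvqSame Tr' s' (Prod.map f f x) y'} = Prod.map f f '' {y | pvqSame Tr (s' ∘ f) x y} := by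
  ext y'
  simp only [Set.mem_ofPred_eq, Set.mem_image]
  rw [pvq_nat_same H]
  constructor
  · rintro ⟨y, rfl, h⟩; exact ⟨y, h, rfl⟩
  · rintro ⟨y, h, rfl⟩; exact ⟨y, rfl, h⟩

theorem pvq_nat_sum (H : PvqNat f Tr Tr') (s' : V' → Bool) (w' : V' × V' → ℂ) (x : V × V) :
    pvqSum Tr' s' w' (Prod.map f f x) = pvqSum Tr (s' ∘ f) (w' ∘ Prod.map f f) x := by
  unfold pvqSum
  have h1 : (∑ᶠ (y : V' × V') (_ : pvqSame Tr' s' (Prod.map f f x) y), w' y) = ∑ᶠ y ∈ {y' | pvqSame Tr' s' (Prod.map f f x) y'}, w' y := rfl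
  rw [h1, pvq_nat_set H, finsum_mem_image H.map_inj.injOn]
  rfl

theorem pvq_nat_card (H : PvqNat f Tr Tr') (s' : V' → Bool) (x : V × V) : pvqCard Tr' s' (Prod.map f f x) = pvqCard Tr (s' ∘ f) x := by
  unfold pvqCard
  rw [pvq_nat_set H, H.map_inj.encard_image]

theorem pvq_nat_tag_rng (_H : PvqNat f Tr Tr') (hr : ∀ a' b' c', Tr' a' b' c' → ∃ a b, a' = f a ∧ b' = f b) (s' : V' → Bool) {x' : V' × V'} (h : pvqTag Tr' s' x') :
    ∃ x, x' = Prod.map f f x := by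
  obtain ⟨c', hT, -⟩ := h
  obtain ⟨a, b, h1, h2⟩ := hr _ _ _ hT
  exact ⟨(a, b), Prod.ext h1 h2⟩

end nat
/-! ## 3. (BR) -/

section br

variable {V : Type} (P : PlTri V) (s : V → Bool)

theorem pvq_br_nxt (d : P.Dart) : (P.toMap.nxt d).1 = (d.1.2, P.apex d.1.1 d.1.2) := rfl
theorem pvq_br_nxt2 (d : P.Dart) : (P.toMap.nxt (P.toMap.nxt d)).1 = (P.apex d.1.1 d.1.2, d.1.1) := by
  obtain ⟨⟨a, b⟩, h⟩ := d
  show (P.apex a b, P.apex b (P.apex a b)) = (P.apex a b, a)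
  rw [P.apex_rot h]
theorem pvq_br_opp (d : P.Dart) : (P.toMap.opp d).1 = d.1.swap := rfl

theorem pvq_br_sf (d : P.Dart) (y : V × V) : pvqSF (plTr P) d.1 y ↔ ∃ d' : P.Dart, y = d'.1 ∧ P.toMap.SF d d' := by
  constructor
  · rintro ⟨c, ⟨-, rfl⟩, hy⟩
    rcases hy with rfl | rfl | rfl
    · exact ⟨d, rfl, Or.inl rfl⟩
    · exact ⟨P.toMap.nxt d, rfl, Or.inr (Or.inl rfl)⟩
    · exact ⟨P.toMap.nxt (P.toMap.nxt d), (pvq_br_nxt2 P d).symm, Or.inr (Or.inr rfl)⟩
  · rintro ⟨d', rfl, hd⟩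
    refine ⟨P.apex d.1.1 d.1.2, ⟨d.2, rfl⟩, ?_⟩
    rcases hd with rfl | rfl | rfl
    · exact Or.inl rfl
    · exact Or.inr (Or.inl rfl)
    · exact Or.inr (Or.inr (pvq_br_nxt2 P d))

theorem pvq_br_tag (d : P.Dart) : pvqTag (plTr P) s d.1 ↔ P.toMap.Tag s d := by
  constructor
  · rintro ⟨c, ⟨-, rfl⟩, h1, h2⟩
    exact ⟨h1, h2⟩
  · rintro ⟨h1, h2⟩
    exact ⟨P.apex d.1.1 d.1.2, ⟨d.2, rfl⟩, h1, h2⟩

theorem pvq_br_wstep (d : P.Dart) (y : V × V) :
    pvqWStep (plTr P) s d.1 y ↔ ∃ d' : P.Dart, y = d'.1 ∧ (P.toMap.SF d d' ∨ (P.toMap.Occ s d ∧ d' = P.toMap.opp d)) := by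
  unfold pvqWStep
  rw [pvq_br_sf]
  constructor
  · rintro (⟨d', rfl, hd⟩ | ⟨h1, rfl⟩)
    · exact ⟨d', rfl, Or.inl hd⟩
    · exact ⟨P.toMap.opp d, rfl, Or.inr ⟨h1, rfl⟩⟩
  · rintro ⟨d', rfl, hd | ⟨h1, rfl⟩⟩
    · exact Or.inl ⟨d', rfl, hd⟩
    · exact Or.inr ⟨h1, rfl⟩

theorem pvq_br_wall (d : P.Dart) (y : V × V) : pvqWall (plTr P) s d.1 y ↔ ∃ d' : P.Dart, y = d'.1 ∧ P.toMap.Wall s d d' :=
  pvq_rtg (Subtype.val : P.Dart → V × V) (pvq_br_wstep P s) d y

theorem pvq_br_wall' (d d' : P.Dart) : pvqWall (plTr P) s d.1 d'.1 ↔ P.toMap.Wall s d d' :=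
  pvq_rtg' Subtype.val_injective (pvq_br_wstep P s) d d'

theorem pvq_br_cstep (d₀ d : P.Dart) (y : V × V) : pvqCStep (plTr P) s d₀.1 d.1 y ↔ ∃ d' : P.Dart, y = d'.1 ∧ P.toMap.CStep s d₀ d d' := by
  unfold pvqCStep PvMap.CStep
  rw [pvq_br_sf, pvq_br_wall']
  constructor
  · rintro (rfl | ⟨⟨d', rfl, hd⟩, hw⟩)
    · exact ⟨P.toMap.opp d, rfl, Or.inl rfl⟩
    · exact ⟨d', rfl, Or.inr ⟨hd, hw⟩⟩
  · rintro ⟨d', rfl, rfl | ⟨hd, hw⟩⟩
    · exact Or.inl rfl
    · exact Or.inr ⟨⟨d', rfl, hd⟩, hw⟩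

theorem pvq_br_inComp (d : P.Dart) (y : V × V) : pvqInComp (plTr P) s d.1 y ↔ ∃ d' : P.Dart, y = d'.1 ∧ P.toMap.InComp s d d' :=
  pvq_rtg (Subtype.val : P.Dart → V × V) (pvq_br_cstep P s d) d y

theorem pvq_br_same' (d d' : P.Dart) : pvqSame (plTr P) s d.1 d'.1 ↔ P.toMap.SameLab s d d' := by
  unfold pvqSame PvMap.SameLab
  rw [pvq_br_tag, pvq_br_tag, pvq_br_wall']
  have : pvqInComp (plTr P) s d.1 d'.1 ↔ P.toMap.InComp s d d' := pvq_rtg' Subtype.val_injective (pvq_br_cstep P s d) d d'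
  rw [this]

theorem pvq_br_same (d : P.Dart) (y : V × V) : pvqSame (plTr P) s d.1 y ↔ ∃ d' : P.Dart, y = d'.1 ∧ P.toMap.SameLab s d d' := by
  constructor
  · intro h
    obtain ⟨d', rfl, -⟩ := (pvq_br_wall P s d y).1 h.2.2.1
    exact ⟨d', rfl, (pvq_br_same' P s d d').1 h⟩
  · rintro ⟨d', rfl, h⟩
    exact (pvq_br_same' P s d d').2 h

theorem pvq_br_set (d : P.Dart) : {y | pvqSame (plTr P) s d.1 y} = Subtype.val '' {d' : P.Dart | P.toMap.SameLab s d d'} := by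
  ext y
  simp only [Set.mem_ofPred_eq, Set.mem_image]
  rw [pvq_br_same]
  constructor
  · rintro ⟨y, rfl, h⟩; exact ⟨y, h, rfl⟩
  · rintro ⟨y, h, rfl⟩; exact ⟨y, rfl, h⟩

theorem pvq_br_sum (w : V × V → ℂ) (d : P.Dart) : pvqSum (plTr P) s w d.1 = P.toMap.lsum s (fun d' => w d'.1) d := by
  unfold pvqSum PvMap.lsum
  have h1 : (∑ᶠ (y : V × V) (_ : pvqSame (plTr P) s d.1 y), w y) = ∑ᶠ y ∈ {y | pvqSame (plTr P) s d.1 y}, w y := rfl
  rw [h1, pvq_br_set, finsum_mem_image Subtype.val_injective.injOn]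
  rfl

theorem pvq_br_card (d : P.Dart) : pvqCard (plTr P) s d.1 = {d' | P.toMap.SameLab s d d'}.encard := by
  unfold pvqCard
  rw [pvq_br_set, Subtype.val_injective.encard_image]
  rfl

end br

/-! ## 4. the Delaunay plane: `(delPl h).toMap` against the raw darts of `DelTri Y` -/

section del

variable {Y : Set ℂ} (h : DelGood Y)

theorem pvq_del_tr (a b c : ↥Y) : DelTri Y a b c ↔ plTr (delPl h) a b c := by
  constructor
  · intro ht
    exact ⟨ht.adj, Subtype.ext (del_apex_eq h.gp ht)⟩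
  · rintro ⟨hab, rfl⟩
    exact delp_apex_spec h hab

theorem pvq_del_nat : PvqNat (Subtype.val : ↥Y → ℂ) (plTr (delPl h)) (DelTri Y) where
  inj := Subtype.val_injective
  iff a b c := pvq_del_tr h a b c
  rng _ _ c' ht := ⟨⟨c', ht.2.2.1⟩, rfl⟩

theorem pvq_code_eq (d : (delPl h).Dart) : pvqCode d = Prod.map Subtype.val Subtype.val d.1 := rfl

theorem pvq_code_inj : Function.Injective (pvqCode : (delPl h).Dart → ℂ × ℂ) := by
  intro d d' e
  apply Subtype.ext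
  exact (pvq_del_nat h).map_inj e

theorem pvq_code_range (x : ℂ × ℂ) : (∃ d : (delPl h).Dart, pvqCode d = x) ↔ DelAdj Y x.1 x.2 := by
  constructor
  · rintro ⟨d, rfl⟩
    exact d.2
  · intro hx
    exact ⟨⟨(⟨x.1, hx.1⟩, ⟨x.2, hx.2.1⟩), hx⟩, rfl⟩

theorem pvq_del_tag (s : ℂ → Bool) (d : (delPl h).Dart) : pvqTag (DelTri Y) s (pvqCode d) ↔ (delPl h).toMap.Tag (s ∘ Subtype.val) d := by
  rw [pvq_code_eq, pvq_nat_tag (pvq_del_nat h), pvq_br_tag]

theorem pvq_del_wall (s : ℂ → Bool) (d d' : (delPl h).Dart) : pvqWall (DelTri Y) s (pvqCode d) (pvqCode d') ↔ (delPl h).toMap.Wall (s ∘ Subtype.val) d d' := by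
  rw [pvq_code_eq, pvq_code_eq, pvq_nat_wall' (pvq_del_nat h), pvq_br_wall']

theorem pvq_del_same' (s : ℂ → Bool) (d d' : (delPl h).Dart) : pvqSame (DelTri Y) s (pvqCode d) (pvqCode d') ↔ (delPl h).toMap.SameLab (s ∘ Subtype.val) d d' := by
  rw [pvq_code_eq, pvq_code_eq, pvq_nat_same' (pvq_del_nat h), pvq_br_same']

theorem pvq_del_same (s : ℂ → Bool) (d : (delPl h).Dart) (y : ℂ × ℂ) :
    pvqSame (DelTri Y) s (pvqCode d) y ↔ ∃ d', y = pvqCode d' ∧ (delPl h).toMap.SameLab (s ∘ Subtype.val) d d' := by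
  rw [pvq_code_eq, pvq_nat_same (pvq_del_nat h)]
  constructor
  · rintro ⟨y, rfl, hy⟩
    obtain ⟨d', rfl, hd⟩ := (pvq_br_same _ _ d y).1 hy
    exact ⟨d', rfl, hd⟩
  · rintro ⟨d', rfl, hd⟩
    exact ⟨d'.1, rfl, (pvq_br_same' _ _ d d').2 hd⟩

theorem pvq_del_sum (s : ℂ → Bool) (w : ℂ × ℂ → ℂ) (d : (delPl h).Dart) :
    pvqSum (DelTri Y) s w (pvqCode d) = (delPl h).toMap.lsum (s ∘ Subtype.val) (fun d' => w (pvqCode d')) d := by
  rw [pvq_code_eq, pvq_nat_sum (pvq_del_nat h), pvq_br_sum]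
  rfl

theorem pvq_del_card (s : ℂ → Bool) (d : (delPl h).Dart) : pvqCard (DelTri Y) s (pvqCode d) = {d' | (delPl h).toMap.SameLab (s ∘ Subtype.val) d d'}.encard := by
  rw [pvq_code_eq, pvq_nat_card (pvq_del_nat h), pvq_br_card]

theorem pvq_del_qpart (d : (delPl h).Dart) : pvqWQ Y (pvqCode d) = (delPl h).toMap.qpart Subtype.val d := by
  unfold pvqWQ pvqq PvMap.qpart
  rw [PvMap.side_nxt, PvMap.side_nxt2]
  rfl

theorem pvq_del_upart (d : (delPl h).Dart) : pvqWU Y (pvqCode d) = (delPl h).toMap.upart Subtype.val d := by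
  unfold pvqWU pvqp PvMap.upart
  rw [PvMap.side_nxt, PvMap.side_nxt2]
  rfl

theorem pvq_del_bary (d : (delPl h).Dart) : pvqBar Y (pvqCode d) = (delPl h).toMap.bary Subtype.val d := rfl

theorem pvq_del_tag_code (s : ℂ → Bool) {x : ℂ × ℂ} (hx : pvqTag (DelTri Y) s x) : ∃ d : (delPl h).Dart, pvqCode d = x := by
  obtain ⟨c, ht, -⟩ := hx
  exact (pvq_code_range h x).2 ht.adj

end del
end Claimed.Agent.R289
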