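-- KEEP
import Claimed.Agent.R289.Rsw.VerArm
import Claimed.Agent.R289.Pl.Wall
import Claimed.Agent.R289.S1.Meas
import Claimed.Agent.R289.Defs.Bulk
import Claimed.Agent.R289.Del.Plane
import Claimed.Agent.R289.S1P.Raw

/-!
# Row 289 (S0537, Cardy for Poisson-Voronoi), box S1P, file S1P/Fin : ALMOST SURELY ALL WALLS ARE FINITE      (helper274; head of the box helper244; prefix `pvqf_`, `Pvqf`)

TEX 01-fields.tex, "Infinite volume and closed sums", first paragraph.
* sec. 1  a.s. every open quadrant contains a site (`pvqf_quad_ae`), hence a.s. `DelGood (cfSites η)` (`pvqf_good_ae`): the Delaunay plane `delPl` exists a.s.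
* sec. 2  ABSTRACT (any `PvMap` with `IsSph`): all `Mono` clusters finite ⟹ all walls finite (`pvqf_wall_fin`; banks `pl_w_bank` of 266, `pl_deg_finite`)
* sec. 3  GEOMETRY: a `Mono` chain of the Delaunay plane is a path in the region of its colour (`pvqf_join`); an infinite cluster gives arms at all radii (`pvqf_arm`)
* sec. 4  PROBABILITY: the arm events at all radii are null (`pvqf_arm_null`, from `pvra_ad` of 54, `pvr_rsw` of 262)
* sec. 7  RAW FORMS (vocabulary of `S1P/Raw.lean`, 244): `pvqf_raw_wall_ae`, `pvqf_raw_same_ae`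
* sec. 5  EXITS: `pvqf_fin_ae` (annealed), `pvqf_quench` (annealed a.s. ⟹ quenched a.s., any property), `pvqf_fin_quenched` (= hypothesis `hfin` of the infinite volume orthogonality / Bessel)
-/

set_option autoImplicit false

namespace Claimed.Agent.R289

open MeasureTheory ProbabilityTheory Set Filter Topology Relation
open scoped ENNReal NNReal

/-! ## 1. quadrants -/

/-- the four open quadrants at `(x, y)`: `i j` = signs -/
def pvqfQ (i j : Bool) (x y : ℝ) : Set ℂ := (if i then Ioi x else Iio x) ×ℂ (if j then Ioi y else Iio y)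

theorem pvqf_eqns_cite : True := by
  have := @pvqfQ.eq_1
  trivial

theorem pvqf_Q_meas (i j : Bool) (x y : ℝ) : MeasurableSet (pvqfQ i j x y) := by
  unfold pvqfQ
  have h1 : MeasurableSet (if i then Ioi x else Iio x) := by
    split_ifs
    · exact measurableSet_Ioi
    · exact measurableSet_Iio
  have h2 : MeasurableSet (if j then Ioi y else Iio y) := by
    split_ifs
    · exact measurableSet_Ioi
    · exact measurableSet_Iio
  exact (Complex.measurable_re h1).inter (Complex.measurable_im h2)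

theorem pvqf_Q_vol (i j : Bool) (x y : ℝ) : volume (pvqfQ i j x y) = ∞ := by
  unfold pvqfQ
  rw [pvr_vol_rp]
  · cases i <;> cases j <;> simp
  · split_ifs
    · exact measurableSet_Ioi
    · exact measurableSet_Iio
  · split_ifs
    · exact measurableSet_Ioi
    · exact measurableSet_Iio

theorem pvqf_Q_void (ε : ℝ) (hε : ε ≠ 0) (i j : Bool) (x y : ℝ) : pvP ε (Conf.void (pvqfQ i j x y ×ˢ (univ : Set Bool))) = 0 := by
  rw [(pv_isPpp ε).void _ ((pvqf_Q_meas i j x y).prod MeasurableSet.univ), pvm_int_prod, pvqf_Q_vol, pvm_coin_univ, mul_one,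
    ENNReal.mul_top]
  · simp [expNeg]
  · have : 0 < (ε⁻¹) ^ 2 := by positivity
    exact (ENNReal.ofReal_pos.2 this).ne'

/-- a.s. every quadrant with an integer corner contains a site -/
theorem pvqf_quadZ_ae (ε : ℝ) (hε : ε ≠ 0) : ∀ᵐ η ∂(pvP ε), ∀ (i j : Bool) (m n : ℤ), ∃ s ∈ cfSites η, s ∈ pvqfQ i j m n := by
  simp only [ae_all_iff]
  intro i j m n
  have h := pvqf_Q_void ε hε i j m n
  rw [← compl_compl (Conf.void _)] at h
  filter_upwards [mem_ae_iff.2 h] with η hη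
  rw [mem_compl_iff, Conf.mem_void] at hη
  push Not at hη
  obtain ⟨p, hp, hpQ⟩ := hη
  exact ⟨p.1, ⟨p, hp, rfl⟩, hpQ.1⟩

theorem pvqf_quad_of_Z {Y : Set ℂ} (h : ∀ (i j : Bool) (m n : ℤ), ∃ s ∈ Y, s ∈ pvqfQ i j m n) : VorQuad Y := by
  intro z
  have c1 := Int.le_ceil z.re
  have c2 := Int.le_ceil z.im
  have f1 := Int.floor_le z.re
  have f2 := Int.floor_le z.im
  refine ⟨?_, ?_, ?_, ?_⟩
  · obtain ⟨s, hs, h1, h2⟩ := h true true ⌈z.re⌉ ⌈z.im⌉
    simp only [if_true, mem_preimage, mem_Ioi] at h1 h2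
    exact ⟨s, hs, lt_of_le_of_lt c1 h1, lt_of_le_of_lt c2 h2⟩
  · obtain ⟨s, hs, h1, h2⟩ := h false true ⌊z.re⌋ ⌈z.im⌉
    simp only [if_true, Bool.false_eq_true, if_false, mem_preimage, mem_Ioi, mem_Iio] at h1 h2
    exact ⟨s, hs, lt_of_lt_of_le h1 f1, lt_of_le_of_lt c2 h2⟩
  · obtain ⟨s, hs, h1, h2⟩ := h false false ⌊z.re⌋ ⌊z.im⌋
    simp only [Bool.false_eq_true, if_false, mem_preimage, mem_Iio] at h1 h2
    exact ⟨s, hs, lt_of_lt_of_le h1 f1, lt_of_lt_of_le h2 f2⟩
  · obtain ⟨s, hs, h1, h2⟩ := h true false ⌈z.re⌉ ⌊z.im⌋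
    simp only [if_true, Bool.false_eq_true, if_false, mem_preimage, mem_Ioi, mem_Iio] at h1 h2
    exact ⟨s, hs, lt_of_le_of_lt c1 h1, lt_of_lt_of_le h2 f2⟩

/-- **a.s. every open quadrant contains a site** -/
theorem pvqf_quad_ae (ε : ℝ) (hε : ε ≠ 0) : ∀ᵐ η ∂(pvP ε), VorQuad (cfSites η) := by
  filter_upwards [pvqf_quadZ_ae ε hε] with η hη using pvqf_quad_of_Z hη

/-- the good configurations: the Delaunay plane exists, every site has one colour -/
structure PvqfGood (η : Conf PvPt) : Prop where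
  lf : PvLF η
  del : DelGood (cfSites η)
  one : ∀ p ∈ η.pts, ∀ q ∈ η.pts, p.1 = q.1 → p = q

/-- **a.s. the configuration is good** -/
theorem pvqf_good_ae (ε : ℝ) (hε : ε ≠ 0) : ∀ᵐ η ∂(pvP ε), PvqfGood η := by
  filter_upwards [pvqf_quad_ae ε hε, delgp_ae_conf ε, pvcn_LF_ae ε] with η h1 h2 h3
  exact ⟨h3, DelGood.of_quad h2.1 h2.2.1 h1, h2.2.2⟩

/-! ## 2. abstract: finite clusters ⟹ finite walls -/

theorem pvqf_wall_fin {V D : Type} {T : PvMap V D} (hT : T.IsSph) (s : V → Bool) (hfin : ∀ v, {w | T.Mono s v w}.Finite) (d : D) :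
    {d' | T.Wall s d d'}.Finite := by
  classical
  -- the sources of the darts of the wall lie in at most two clusters
  have key : ∃ F : Set V, F.Finite ∧ ∀ d', T.Wall s d d' → T.src d' ∈ F := by
    by_cases hex : ∃ d₁, T.Wall s d d₁ ∧ s (T.src d₁) ≠ s (T.src d)
    · obtain ⟨d₁, hw1, hs1⟩ := hex
      refine ⟨{w | T.Mono s (T.src d) w} ∪ {w | T.Mono s (T.src d₁) w}, (hfin _).union (hfin _), fun d' hd' => ?_⟩
      by_cases hc : s (T.src d') = s (T.src d)
      · exact Or.inl (pl_w_bank hd' hc.symm)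
      · refine Or.inr (pl_w_bank (pl_w_trans (pl_w_symm hw1) hd') ?_)
        cases h1 : s (T.src d₁) <;> cases h2 : s (T.src d') <;> cases h3 : s (T.src d) <;> simp_all
    · push Not at hex
      exact ⟨{w | T.Mono s (T.src d) w}, hfin _, fun d' hd' => pl_w_bank hd' (hex d' hd').symm⟩
  obtain ⟨F, hF, hsub⟩ := key
  refine (hF.biUnion fun v _ => pl_deg_finite hT v).subset fun d' hd' => ?_
  exact mem_biUnion (hsub d' hd') rfl

/-! ## 3. geometry -/

section geo

variable {η : Conf PvPt}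

/-- region of the colour `c` -/
def pvqfReg (η : Conf PvPt) (c : Bool) : Set ℂ := if c then cfB η else cfW η

theorem pvqf_eqns_cite2 : True := by
  have := @pvqfReg.eq_1
  trivial

theorem pvqf_col_true {v : ↥(cfSites η)} : pvfColOf η v = true ↔ (v : ℂ) ∈ cfBk η := by
  unfold pvfColOf cfBk
  exact @decide_eq_true_iff _ (_)

theorem pvqf_col_false {v : ↥(cfSites η)} (h : pvfColOf η v = false) : (v : ℂ) ∈ cfWh η := by
  obtain ⟨⟨p, c⟩, hp, hpv⟩ := v.2
  simp only at hpv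
  cases c
  · rw [← hpv]; exact hp
  · exfalso
    have : pvfColOf η v = true := pvqf_col_true.2 (by rw [← hpv]; exact hp)
    rw [h] at this
    exact absurd this (by decide)

/-- the closed cell of a site lies in the region of its colour -/
theorem pvqf_cell_sub (v : ↥(cfSites η)) : vorCell (cfSites η) v ⊆ pvqfReg η (pvfColOf η v) := by
  intro z hz
  unfold pvqfReg
  cases h : pvfColOf η v
  · rw [if_neg (by decide)]
    exact ⟨v, pvqf_col_false h, fun w hw => hz w (pvr_Bk_sub η hw)⟩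
  · rw [if_pos rfl]
    exact ⟨v, pvqf_col_true.1 h, fun w hw => hz w (pvr_Wh_sub η hw)⟩

theorem pvqf_adj_iff (h : DelGood (cfSites η)) (a b : ↥(cfSites η)) : (delPl h).toMap.Adj a b ↔ DelAdj (cfSites η) a b := by
  constructor
  · rintro ⟨d, rfl, rfl⟩
    exact d.2
  · intro hab
    exact ⟨⟨(a, b), hab⟩, rfl, rfl⟩

/-- two adjacent sites of one colour are joined in the region of this colour -/
theorem pvqf_join_step {a b : ↥(cfSites η)} (hab : DelAdj (cfSites η) a b) (hc : pvfColOf η a = pvfColOf η b) :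
    JoinedIn (pvqfReg η (pvfColOf η a)) a b := by
  obtain ⟨-, -, -, z, hza, hzb⟩ := hab
  have h1 : JoinedIn (vorCell (cfSites η) a) a z :=
    ((vor_convex_cell _ _).isPathConnected ⟨_, vor_self_mem _ _⟩).joinedIn _ (vor_self_mem _ _) _ hza
  have h2 : JoinedIn (vorCell (cfSites η) b) z b :=
    ((vor_convex_cell _ _).isPathConnected ⟨_, vor_self_mem _ _⟩).joinedIn _ hzb _ (vor_self_mem _ _)
  exact (h1.mono (pvqf_cell_sub a)).trans (h2.mono (by rw [hc]; exact pvqf_cell_sub b))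

/-- **a monochromatic chain of the Delaunay plane is a path in the region of its colour** -/
theorem pvqf_join (h : DelGood (cfSites η)) {a b : ↥(cfSites η)} (hab : (delPl h).toMap.Mono (pvfColOf η) a b) :
    pvfColOf η b = pvfColOf η a ∧ JoinedIn (pvqfReg η (pvfColOf η a)) a b := by
  induction hab with
  | refl => exact ⟨rfl, JoinedIn.refl (pvqf_cell_sub a (vor_self_mem _ _))⟩
  | tail _ hbc ih =>
    obtain ⟨hadj, hcol⟩ := hbc
    refine ⟨by rw [← hcol, ih.1], ih.2.trans ?_⟩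
    have := pvqf_join_step ((pvqf_adj_iff h _ _).1 hadj) hcol
    rwa [ih.1] at this

/-- **an infinite cluster gives arms at all radii** -/
theorem pvqf_arm (hη : PvqfGood η) {a : ↥(cfSites η)} (hinf : {b | (delPl hη.del).toMap.Mono (pvfColOf η) a b}.Infinite)
    {t : ℝ} (ht : (a : ℂ) ∈ rswRect (0 - t) (0 + t) (0 - t) (0 + t)) (r : ℝ) (hr : t ≤ r) : (rswArm 0 0 t r).Holds (pvqfReg η (pvfColOf η a)) := by
  -- a site of the cluster outside the big square
  have hfin : {b : ↥(cfSites η) | (b : ℂ) ∈ Metric.closedBall (0 : ℂ) (2 * |r|)}.Finite := by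
    have h1 := hη.del.lf (2 * |r|)
    have : {b : ↥(cfSites η) | (b : ℂ) ∈ Metric.closedBall (0 : ℂ) (2 * |r|)} = Subtype.val ⁻¹' (cfSites η ∩ Metric.closedBall (0 : ℂ) (2 * |r|)) := by
      ext b; simp
    rw [this]
    exact h1.preimage Subtype.val_injective.injOn
  obtain ⟨b, hb, hbout⟩ := (hinf.sdiff hfin).nonempty
  obtain ⟨-, hj⟩ := pvqf_join hη.del hb
  have hbig : ¬ (0 - r < (b : ℂ).re ∧ (b : ℂ).re < 0 + r ∧ 0 - r < (b : ℂ).im ∧ (b : ℂ).im < 0 + r) := by
    rintro ⟨h1, h2, h3, h4⟩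
    apply hbout
    rw [mem_ofPred_eq, mem_closedBall_zero_iff]
    have hre : |(b : ℂ).re| ≤ |r| := by
      rw [abs_le]; constructor <;> [linarith [neg_abs_le r, le_abs_self r]; linarith [le_abs_self r]]
    have him : |(b : ℂ).im| ≤ |r| := by
      rw [abs_le]; constructor <;> [linarith [neg_abs_le r, le_abs_self r]; linarith [le_abs_self r]]
    calc ‖(b : ℂ)‖ ≤ |(b : ℂ).re| + |(b : ℂ).im| := Complex.norm_le_abs_re_add_abs_im _
      _ ≤ 2 * |r| := by linarith
  have ha' : (a : ℂ) ∈ rswRect (0 - r) (0 + r) (0 - r) (0 + r) :=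
    rsw_rect_mono (by linarith) (by linarith) (by linarith) (by linarith) ht
  obtain ⟨z, hz, hzb⟩ := rsw_first_exit hj ha' hbig
  exact ⟨a, ht, z, ⟨hz.target_mem.2, hzb⟩, hz⟩

end geo

/-! ## 4. probability: no arm to infinity -/

/-- four white crossings of the `#`, every mesh (`pvr_W_prob` of 262 at mesh one) -/
theorem pvqf_W_prob (ε : ℝ) {c u : ℝ} (hc : 0 ≤ c) (h : ENNReal.ofReal c ≤ pvP ε (pvrEv (rswLR 0 (6 * u) 0 u))) : c ^ 4 ≤ (pvP ε (pvraW u)).toReal := by
  have h1 := pvr_fkg_listW ε (pvraHash u) (pvra_hash_nice u)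
  have h2 : (pvraHash u).map (fun e => pvP ε (pvrEvW e)) = (pvraHash u).map (fun _ => pvP ε (pvrEv (rswLR 0 (6 * u) 0 u))) :=
    List.map_congr_left fun e he => pvr_hash_prob ε u e he
  rw [h2] at h1
  have h3 : ((pvraHash u).map (fun _ => pvP ε (pvrEv (rswLR 0 (6 * u) 0 u)))).prod = pvP ε (pvrEv (rswLR 0 (6 * u) 0 u)) ^ 4 := by
    simp only [pvraHash, List.map_cons, List.map_nil, List.prod_cons, List.prod_nil]
    ring
  rw [h3] at h1
  have h4 : ENNReal.ofReal (c ^ 4) ≤ pvP ε (pvraW u) := by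
    rw [ENNReal.ofReal_pow hc]
    exact (pow_le_pow_left' h 4).trans h1
  exact (ENNReal.ofReal_le_iff_le_toReal (measure_ne_top _ _)).1 h4

/-- the event: arms of the colour `c` from the box of radius `t` to all larger radii -/
def pvqfInf (c : Bool) (t : ℝ) : Set (Conf PvPt) := {η | ∀ r, t ≤ r → (rswArm 0 0 t r).Holds (pvqfReg η c)}

theorem pvqf_eqns_cite3 : True := by
  have := @pvqfInf.eq_1
  trivial

theorem pvqf_inf_black_null {ε : ℝ} (hε : 0 < ε) {t : ℝ} (ht : 1 ≤ t) : pvP ε (pvqfInf true t) = 0 := by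
  obtain ⟨c, hc, hrsw⟩ := pvr_rsw 6 (by norm_num)
  refine le_antisymm (ENNReal.le_of_forall_pos_le_add fun δ hδ _ => ?_) zero_le
  rw [zero_add]
  have hδ' : (0 : ℝ) < δ := by exact_mod_cast hδ
  obtain ⟨C, hC, h⟩ := pvra_ad hε (pv_isPpp ε) (fun e he => pvr_evW_meas he) (c' := c ^ 4) (δ := δ) (by positivity) hδ'
  have h1 := h t ht fun u hu1 _ => pvqf_W_prob ε hc.le (by
    have := hrsw ε hε u (by linarith) 0
    rwa [pvr_inv_tr] at this)
  have h2 : pvP ε {η | (rswArm 0 0 t (C * t)).Holds (pvrbM (cfBk η) (cfWh η))} ≤ ENNReal.ofReal δ :=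
    ((ENNReal.lt_ofReal_iff_toReal_lt (measure_ne_top _ _)).2 h1).le
  rw [ENNReal.ofReal_coe_nnreal] at h2
  refine (measure_mono fun η hη => ?_).trans h2
  have := hη (C * t) (by nlinarith)
  unfold pvqfReg at this
  rwa [if_pos rfl] at this

theorem pvqf_inf_null {ε : ℝ} (hε : 0 < ε) (c : Bool) {t : ℝ} (ht : 1 ≤ t) : pvP ε (pvqfInf c t) = 0 := by
  cases c
  · have e : pvqfInf false t = cfFlip ⁻¹' pvqfInf true t := by
      ext η
      simp only [pvqfInf, pvqfReg, mem_ofPred_eq, mem_preimage, if_true, Bool.false_eq_true, if_false, pvr_W_eq]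
    rw [e, pvr_flip_apply]
    exact pvqf_inf_black_null hε ht
  · exact pvqf_inf_black_null hε ht

/-- **a.s. no arm to infinity** -/
theorem pvqf_noarm_ae {ε : ℝ} (hε : 0 < ε) : ∀ᵐ η ∂(pvP ε), ∀ (c : Bool) (n : ℕ), η ∉ pvqfInf c ((n : ℝ) + 1) := by
  simp only [ae_all_iff]
  intro c n
  have h := pvqf_inf_null hε c (t := (n : ℝ) + 1) (by have : (0 : ℝ) ≤ n := Nat.cast_nonneg n; linarith)
  rw [← compl_compl (pvqfInf c _)] at h
  exact mem_ae_iff.2 h

/-! ## 5. exits -/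

/-- all clusters of a good configuration without arms to infinity are finite -/
theorem pvqf_cluster_fin {η : Conf PvPt} (hη : PvqfGood η) (harm : ∀ (c : Bool) (n : ℕ), η ∉ pvqfInf c ((n : ℝ) + 1)) (a : ↥(cfSites η)) :
    {b | (delPl hη.del).toMap.Mono (pvfColOf η) a b}.Finite := by
  by_contra hinf
  obtain ⟨n, hn⟩ := exists_nat_ge (|(a : ℂ).re| + |(a : ℂ).im|)
  have h1 := abs_le.1 ((le_add_of_nonneg_right (abs_nonneg (a : ℂ).im)).trans hn)
  have h2 := abs_le.1 ((le_add_of_nonneg_left (abs_nonneg (a : ℂ).re)).trans hn)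
  refine harm (pvfColOf η a) n fun r hr => pvqf_arm hη hinf ?_ r hr
  exact ⟨by linarith [h1.1], by linarith [h1.2], by linarith [h2.1], by linarith [h2.2]⟩

/-- `Y` carries the Delaunay plane and all walls of the colouring `σ` are finite -/
def PvqfFin (Y : Set ℂ) (σ : ↥Y → Bool) : Prop := ∃ h : DelGood Y, ∀ d, {d' | (delPl h).toMap.Wall σ d d'}.Finite

/-- `Y` carries the Delaunay plane and all monochromatic clusters of the colouring `σ` are finite -/
def PvqfFinC (Y : Set ℂ) (σ : ↥Y → Bool) : Prop := ∃ h : DelGood Y, ∀ a, {b | (delPl h).toMap.Mono σ a b}.Finite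

theorem pvqf_eqns_cite4 : True := by
  have := @PvqfFin.eq_1; have := @PvqfFinC.eq_1
  trivial

theorem PvqfFinC.fin {Y : Set ℂ} {σ : ↥Y → Bool} (h : PvqfFinC Y σ) : PvqfFin Y σ := by
  obtain ⟨h, hf⟩ := h
  exact ⟨h, fun d => pvqf_wall_fin (delp_isSph h) σ hf d⟩

/-- **EXIT (annealed)**: a.s. there is no infinite monochromatic cluster -/
theorem pvqf_finC_ae {ε : ℝ} (hε : 0 < ε) : ∀ᵐ η ∂(pvP ε), PvqfFinC (cfSites η) (pvfColOf η) := by
  filter_upwards [pvqf_good_ae ε hε.ne', pvqf_noarm_ae hε] with η h1 h2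
  exact ⟨h1.del, fun a => pvqf_cluster_fin h1 h2 a⟩

/-- **EXIT (annealed)**: a.s. all walls are finite -/
theorem pvqf_fin_ae {ε : ℝ} (hε : 0 < ε) : ∀ᵐ η ∂(pvP ε), PvqfFin (cfSites η) (pvfColOf η) := by
  filter_upwards [pvqf_finC_ae hε] with η h using h.fin

/-- **annealed a.s. ⟹ quenched a.s.**, for EVERY property (no measurability) -/
theorem pvqf_quench (ε : ℝ) {p : Conf PvPt → Prop} (h : ∀ᵐ η ∂(pvP ε), p η) :
    ∀ᵐ b ∂(pvfBaseLaw ε), ∀ᵐ σ ∂(colLaw ↥(pvfSites b)), p (pvfCf (pvfSites b) σ) := by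
  obtain ⟨N, hsub, hN, hN0⟩ := exists_measurable_superset_of_null (mem_ae_iff.1 h)
  have h1 : ∀ᵐ η ∂(pvP ε), η ∉ N := by
    rw [← compl_compl N] at hN0
    exact mem_ae_iff.2 hN0
  have h2 : ∀ᵐ ω ∂(Claims.C0465.pvLaw ε), pvConf ω ∉ N := ae_of_ae_map measurable_pvConf.aemeasurable h1
  have h3 := (pvf_qcol_ae ε (p := fun ω => pvConf ω ∉ N) (measurable_pvConf hN).compl).1 h2
  filter_upwards [h3, pvf_ae_inj ε] with b hb hinj
  have hm : MeasurableSet {σ : ↥(pvfSites b) → Bool | pvfCf (pvfSites b) σ ∉ N} := (pvf_measurable_cf (pvf_sites_countable b) hN).compl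
  have h4 : ∀ᵐ σ ∂(colLaw ↥(pvfSites b)), pvfCf (pvfSites b) σ ∉ N := by
    rw [← pvf_colLaw_comp (pvfIdx b) (pvf_idx_inj b)]
    have hg : Measurable fun s : PvfIx → Bool => s ∘ pvfIdx b := measurable_pi_lambda _ fun v => measurable_pi_apply _
    rw [ae_map_iff hg.aemeasurable hm]
    filter_upwards [hb] with s hs
    rwa [pvf_conf_glue hinj.injOn] at hs
  filter_upwards [h4] with σ hσ
  by_contra hp
  exact hσ (hsub hp)

/-- **EXIT (quenched)** = the hypothesis `hfin` of the orthogonality / Bessel identities in infinite volume: for almost every set of sites, for almost every colouring, all walls are finite -/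
theorem pvqf_fin_quenched {ε : ℝ} (hε : 0 < ε) : ∀ᵐ b ∂(pvfBaseLaw ε), ∀ᵐ σ ∂(colLaw ↥(pvfSites b)), PvqfFin (pvfSites b) σ := by
  filter_upwards [pvqf_quench ε (pvqf_fin_ae hε)] with b hb
  filter_upwards [hb] with σ hσ
  rwa [pvf_cf_rec PvqfFin] at hσ

theorem pvqf_finC_quenched {ε : ℝ} (hε : 0 < ε) : ∀ᵐ b ∂(pvfBaseLaw ε), ∀ᵐ σ ∂(colLaw ↥(pvfSites b)), PvqfFinC (pvfSites b) σ := by
  filter_upwards [pvqf_quench ε (pvqf_finC_ae hε)] with b hb
  filter_upwards [hb] with σ hσ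
  rwa [pvf_cf_rec PvqfFinC] at hσ

/-- the form with the proof of `DelGood` outside the colours -/
theorem pvqf_fin_quenched' {ε : ℝ} (hε : 0 < ε) : ∀ᵐ b ∂(pvfBaseLaw ε), ∃ h : DelGood (pvfSites b),
    ∀ᵐ σ ∂(colLaw ↥(pvfSites b)), ∀ d, {d' | (delPl h).toMap.Wall σ d d'}.Finite := by
  filter_upwards [pvqf_fin_quenched hε] with b hb
  obtain ⟨σ, h, -⟩ := hb.exists
  refine ⟨h, ?_⟩
  filter_upwards [hb] with σ hσ
  obtain ⟨_, hf⟩ := hσ
  exact hf

/-! ## 6. complements for the consumers -/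

/-- the two colourings of record agree -/
theorem pvqf_col_eq (η : Conf PvPt) (v : ↥(cfSites η)) : pvfColOf η v = cfCol η v := by
  unfold pvfColOf cfCol
  exact decide_eq_decide.2 Iff.rfl

theorem pvqf_col_eq' (η : Conf PvPt) : pvfColOf η = fun v : ↥(cfSites η) => cfCol η v := funext (pvqf_col_eq η)

/-- a label is a part of its wall -/
theorem pvqf_label_sub {V D : Type} (T : PvMap V D) (s : V → Bool) (d : D) : {d' | T.SameLab s d d'} ⊆ {d' | T.Wall s d d'} :=
  fun _ h => h.2.2.1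

/-- finite walls ⟹ finite labels -/
theorem pvqf_label_fin {V D : Type} {T : PvMap V D} {s : V → Bool} {d : D} (h : {d' | T.Wall s d d'}.Finite) : {d' | T.SameLab s d d'}.Finite :=
  h.subset (pvqf_label_sub T s d)

theorem PvqfFin.label {Y : Set ℂ} {σ : ↥Y → Bool} (h : PvqfFin Y σ) : ∃ h : DelGood Y, ∀ d, {d' | (delPl h).toMap.SameLab σ d d'}.Finite := by
  obtain ⟨h, hf⟩ := h
  exact ⟨h, fun d => pvqf_label_fin (hf d)⟩

/-- with any proof of `DelGood` -/
theorem PvqfFin.wall {Y : Set ℂ} {σ : ↥Y → Bool} (h : PvqfFin Y σ) (hY : DelGood Y) (d : (delPl hY).Dart) : {d' | (delPl hY).toMap.Wall σ d d'}.Finite := by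
  obtain ⟨_, hf⟩ := h
  exact hf d

theorem PvqfFinC.cluster {Y : Set ℂ} {σ : ↥Y → Bool} (h : PvqfFinC Y σ) (hY : DelGood Y) (a : ↥Y) : {b | (delPl hY).toMap.Mono σ a b}.Finite := by
  obtain ⟨_, hf⟩ := h
  exact hf a

/-- the sum over a label is a finite sum -/
theorem pvqf_lsum_eq {V D : Type} {T : PvMap V D} {s : V → Bool} {d : D} (h : {d' | T.SameLab s d d'}.Finite) (w : D → ℂ) :
    T.lsum s w d = ∑ d' ∈ h.toFinset, w d' := by
  unfold PvMap.lsum
  exact finsum_mem_eq_finite_toFinset_sum (fun d' => w d') h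

/-- a.s. in the frozen sample space -/
theorem pvqf_good_ae_law (ε : ℝ) (hε : ε ≠ 0) : ∀ᵐ ω ∂(Claims.C0465.pvLaw ε), PvqfGood (pvConf ω) :=
  ae_of_ae_map measurable_pvConf.aemeasurable (pvqf_good_ae ε hε)

theorem pvqf_fin_ae_law {ε : ℝ} (hε : 0 < ε) : ∀ᵐ ω ∂(Claims.C0465.pvLaw ε), PvqfFin (cfSites (pvConf ω)) (pvfColOf (pvConf ω)) :=
  ae_of_ae_map measurable_pvConf.aemeasurable (pvqf_fin_ae hε)

theorem pvqf_finC_ae_law {ε : ℝ} (hε : 0 < ε) : ∀ᵐ ω ∂(Claims.C0465.pvLaw ε), PvqfFinC (cfSites (pvConf ω)) (pvfColOf (pvConf ω)) :=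
  ae_of_ae_map measurable_pvConf.aemeasurable (pvqf_finC_ae hε)

/-- a.s. the set of sites of the base carries the Delaunay plane -/
theorem pvqf_good_base (ε : ℝ) (hε : ε ≠ 0) : ∀ᵐ b ∂(pvfBaseLaw ε), DelGood (pvfSites b) := by
  refine pvf_ae_base ε ?_
  filter_upwards [pvqf_good_ae_law ε hε] with ω hω
  have h := hω.del
  rwa [← pvf_glue_base_col ω, pvf_cfSites_glue] at h

/-- the vertices and the darts of the Delaunay plane are countable -/
theorem pvqf_countable_V {Y : Set ℂ} (h : VorLF Y) : Countable ↥Y := by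
  have : Y = ⋃ n : ℕ, Y ∩ Metric.closedBall (0 : ℂ) n := by
    ext z
    simp only [mem_iUnion, mem_inter_iff, mem_closedBall_zero_iff, exists_and_left, iff_self_and]
    exact fun _ => exists_nat_ge ‖z‖
  have hc : Y.Countable := by
    rw [this]
    exact countable_iUnion fun n => (h n).countable
  exact hc.to_subtype

theorem pvqf_countable_D {Y : Set ℂ} (h : DelGood Y) : Countable (delPl h).Dart := by
  have := pvqf_countable_V h.lf
  unfold PlTri.Dart
  infer_instance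

/-! ## 7. raw forms (vocabulary of `S1P/Raw.lean`) -/

/-- the raw wall of a pair which is not a Delaunay edge has at most two elements -/
theorem pvqf_raw_junk {Y : Set ℂ} (s : ℂ → Bool) {x : ℂ × ℂ} (hx : ¬ DelAdj Y x.1 x.2) {y : ℂ × ℂ} (h : pvqWall (DelTri Y) s x y) : y = x ∨ y = x.swap := by
  induction h with
  | refl => exact Or.inl rfl
  | tail _ hbc ih =>
    rcases hbc with ⟨c, hc, -⟩ | ⟨-, rfl⟩
    · exfalso
      rcases ih with rfl | rfl
      · exact hx hc.adj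
      · exact hx hc.adj.symm
    · rcases ih with rfl | rfl
      · exact Or.inr rfl
      · exact Or.inl (Prod.swap_swap _)

/-- finite walls of the Delaunay plane ⟹ finite raw walls, at EVERY raw dart -/
theorem pvqf_raw_wall_fin {Y : Set ℂ} (h : DelGood Y) (s : ℂ → Bool) (hf : ∀ d, {d' | (delPl h).toMap.Wall (s ∘ Subtype.val) d d'}.Finite) (x : ℂ × ℂ) :
    {y | pvqWall (DelTri Y) s x y}.Finite := by
  by_cases hx : DelAdj Y x.1 x.2
  · obtain ⟨d, rfl⟩ := (pvq_code_range h x).2 hx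
    refine ((hf d).image pvqCode).subset fun y hy => ?_
    rw [mem_ofPred_eq, pvq_code_eq, pvq_nat_wall (pvq_del_nat h)] at hy
    obtain ⟨y0, rfl, hy0⟩ := hy
    obtain ⟨d', rfl, hd'⟩ := (pvq_br_wall (delPl h) (s ∘ Subtype.val) d y0).1 hy0
    exact ⟨d', hd', rfl⟩
  · exact (Set.toFinite {x, x.swap}).subset fun y hy => by
      rcases pvqf_raw_junk s hx hy with rfl | rfl
      · exact Or.inl rfl
      · exact Or.inr rfl

theorem pvqf_raw_same_sub {V : Type} (Tr : V → V → V → Prop) (s : V → Bool) (x : V × V) : {y | pvqSame Tr s x y} ⊆ {y | pvqWall Tr s x y} :=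
  fun _ h => h.2.2.1

/-- **EXIT (raw, annealed)**: a.s. all raw walls are finite -/
theorem pvqf_raw_wall_ae {ε : ℝ} (hε : 0 < ε) : ∀ᵐ η ∂(pvP ε), ∀ x : ℂ × ℂ, {y | pvqWall (DelTri (cfSites η)) (cfCol η) x y}.Finite := by
  filter_upwards [pvqf_fin_ae hε] with η hη x
  obtain ⟨h, hf⟩ := hη
  refine pvqf_raw_wall_fin h (cfCol η) (fun d => ?_) x
  have e : cfCol η ∘ Subtype.val = pvfColOf η := (pvqf_col_eq' η).symm
  rw [e]
  exact hf d

/-- **EXIT (raw, annealed)**: a.s. all raw labels are finite -/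
theorem pvqf_raw_same_ae {ε : ℝ} (hε : 0 < ε) : ∀ᵐ η ∂(pvP ε), ∀ x : ℂ × ℂ, {y | pvqSame (DelTri (cfSites η)) (cfCol η) x y}.Finite := by
  filter_upwards [pvqf_raw_wall_ae hε] with η hη x
  exact (hη x).subset (pvqf_raw_same_sub _ _ x)

/-- a.s. the cardinal of every raw label is finite -/
theorem pvqf_raw_card_ae {ε : ℝ} (hε : 0 < ε) : ∀ᵐ η ∂(pvP ε), ∀ x : ℂ × ℂ, pvqCard (DelTri (cfSites η)) (cfCol η) x ≠ ⊤ := by
  filter_upwards [pvqf_raw_same_ae hε] with η hη x
  unfold pvqCard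
  exact (Set.encard_lt_top_iff.2 (hη x)).ne

end Claimed.Agent.R289
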