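import Claimed.Agent.R289.S1P.Raw
import Claimed.Agent.R289.S1.Bessel
import Claimed.Agent.R289.S1P.Fin
import Claimed.Agent.R289.S1.OrthInf
import Claimed.Agent.R289.S1P.Cov

/-!
# Row 289 (S0537), box S1P, file S1P/Ann : THE LABEL ENERGY AND THE ANNEALED BESSEL BOUND      (head + owner helper244; prefix `pvq`)

* sec. 1  abstract, any `T : PvMap V D`: `T.labEn s x = ∑_λ |∑_{d ∈ λ} x d|²` written as a series over the TAGS (`mass / number of tags`: no quotient type, no anchors; labels with infinitely many tags weigh `0`);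
          `pvq_labEn_le` (`≤ foE` of helper185, for `x` carried by a finite set `Z`: NO finiteness of labels), `pvq_labEn_ge` (finite families of distinct finite labels), `pvq_labEn_bessel` (quenched Bessel bound)
* sec. 2  the raw form `pvqEn Y s w` on `ℂ × ℂ`, `pvq_en_eq` (dictionary), `pvq_en_ge`, `pvq_en_congr`, `pvq_en_bessel`
* sec. 3  quenched Fubini for a.e.-measurable functionals (`pvq_quenched`, on `pvf_quenched` of helper268)
* sec. 4  **`pvq_ann`** the annealed Bessel bound `E ∑_λ |X_λ(w)|² ≤ 1/4 E ∑_x |w x|²` for geometric `ζ`-covariant weights with finite support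
-/

set_option autoImplicit false

namespace Claimed.Agent.R289

open MeasureTheory Set
open scoped ENNReal

/-! ## 1. the label energy of a dart structure -/

namespace PvMap

variable {V D : Type} (T : PvMap V D)

open Classical in
/-- `∑_λ |∑_{d ∈ λ} x d|²` as a series over the tags -/
noncomputable def labEn (s : V → Bool) (x : D → ℂ) : ℝ≥0∞ :=
  ∑' d, if T.Tag s d then ENNReal.ofReal (‖T.lsum s x d‖ ^ 2) / ({d' | T.SameLab s d d'}.encard : ℝ≥0∞) else 0

end PvMap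

open Classical in
/-- the label energy on raw darts of the Delaunay triangulation of `Y` -/
noncomputable def pvqEn (Y : Set ℂ) (s : ℂ → Bool) (w : ℂ × ℂ → ℂ) : ℝ≥0∞ :=
  ∑' x : ℂ × ℂ, if pvqTag (DelTri Y) s x then ENNReal.ofReal (‖pvqSum (DelTri Y) s w x‖ ^ 2) / (pvqCard (DelTri Y) s x : ℝ≥0∞) else 0

theorem pvq_ann_eqns_cite : True := by
  have := @PvMap.labEn.eq_1; have := @pvqEn.eq_1
  trivial

namespace PvMap

variable {V D : Type} (T : PvMap V D)

theorem pvq_lab_set_congr (s : V → Bool) {d e : D} (h : T.SameLab s d e) : {d' | T.SameLab s e d'} = {d' | T.SameLab s d d'} := by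
  ext d'
  exact ⟨fun h' => T.sameLab_trans s h h', fun h' => T.sameLab_trans s (T.sameLab_symm s h) h'⟩

theorem pvq_lsum_congr (s : V → Bool) (x : D → ℂ) {d e : D} (h : T.SameLab s d e) : T.lsum s x e = T.lsum s x d := by
  unfold lsum
  have e1 : ∀ a : D, (∑ᶠ (d' : D) (_ : T.SameLab s a d'), x d') = ∑ᶠ d' ∈ {d' | T.SameLab s a d'}, x d' := fun _ => rfl
  rw [e1, e1, T.pvq_lab_set_congr s h]

open Classical in
/-- the label sum of a function carried by the finite set `Z` -/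
theorem pvq_lsum_eq (s : V → Bool) (x : D → ℂ) (Z : Finset D) (hx : ∀ d, d ∉ Z → x d = 0) (d : D) : T.lsum s x d = ∑ d' ∈ T.foCls Z s d, x d' := by
  unfold lsum foCls
  have e1 : (∑ᶠ (d' : D) (_ : T.SameLab s d d'), x d') = ∑ᶠ d' ∈ {d' | T.SameLab s d d'}, x d' := rfl
  rw [e1]
  refine finsum_mem_eq_sum_of_inter_support_eq x ?_
  ext d'
  simp only [mem_inter_iff, mem_ofPred_eq, Function.mem_support, Finset.coe_filter]
  constructor
  · rintro ⟨h1, h2⟩
    exact ⟨⟨by_contra fun h => h2 (hx d' h), h1⟩, h2⟩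
  · rintro ⟨⟨-, h1⟩, h2⟩
    exact ⟨h1, h2⟩

open Classical in
/-- the mass of one label -/
theorem pvq_lab_mass_le (s : V → Bool) (x : D → ℂ) (e : D) :
    ∑' d, (if T.SameLab s e d then (if T.Tag s d then ENNReal.ofReal (‖T.lsum s x d‖ ^ 2) / ({d' | T.SameLab s d d'}.encard : ℝ≥0∞) else 0) else 0)
      ≤ ENNReal.ofReal (‖T.lsum s x e‖ ^ 2) := by
  have h1 : ∀ d, (if T.SameLab s e d then (if T.Tag s d then ENNReal.ofReal (‖T.lsum s x d‖ ^ 2) / ({d' | T.SameLab s d d'}.encard : ℝ≥0∞) else 0) else 0)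
      = {d | T.SameLab s e d}.indicator (fun _ => ENNReal.ofReal (‖T.lsum s x e‖ ^ 2) / ({d' | T.SameLab s e d'}.encard : ℝ≥0∞)) d := by
    intro d
    by_cases h : T.SameLab s e d
    · rw [if_pos h, if_pos h.2.1, indicator_of_mem (by exact h), T.pvq_lsum_congr s x h, T.pvq_lab_set_congr s h]
    · rw [if_neg h, indicator_of_notMem (by exact h)]
  rw [tsum_congr h1, ← tsum_subtype, ENNReal.tsum_set_const]
  exact ENNReal.mul_div_le

open Classical in
theorem pvq_lab_mass_eq (s : V → Bool) (x : D → ℂ) {e : D} (he : T.Tag s e) (hf : {d' | T.SameLab s e d'}.Finite) :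
    ∑' d, (if T.SameLab s e d then (if T.Tag s d then ENNReal.ofReal (‖T.lsum s x d‖ ^ 2) / ({d' | T.SameLab s d d'}.encard : ℝ≥0∞) else 0) else 0)
      = ENNReal.ofReal (‖T.lsum s x e‖ ^ 2) := by
  have h1 : ∀ d, (if T.SameLab s e d then (if T.Tag s d then ENNReal.ofReal (‖T.lsum s x d‖ ^ 2) / ({d' | T.SameLab s d d'}.encard : ℝ≥0∞) else 0) else 0)
      = {d | T.SameLab s e d}.indicator (fun _ => ENNReal.ofReal (‖T.lsum s x e‖ ^ 2) / ({d' | T.SameLab s e d'}.encard : ℝ≥0∞)) d := by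
    intro d
    by_cases h : T.SameLab s e d
    · rw [if_pos h, if_pos h.2.1, indicator_of_mem (by exact h), T.pvq_lsum_congr s x h, T.pvq_lab_set_congr s h]
    · rw [if_neg h, indicator_of_notMem (by exact h)]
  rw [tsum_congr h1, ← tsum_subtype, ENNReal.tsum_set_const]
  refine ENNReal.mul_div_cancel ?_ ?_
  · have : {d' | T.SameLab s e d'}.encard ≠ 0 := by
      rw [Set.encard_ne_zero]
      exact ⟨e, T.sameLab_refl s he⟩
    exact_mod_cast this
  · have : {d' | T.SameLab s e d'}.encard ≠ ⊤ := by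
      rw [Set.encard_ne_top_iff]
      exact hf
    simpa using this

open Classical in
/-- **upper bound**: the label energy of a function carried by `Z` is at most the energy `foE` of the traces of the labels on `Z` -/
theorem pvq_labEn_le (s : V → Bool) (x : D → ℂ) (Z : Finset D) (hx : ∀ d, d ∉ Z → x d = 0) : T.labEn s x ≤ ENNReal.ofReal (T.foE x Z s) := by
  set f : D → ℝ≥0∞ := fun d => if T.Tag s d then ENNReal.ofReal (‖T.lsum s x d‖ ^ 2) / ({d' | T.SameLab s d d'}.encard : ℝ≥0∞) else 0 with hf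
  have h1 : ∀ d, f d ≤ ∑ L ∈ T.foLabs Z s, if (∃ e ∈ L, T.SameLab s e d) then f d else 0 := by
    intro d
    by_cases h0 : f d = 0
    · rw [h0]; exact zero_le
    have hT : T.Tag s d := by
      by_contra h
      exact h0 (by simp only [hf]; rw [if_neg h])
    have hne : (T.foCls Z s d).Nonempty := by
      rw [Finset.nonempty_iff_ne_empty]
      intro he
      apply h0
      simp only [hf]
      rw [if_pos hT, T.pvq_lsum_eq s x Z hx d, he]
      simp
    obtain ⟨e, he⟩ := hne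
    unfold foCls at he
    obtain ⟨heZ, hde⟩ := Finset.mem_filter.1 he
    have hL : T.foCls Z s e ∈ T.foLabs Z s := by
      unfold foLabs
      exact Finset.mem_image_of_mem _ (Finset.mem_filter.2 ⟨heZ, hde.2.1⟩)
    have hmem : ∃ e' ∈ T.foCls Z s e, T.SameLab s e' d := by
      refine ⟨e, ?_, T.sameLab_symm s hde⟩
      unfold foCls
      exact Finset.mem_filter.2 ⟨heZ, T.sameLab_refl s hde.2.1⟩
    calc f d = if (∃ e' ∈ T.foCls Z s e, T.SameLab s e' d) then f d else 0 := by rw [if_pos hmem]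
      _ ≤ _ := Finset.single_le_sum (f := fun L => if (∃ e ∈ L, T.SameLab s e d) then f d else 0) (fun _ _ => zero_le) hL
  have h2 : ∀ L ∈ T.foLabs Z s, ∑' d, (if (∃ e ∈ L, T.SameLab s e d) then f d else 0) ≤ ENNReal.ofReal (‖∑ d ∈ L, x d‖ ^ 2) := by
    intro L hL
    unfold foLabs at hL
    obtain ⟨e₀, -, rfl⟩ := Finset.mem_image.1 hL
    rw [← T.pvq_lsum_eq s x Z hx e₀]
    refine le_trans (ENNReal.tsum_le_tsum fun d => ?_) (T.pvq_lab_mass_le s x e₀)
    by_cases h : ∃ e ∈ T.foCls Z s e₀, T.SameLab s e d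
    · rw [if_pos h]
      obtain ⟨e, he, hed⟩ := h
      unfold foCls at he
      rw [if_pos (T.sameLab_trans s (Finset.mem_filter.1 he).2 hed)]
    · rw [if_neg h]; exact zero_le
  calc T.labEn s x = ∑' d, f d := rfl
    _ ≤ ∑' d, ∑ L ∈ T.foLabs Z s, (if (∃ e ∈ L, T.SameLab s e d) then f d else 0) := ENNReal.tsum_le_tsum h1
    _ = ∑ L ∈ T.foLabs Z s, ∑' d, (if (∃ e ∈ L, T.SameLab s e d) then f d else 0) := Summable.tsum_finsetSum fun _ _ => ENNReal.summable
    _ ≤ ∑ L ∈ T.foLabs Z s, ENNReal.ofReal (‖∑ d ∈ L, x d‖ ^ 2) := Finset.sum_le_sum h2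
    _ = ENNReal.ofReal (T.foE x Z s) := by
        unfold foE
        rw [ENNReal.ofReal_sum_of_nonneg fun _ _ => by positivity]

open Classical in
/-- **lower bound** (consumer form): finitely many pairwise different finite labels -/
theorem pvq_labEn_ge (s : V → Bool) (x : D → ℂ) (F : Finset D) (hT : ∀ d ∈ F, T.Tag s d) (hf : ∀ d ∈ F, {d' | T.SameLab s d d'}.Finite)
    (hne : ∀ d ∈ F, ∀ d' ∈ F, T.SameLab s d d' → d = d') : ∑ d ∈ F, ENNReal.ofReal (‖T.lsum s x d‖ ^ 2) ≤ T.labEn s x := by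
  set f : D → ℝ≥0∞ := fun d => if T.Tag s d then ENNReal.ofReal (‖T.lsum s x d‖ ^ 2) / ({d' | T.SameLab s d d'}.encard : ℝ≥0∞) else 0 with hfd
  calc ∑ d ∈ F, ENNReal.ofReal (‖T.lsum s x d‖ ^ 2) = ∑ d ∈ F, ∑' e, (if T.SameLab s d e then f e else 0) :=
        Finset.sum_congr rfl fun d hd => (T.pvq_lab_mass_eq s x (hT d hd) (hf d hd)).symm
    _ = ∑' e, ∑ d ∈ F, (if T.SameLab s d e then f e else 0) := (Summable.tsum_finsetSum fun _ _ => ENNReal.summable).symm
    _ ≤ ∑' e, f e := by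
        refine ENNReal.tsum_le_tsum fun e => ?_
        by_cases h : ∃ d₀ ∈ F, T.SameLab s d₀ e
        · obtain ⟨d₀, hd₀, h0⟩ := h
          have : ∀ d ∈ F, (if T.SameLab s d e then f e else 0) = if d = d₀ then f e else 0 := by
            intro d hd
            by_cases hde : T.SameLab s d e
            · rw [if_pos hde, if_pos (hne d hd d₀ hd₀ (T.sameLab_trans s hde (T.sameLab_symm s h0)))]
            · rw [if_neg hde, if_neg]
              rintro rfl
              exact hde h0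
          rw [Finset.sum_congr rfl this, Finset.sum_ite_eq' F d₀, if_pos hd₀]
        · rw [Finset.sum_eq_zero]
          · exact zero_le
          · intro d hd
            rw [if_neg fun hde => h ⟨d, hd, hde⟩]
    _ = T.labEn s x := rfl

/-- **quenched Bessel bound** for the label energy -/
theorem pvq_labEn_bessel (h : T.FoInv) (hm : T.FoMeas) (Z : Finset D) (hZ : ∀ d ∈ Z, T.nxt d ∈ Z)
    {ζ : ℂ} (hζ : ζ * (starRingEnd ℂ) ζ = 1) (hζ1 : ζ ≠ 1) (x : D → ℂ) (hx : ∀ d, x (T.nxt d) = ζ * x d) (hx0 : ∀ d, d ∉ Z → x d = 0) :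
    ∫⁻ s, T.labEn s x ∂(colLaw V) ≤ ENNReal.ofReal (1 / 4 * ∑ d ∈ Z, ‖x d‖ ^ 2) := by
  calc ∫⁻ s, T.labEn s x ∂(colLaw V) ≤ ∫⁻ s, ENNReal.ofReal (T.foE x Z s) ∂(colLaw V) := lintegral_mono fun s => T.pvq_labEn_le s x Z hx0
    _ = ENNReal.ofReal (∫ s, T.foE x Z s ∂(colLaw V)) :=
        (ofReal_integral_eq_lintegral_ofReal (T.pvfo_E_integrable hm x Z) (Filter.Eventually.of_forall fun s => T.pvfo_E_nonneg x Z s)).symm
    _ = _ := by rw [T.pvfo_bessel h hm Z hZ hζ hζ1 x hx]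

end PvMap

/-! ## 2. the raw form -/

section raw

variable {Y : Set ℂ} (h : DelGood Y)

open Classical in
/-- **dictionary** for the label energy -/
theorem pvq_en_eq (s : ℂ → Bool) (w : ℂ × ℂ → ℂ) : pvqEn Y s w = (delPl h).toMap.labEn (s ∘ Subtype.val) (fun d => w (pvqCode d)) := by
  unfold pvqEn PvMap.labEn
  rw [← (pvq_code_inj h).tsum_eq (f := fun x : ℂ × ℂ => if pvqTag (DelTri Y) s x then ENNReal.ofReal (‖pvqSum (DelTri Y) s w x‖ ^ 2) / (pvqCard (DelTri Y) s x : ℝ≥0∞) else 0)]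
  · refine tsum_congr fun d => ?_
    by_cases hd : (delPl h).toMap.Tag (s ∘ Subtype.val) d
    · rw [if_pos hd, if_pos ((pvq_del_tag h s d).2 hd), pvq_del_sum, pvq_del_card]
    · rw [if_neg hd, if_neg fun h' => hd ((pvq_del_tag h s d).1 h')]
  · intro x hx
    have hT : pvqTag (DelTri Y) s x := by
      by_contra h'
      exact hx (if_neg h')
    obtain ⟨d, hd⟩ := pvq_del_tag_code h s hT
    exact ⟨d, hd⟩

include h in
/-- the energy reads the colours of the sites only -/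
theorem pvq_en_congr {s s' : ℂ → Bool} (hs : ∀ v ∈ Y, s v = s' v) (w : ℂ × ℂ → ℂ) : pvqEn Y s w = pvqEn Y s' w := by
  rw [pvq_en_eq h, pvq_en_eq h]
  congr 1
  funext v
  exact hs v v.2

/-- **consumer form**: finitely many pairwise different finite labels of the Delaunay plane -/
theorem pvq_en_ge (s : ℂ → Bool) (w : ℂ × ℂ → ℂ) (F : Finset (delPl h).Dart) (hT : ∀ d ∈ F, (delPl h).toMap.Tag (s ∘ Subtype.val) d)
    (hf : ∀ d ∈ F, {d' | (delPl h).toMap.SameLab (s ∘ Subtype.val) d d'}.Finite)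
    (hne : ∀ d ∈ F, ∀ d' ∈ F, (delPl h).toMap.SameLab (s ∘ Subtype.val) d d' → d = d') :
    ∑ d ∈ F, ENNReal.ofReal (‖(delPl h).toMap.lsum (s ∘ Subtype.val) (fun d' => w (pvqCode d')) d‖ ^ 2) ≤ pvqEn Y s w := by
  rw [pvq_en_eq h]
  exact (delPl h).toMap.pvq_labEn_ge _ _ F hT hf hne

theorem pvq_code_nxt (d : (delPl h).Dart) : pvqCode ((delPl h).toMap.nxt d) = ((pvqCode d).2, delApex Y (pvqCode d).1 (pvqCode d).2) := rfl

theorem pvq_code_tri (d : (delPl h).Dart) : DelTri Y (pvqCode d).1 (pvqCode d).2 (delApex Y (pvqCode d).1 (pvqCode d).2) := delp_apex_spec h d.2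

/-- **quenched Bessel bound**, raw form: `w` a `ζ`-covariant weight with finite support on the darts -/
theorem pvq_en_bessel (hI : (delPl h).toMap.FoInv) {ζ : ℂ} (hζ : ζ * (starRingEnd ℂ) ζ = 1) (hζ1 : ζ ≠ 1) (w : ℂ × ℂ → ℂ)
    (hcov : ∀ a b c, DelTri Y a b c → w (b, c) = ζ * w (a, b)) (hlive : ∀ x, w x ≠ 0 → DelAdj Y x.1 x.2) (hfin : {x | w x ≠ 0}.Finite)
    (S : (↥Y → Bool) → ℂ → Bool) (hS : ∀ σ, S σ ∘ Subtype.val = σ) :
    ∫⁻ σ, pvqEn Y (S σ) w ∂(colLaw ↥Y) ≤ 4⁻¹ * ∑' x, ENNReal.ofReal (‖w x‖ ^ 2) := by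
  classical
  have hcD := pvqf_countable_D h
  set T := (delPl h).toMap with hTdef
  set x : (delPl h).Dart → ℂ := fun d => w (pvqCode d) with hx
  have hZfin : {d : (delPl h).Dart | x d ≠ 0}.Finite := hfin.preimage (pvq_code_inj h).injOn
  set Z : Finset (delPl h).Dart := hZfin.toFinset with hZdef
  have hζ0 : ζ ≠ 0 := by
    rintro rfl
    simp at hζ
  have hxn : ∀ d, x (T.nxt d) = ζ * x d := by
    intro d
    exact hcov _ _ _ (pvq_code_tri h d)
  have hZ : ∀ d ∈ Z, T.nxt d ∈ Z := by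
    intro d hd
    rw [hZdef, Finite.mem_toFinset] at hd ⊢
    show x (T.nxt d) ≠ 0
    rw [hxn]
    exact mul_ne_zero hζ0 hd
  have hx0 : ∀ d, d ∉ Z → x d = 0 := by
    intro d hd
    rw [hZdef, Finite.mem_toFinset] at hd
    by_contra h'
    exact hd h'
  have h1 : ∀ σ : ↥Y → Bool, pvqEn Y (S σ) w = T.labEn σ x := by
    intro σ
    rw [pvq_en_eq h, hS]
  rw [lintegral_congr h1]
  refine (T.pvq_labEn_bessel hI T.pvfo_meas Z hZ hζ hζ1 x hxn hx0).trans (le_of_eq ?_)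
  have h2 : ∑' y : ℂ × ℂ, ENNReal.ofReal (‖w y‖ ^ 2) = ∑ d ∈ Z, ENNReal.ofReal (‖x d‖ ^ 2) := by
    rw [← (pvq_code_inj h).tsum_eq (f := fun y : ℂ × ℂ => ENNReal.ofReal (‖w y‖ ^ 2))]
    · refine tsum_eq_sum fun d hd => ?_
      show ENNReal.ofReal (‖x d‖ ^ 2) = 0
      rw [hx0 d hd]; simp
    · intro y hy
      have : w y ≠ 0 := by
        intro h0
        apply hy
        show ENNReal.ofReal (‖w y‖ ^ 2) = 0
        rw [h0]; simp
      exact (pvq_code_range h y).2 (hlive y this)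
  rw [h2, ENNReal.ofReal_mul (by norm_num), ENNReal.ofReal_sum_of_nonneg fun _ _ => by positivity]
  congr 1
  rw [one_div, ENNReal.ofReal_inv_of_pos (by norm_num)]
  norm_num

end raw

/-! ## 3. quenched Fubini for a.e.-measurable functionals -/

theorem pvq_quenched (ε : ℝ) {F : Conf PvPt → ℝ≥0∞} (hF : AEMeasurable F (pvP ε)) :
    ∫⁻ η, F η ∂pvP ε = ∫⁻ b, ∫⁻ σ, F (pvfCf (pvfSites b) σ) ∂colLaw ↥(pvfSites b) ∂pvfBaseLaw ε := by
  rw [lintegral_congr_ae hF.ae_eq_mk, pvf_quenched ε hF.measurable_mk]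
  refine lintegral_congr_ae ?_
  filter_upwards [pvqf_quench ε hF.ae_eq_mk] with b hb
  exact lintegral_congr_ae (hb.mono fun σ hσ => hσ.symm)

theorem pvq_col_cf (Y : Set ℂ) (σ : ↥Y → Bool) : cfCol (pvfCf Y σ) ∘ Subtype.val = σ := by
  funext v
  have h0 := pvf_mem_cf (σ := σ) v true
  show cfCol (pvfCf Y σ) (v : ℂ) = σ v
  unfold cfCol
  cases h : σ v
  · rw [@decide_eq_false_iff_not]
    intro h'
    rw [h0.1 h'] at h
    exact absurd h (by decide)
  · rw [@decide_eq_true_iff]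
    exact h0.2 h

/-! ## 4. the annealed Bessel bound -/

/-- the orthogonality in infinite volume for almost every geometry (`pvf_orth_inf` of 268 / 227 + `pvqf_fin_quenched'` of 274) -/
def PvqInv (ε : ℝ) : Prop := ∀ᵐ b ∂(pvfBaseLaw ε), ∃ h : DelGood (pvfSites b), (delPl h).toMap.FoInv

theorem pvq_ann_eqns_cite2 : True := by
  have := @PvqInv.eq_1
  trivial

/-- **the orthogonality of the label classes holds on a.e. Delaunay plane** -/
theorem pvq_inv {ε : ℝ} (hε : 0 < ε) : PvqInv ε := by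
  unfold PvqInv
  filter_upwards [pvqf_fin_quenched' hε] with b hb
  obtain ⟨h, hf⟩ := hb
  have := pvqf_countable_D h
  exact ⟨h, pvf_orth_inf (delp_isSph h) hf⟩

/-- deterministic: a finite value of the majorant of helper127 bounds the NUMBER of the live raw darts with barycentre in the square -/
theorem pvq_live_fin {η : Conf PvPt} {ε : ℝ} (hε : 0 < ε) (w : ℂ) (s : ℝ) (hZ : pvmZS 0 3 3 ε w s η ≠ ∞) :
    {x : ℂ × ℂ | (∃ c, DelTri (cfSites η) x.1 x.2 c) ∧ pvqBar (cfSites η) x ∈ pvmSq w s}.Finite := by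
  classical
  by_contra hinf
  have hinf' : {x : ℂ × ℂ | (∃ c, DelTri (cfSites η) x.1 x.2 c) ∧ pvqBar (cfSites η) x ∈ pvmSq w s}.Infinite := hinf
  apply hZ
  refine ENNReal.eq_top_of_forall_nnreal_le fun r => ?_
  obtain ⟨k, hk⟩ := exists_nat_ge r
  obtain ⟨F, hF, hcard⟩ := hinf'.exists_subset_card_eq k
  have h1 := pvmt_sum_sq 0 hε w s η (F.image (pvcvT (cfSites η))) fun t ht => by
    obtain ⟨x, hx, rfl⟩ := Finset.mem_image.1 ht
    have hx' := hF hx
    exact pvmt_at_of_meet (del_apex_tri hx'.1) ⟨pvqBar (cfSites η) x, pvcv_bar_mem _ _ _, hx'.2⟩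
  rw [Finset.sum_image ((pvcv_T_inj _).injOn)] at h1
  simp only [pow_zero, ENNReal.ofReal_one, Finset.sum_const, hcard, nsmul_eq_mul, mul_one] at h1
  refine le_trans ?_ h1
  exact_mod_cast hk

/-- **a.s. finitely many Delaunay triangles have their barycentre in a given bounded set**      (NOT a consequence of `DelGood`: an empty half plane is compatible with it) -/
theorem pvq_live_fin_ae {ε : ℝ} (hε : 0 < ε) : ∀ᵐ η ∂(pvP ε), ∀ W : Set ℂ, Bornology.IsBounded W →
    {x : ℂ × ℂ | (∃ c, DelTri (cfSites η) x.1 x.2 c) ∧ pvqBar (cfSites η) x ∈ W}.Finite := by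
  obtain ⟨K, -, hK⟩ := pvmt_mom (p := 1) one_ne_zero 0
  have h1 : ∀ n : ℕ, ∀ᵐ η ∂(pvP ε), pvmZS 0 3 3 ε 0 n η < ∞ := by
    intro n
    have h2 := hK ε hε (pvP ε) (pv_isPpp ε) 0 n (Nat.cast_nonneg n)
    simp only [pow_one] at h2
    exact ae_lt_top (pvm_ZS_meas 0 3 3 ε 0 n) (ne_top_of_le_ne_top ENNReal.ofReal_ne_top h2)
  filter_upwards [ae_all_iff.2 h1] with η hη W hW
  obtain ⟨R, hR⟩ := hW.subset_closedBall (0 : ℂ)
  obtain ⟨n, hn⟩ := exists_nat_ge R
  refine (pvq_live_fin hε 0 n (hη n).ne).subset fun x hx => ⟨hx.1, ?_⟩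
  exact pvmt_ball_sub 0 n (Metric.closedBall_subset_closedBall hn (hR hx.2))

/-- **ANNEALED BESSEL BOUND**: `w Y` = a geometric weight on the raw darts, `ζ`-covariant and carried by the Delaunay edges on the good `Y`, a.s. with finite support -/
theorem pvq_ann {ε : ℝ} (hInv : PvqInv ε) {ζ : ℂ} (hζ : ζ * (starRingEnd ℂ) ζ = 1) (hζ1 : ζ ≠ 1) (w : Set ℂ → ℂ × ℂ → ℂ)
    (hcov : ∀ Y, DelGood Y → ∀ a b c, DelTri Y a b c → w Y (b, c) = ζ * w Y (a, b)) (hlive : ∀ Y, DelGood Y → ∀ x, w Y x ≠ 0 → DelAdj Y x.1 x.2)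
    (hfin : ∀ᵐ η ∂(pvP ε), {x | w (cfSites η) x ≠ 0}.Finite)
    (hM : AEMeasurable (fun η => pvqEn (cfSites η) (cfCol η) (w (cfSites η))) (pvP ε))
    (hN : AEMeasurable (fun η => ∑' x, ENNReal.ofReal (‖w (cfSites η) x‖ ^ 2)) (pvP ε)) :
    ∫⁻ η, pvqEn (cfSites η) (cfCol η) (w (cfSites η)) ∂(pvP ε) ≤ 4⁻¹ * ∫⁻ η, ∑' x, ENNReal.ofReal (‖w (cfSites η) x‖ ^ 2) ∂(pvP ε) := by
  rw [pvq_quenched ε hM, pvq_quenched ε hN, ← lintegral_const_mul' _ _ (by simp)]
  refine lintegral_mono_ae ?_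
  filter_upwards [hInv, pvqf_quench ε hfin] with b hb hf
  obtain ⟨h, hI⟩ := hb
  obtain ⟨σ, hσ⟩ := hf.exists
  rw [pvf_cfSites_cf] at hσ
  simp only [pvf_cfSites_cf, lintegral_const, measure_univ, mul_one]
  exact pvq_en_bessel h hI hζ hζ1 (w (pvfSites b)) (hcov _ h) (hlive _ h) hσ (fun σ => cfCol (pvfCf (pvfSites b) σ)) (pvq_col_cf _)

end Claimed.Agent.R289
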