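-- KEEP
import Claimed.Agent.R289.S1.Meas
import Claimed.Agent.R289.PppCnt
import Claimed.Agent.R289.S1P.Raw

/-!
# Row 289 (S0537), box S1P, file S1P/Meas : MEASURABILITY IN THE SAMPLE OF THE LABEL STRUCTURE (node (e) of P1.8)      (owner helper286, head helper244; prefix `pvcd_`, `pvcd`, `Pvcd`)

GOAL: `AEMeasurable (fun η => M η B) (pvP ε)` for the random measures `M η = Measure.sum fun x : ℂ × ℂ => mass η x • dirac (loc η x)` built from the raw notions of `S1P/Raw.lean` in the model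
`Tr = DelTri (cfSites η)`, `s = cfCol η`.      TWO POINTS.
(i) `pvcn_bridge_fun` asks HONEST measurability on all of `PVSample`, and `delgpW ω` is injective only almost surely; a null set of SAMPLES cannot be thrown away (only a null set of CONFIGURATIONS).
    Hence the PRIMARY indices `pvcdPri ω` (active, no earlier active index at the same position): `delgpW ω` is injective on them and maps them onto `cfSites (pvConf ω)` for EVERY `ω`;
    (NAT) is used twice through the subtype (`PvcdNatOn`).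
(ii) `delApex` is a choice, canonical only in general position.  The event `DelgpCf η` is an event of configurations, of full measure, with measurable preimage: `pvcd_bridge`.

* sec. 1  generic, on a countable type: `pvcd_measurable_of_cover`, `_of_finset`, `_ncard`, `_finsum`, `_ediam`, `_diam`, `pvcd_meas_set_eq`, `pvcd_meas_finite`
* sec. 2  primary indices: `pvcdAct pvcdPri`, `pvcd_pri_injOn`, `pvcd_sites`
* sec. 3  `pvcd_meas_col`, `pvcd_meas_tri` (colour and Delaunay triangles in index form)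
* sec. 4  `PvcdNatOn` : (NAT) for `f` injective on the carrier of `Tr`: `pvcd_on_tag _wall _inComp _same _same_set _sum _card`
* sec. 5  a measurable family `(Tr ω, s ω)` on a countable vertex type: `pvcd_meas_sf _tag _wall _cstep _inComp _same`, `pvcd_measurable_sum _card _lab_ediam`, `pvcd_meas_wall_finite _lab_finite`
* sec. 6  the model in code: `pvcdTr pvcdCol pvcdW pvcdPri2`, `pvcd_natOn`, dictionary `pvcd_code_tag _same _same_set _wall_set _sum _card`, `pvcdApex pvcdWQ pvcdWU pvcdBar` (measurable; equal to the model in general position)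
* sec. 7  `pvcd_bridge`, `pvcd_tsum_code`, **`pvcd_aemeasurable_sum`** (the general form of `hM`)
* sec. 8  **`pvcd_aemeasurable_tsum`** (series over the raw darts), quantifiers over a label `pvcd_code_forall _exists _live`, `pvcd_meas_forall_lab _exists_lab _live`, label masses `pvcdMassI`, `pvcd_measurable_massI`, `pvcd_mass_eq`
-/

set_option autoImplicit false
set_option linter.unusedSectionVars false

namespace Claimed.Agent.R289

open MeasureTheory Set Relation
open Claims.C0465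
open scoped ENNReal


/-! ## 1. generic measurability on a countable type -/

section generic

variable {Ω : Type*} [MeasurableSpace Ω]

/-- a function which agrees with measurable functions on the pieces of a countable measurable cover is measurable -/
theorem pvcd_measurable_of_cover {β ι : Type*} [MeasurableSpace β] [Countable ι] (E : ι → Set Ω) (hE : ∀ i, MeasurableSet (E i))
    (hc : ∀ ω, ∃ i, ω ∈ E i) (g : Ω → β) (G : ι → Ω → β) (hG : ∀ i, Measurable (G i)) (h : ∀ i, ∀ ω ∈ E i, g ω = G i ω) : Measurable g := by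
  intro S hS
  have e : g ⁻¹' S = ⋃ i, E i ∩ G i ⁻¹' S := by
    ext ω
    simp only [mem_preimage, mem_iUnion, mem_inter_iff]
    constructor
    · intro hω
      obtain ⟨i, hi⟩ := hc ω
      exact ⟨i, hi, by rw [← h i ω hi]; exact hω⟩
    · rintro ⟨i, hi, hω⟩
      rw [h i ω hi]; exact hω
  rw [e]
  exact MeasurableSet.iUnion fun i => (hE i).inter (hG i hS)

variable {α : Type*} [Countable α]

/-- the random set `{a | R ω a}` is a given set -/
theorem pvcd_meas_set_eq (R : Ω → α → Prop) (hR : ∀ a, MeasurableSet {ω | R ω a}) (L : Set α) : MeasurableSet {ω | {a | R ω a} = L} := by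
  have e : {ω | {a | R ω a} = L} = ⋂ a, {ω | R ω a ↔ a ∈ L} := by
    ext ω
    simp only [mem_ofPred_eq, mem_iInter, Set.ext_iff]
  rw [e]
  refine MeasurableSet.iInter fun a => ?_
  by_cases h : a ∈ L
  · simpa only [h, iff_true] using hR a
  · have e2 : {ω | R ω a ↔ a ∈ L} = {ω | R ω a}ᶜ := by
      ext ω; simp only [h, iff_false, mem_ofPred_eq, mem_compl_iff]
    rw [e2]; exact (hR a).compl

theorem pvcd_meas_finite (R : Ω → α → Prop) (hR : ∀ a, MeasurableSet {ω | R ω a}) : MeasurableSet {ω | {a | R ω a}.Finite} := by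
  have e : {ω | {a | R ω a}.Finite} = ⋃ L : Finset α, {ω | {a | R ω a} = (L : Set α)} := by
    ext ω
    simp only [mem_ofPred_eq, mem_iUnion]
    constructor
    · intro h
      exact ⟨h.toFinset, h.coe_toFinset.symm⟩
    · rintro ⟨L, hL⟩
      rw [hL]; exact L.finite_toSet
  rw [e]
  exact MeasurableSet.iUnion fun L => pvcd_meas_set_eq R hR _

/-- **functionals of a random subset of a countable type**: `g ω` is read from the finite set `{a | R ω a}` by measurable rules, and is a measurable junk on the event that it is infinite -/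
theorem pvcd_measurable_of_finset {β : Type*} [MeasurableSpace β] (R : Ω → α → Prop) (hR : ∀ a, MeasurableSet {ω | R ω a}) (g : Ω → β)
    (G : Finset α → Ω → β) (hG : ∀ L, Measurable (G L)) (Ginf : Ω → β) (hGinf : Measurable Ginf)
    (h : ∀ (L : Finset α) ω, {a | R ω a} = (L : Set α) → g ω = G L ω) (hinf : ∀ ω, ¬ {a | R ω a}.Finite → g ω = Ginf ω) : Measurable g := by
  refine pvcd_measurable_of_cover (ι := Option (Finset α)) (fun o => Option.casesOn o {ω | ¬ {a | R ω a}.Finite} fun L => {ω | {a | R ω a} = (L : Set α)})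
    ?_ ?_ g (fun o => Option.casesOn o Ginf G) ?_ ?_
  · rintro (_ | L)
    · exact (pvcd_meas_finite R hR).compl
    · exact pvcd_meas_set_eq R hR _
  · intro ω
    by_cases hf : {a | R ω a}.Finite
    · exact ⟨some hf.toFinset, hf.coe_toFinset.symm⟩
    · exact ⟨none, hf⟩
  · rintro (_ | L)
    · exact hGinf
    · exact hG L
  · rintro (_ | L) ω hω
    · exact hinf ω hω
    · exact h L ω hω

theorem pvcd_measurable_ncard (R : Ω → α → Prop) (hR : ∀ a, MeasurableSet {ω | R ω a}) : Measurable fun ω => {a | R ω a}.ncard := by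
  refine pvcd_measurable_of_finset R hR _ (fun L _ => L.card) (fun _ => measurable_const) (fun _ => 0) measurable_const ?_ ?_
  · intro L ω h
    show {a | R ω a}.ncard = L.card
    rw [h, Set.ncard_coe_finset]
  · intro ω h
    exact Set.Infinite.ncard h

/-- **a `finsum` over a random subset of a countable type is measurable** -/
theorem pvcd_measurable_finsum {M : Type*} [AddCommMonoid M] [MeasurableSpace M] [MeasurableSingletonClass M] [MeasurableAdd₂ M]
    (R : Ω → α → Prop) (hR : ∀ a, MeasurableSet {ω | R ω a}) (w : Ω → α → M) (hw : ∀ a, Measurable fun ω => w ω a) :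
    Measurable fun ω => ∑ᶠ (a : α) (_ : R ω a), w ω a := by
  have hS : ∀ a, MeasurableSet {ω | R ω a ∧ w ω a ≠ 0} := fun a =>
    (hR a).inter ((hw a) (measurableSet_singleton (0 : M))).compl
  have hsupp : ∀ ω, Function.support (fun a => ∑ᶠ (_ : R ω a), w ω a) = {a | R ω a ∧ w ω a ≠ 0} := by
    intro ω
    ext a
    simp only [Function.mem_support, mem_ofPred_eq]
    by_cases h : R ω a
    · simp [h]
    · simp [h]
  refine pvcd_measurable_of_finset (fun ω a => R ω a ∧ w ω a ≠ 0) hS _ (fun L ω => ∑ a ∈ L, w ω a)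
    (fun L => Finset.measurable_sum L fun a _ => hw a) (fun _ => 0) measurable_const ?_ ?_
  · intro L ω h
    show ∑ᶠ (a : α) (_ : R ω a), w ω a = ∑ a ∈ L, w ω a
    rw [finsum_eq_sum_of_support_subset (s := L) _ (by rw [hsupp, h])]
    refine Finset.sum_congr rfl fun a ha => ?_
    have : a ∈ {a | R ω a ∧ w ω a ≠ 0} := by rw [h]; exact ha
    simp [this.1]
  · intro ω h
    show ∑ᶠ (a : α) (_ : R ω a), w ω a = 0
    refine finsum_of_infinite_support ?_
    rw [hsupp]
    exact h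

end generic



section generic2
variable {Ω : Type*} [MeasurableSpace Ω] {α : Type*} [Countable α]

/-- a guarded supremum -/
theorem pvcd_measurable_iSup_prop (R : Ω → Prop) (hR : MeasurableSet {ω | R ω}) (f : Ω → ℝ≥0∞) (hf : Measurable f) :
    Measurable fun ω => ⨆ (_ : R ω), f ω := by
  classical
  have e : (fun ω => ⨆ (_ : R ω), f ω) = fun ω => if R ω then f ω else 0 := by
    funext ω
    by_cases h : R ω
    · simp [h]
    · simp [h]
  rw [e]
  exact Measurable.ite hR hf measurable_const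

/-- **the diameter of the image of a random subset of a countable type is measurable** -/
theorem pvcd_measurable_ediam {X : Type*} [PseudoEMetricSpace X] [MeasurableSpace X] [OpensMeasurableSpace X] [SecondCountableTopology X]
    (R : Ω → α → Prop) (hR : ∀ a, MeasurableSet {ω | R ω a}) (p : Ω → α → X) (hp : ∀ a, Measurable fun ω => p ω a) :
    Measurable fun ω => Metric.ediam (p ω '' {a | R ω a}) := by
  have e : (fun ω => Metric.ediam (p ω '' {a | R ω a})) = fun ω => ⨆ a, ⨆ (_ : R ω a), ⨆ b, ⨆ (_ : R ω b), edist (p ω a) (p ω b) := by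
    funext ω
    refine le_antisymm ?_ ?_
    · rw [Metric.ediam_image_le_iff]
      intro a ha b hb
      exact le_iSup_of_le a (le_iSup_of_le ha (le_iSup_of_le b (le_iSup_of_le hb le_rfl)))
    · refine iSup_le fun a => iSup_le fun ha => iSup_le fun b => iSup_le fun hb => ?_
      exact Metric.edist_le_ediam_of_mem (mem_image_of_mem _ ha) (mem_image_of_mem _ hb)
  rw [e]
  refine Measurable.iSup fun a => pvcd_measurable_iSup_prop _ (hR a) _ ?_
  exact Measurable.iSup fun b => pvcd_measurable_iSup_prop _ (hR b) _ ((hp a).edist (hp b))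

theorem pvcd_measurable_diam {X : Type*} [PseudoMetricSpace X] [MeasurableSpace X] [OpensMeasurableSpace X] [SecondCountableTopology X]
    (R : Ω → α → Prop) (hR : ∀ a, MeasurableSet {ω | R ω a}) (p : Ω → α → X) (hp : ∀ a, Measurable fun ω => p ω a) :
    Measurable fun ω => Metric.diam (p ω '' {a | R ω a}) :=
  (pvcd_measurable_ediam R hR p hp).ennreal_toReal

end generic2

/-! ## 2. primary indices -/

/-- active index -/
def pvcdAct (ω : PVSample) (i : DelgpIx) : Prop := i.2 < ω.1 i.1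

/-- PRIMARY index: active, and no earlier active index has the same position -/
def pvcdPri (ω : PVSample) (i : DelgpIx) : Prop :=
  pvcdAct ω i ∧ ∀ j : DelgpIx, Encodable.encode j < Encodable.encode i → pvcdAct ω j → delgpW ω j ≠ delgpW ω i

theorem pvcd_eqns_cite : True := by
  have := @pvcdAct.eq_1; have := @pvcdPri.eq_1
  trivial

theorem pvcd_meas_act (i : DelgpIx) : MeasurableSet {ω | pvcdAct ω i} := by
  have h : Measurable fun ω : PVSample => ω.1 i.1 := (measurable_pi_apply i.1).comp measurable_fst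
  exact measurableSet_lt measurable_const h

theorem pvcd_meas_pos_eq (i j : DelgpIx) : MeasurableSet {ω | delgpW ω i = delgpW ω j} :=
  measurableSet_eq_fun (delgp_measurable_W i) (delgp_measurable_W j)

theorem pvcd_meas_pri (i : DelgpIx) : MeasurableSet {ω | pvcdPri ω i} := by
  have e : {ω | pvcdPri ω i} = {ω | pvcdAct ω i} ∩ ⋂ j : DelgpIx, {ω | Encodable.encode j < Encodable.encode i → pvcdAct ω j → delgpW ω j ≠ delgpW ω i} := by
    ext ω
    simp only [pvcdPri, mem_ofPred_eq, mem_inter_iff, mem_iInter]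
  rw [e]
  refine (pvcd_meas_act i).inter (MeasurableSet.iInter fun j => ?_)
  by_cases h : Encodable.encode j < Encodable.encode i
  · have e2 : {ω | Encodable.encode j < Encodable.encode i → pvcdAct ω j → delgpW ω j ≠ delgpW ω i} = ({ω | pvcdAct ω j} ∩ {ω | delgpW ω j = delgpW ω i})ᶜ := by
      ext ω
      simp only [h, forall_const, mem_ofPred_eq, mem_compl_iff, mem_inter_iff, not_and, ne_eq]
    rw [e2]
    exact ((pvcd_meas_act j).inter (pvcd_meas_pos_eq j i)).compl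
  · simp only [h, IsEmpty.forall_iff, ofPred_true, MeasurableSet.univ]

theorem pvcd_pri_injOn (ω : PVSample) : InjOn (delgpW ω) {i | pvcdPri ω i} := by
  intro i hi j hj hij
  by_contra hne
  have hne' : Encodable.encode i ≠ Encodable.encode j := fun h => hne (Encodable.encode_injective h)
  rcases lt_or_gt_of_ne hne' with h | h
  · exact hj.2 i h hi.1 hij
  · exact hi.2 j h hj.1 hij.symm

/-- every active index has a primary representative -/
theorem pvcd_exists_pri {ω : PVSample} {i : DelgpIx} (hi : pvcdAct ω i) : ∃ j, pvcdPri ω j ∧ delgpW ω j = delgpW ω i := by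
  classical
  have hex : ∃ n, ∃ j : DelgpIx, Encodable.encode j = n ∧ pvcdAct ω j ∧ delgpW ω j = delgpW ω i := ⟨_, i, rfl, hi, rfl⟩
  obtain ⟨j, hj, hja, hjw⟩ := Nat.find_spec hex
  refine ⟨j, ⟨hja, fun l hl hla hlw => ?_⟩, hjw⟩
  rw [hj] at hl
  exact Nat.find_min hex hl ⟨l, rfl, hla, hlw.trans hjw⟩

theorem pvcd_mem_sites {ω : PVSample} {z : ℂ} : z ∈ cfSites (pvConf ω) ↔ ∃ i, pvcdAct ω i ∧ delgpW ω i = z := by
  simp only [cfSites, mem_image]
  constructor
  · rintro ⟨p, hp, rfl⟩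
    obtain ⟨i, hi, rfl⟩ := delgp_mem_conf.1 hp
    exact ⟨i, hi, rfl⟩
  · rintro ⟨i, hi, rfl⟩
    exact ⟨_, delgp_mem_conf.2 ⟨i, hi, rfl⟩, rfl⟩

theorem pvcd_sites (ω : PVSample) : cfSites (pvConf ω) = delgpW ω '' {i | pvcdPri ω i} := by
  ext z
  rw [pvcd_mem_sites]
  constructor
  · rintro ⟨i, hi, rfl⟩
    obtain ⟨j, hj, hjw⟩ := pvcd_exists_pri hi
    exact ⟨j, hj, hjw⟩
  · rintro ⟨i, hi, rfl⟩
    exact ⟨i, hi.1, rfl⟩

theorem pvcd_pri_mem {ω : PVSample} {i : DelgpIx} (hi : pvcdPri ω i) : delgpW ω i ∈ cfSites (pvConf ω) := pvcd_mem_sites.2 ⟨i, hi.1, rfl⟩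

/-! ## 3. the coded colour and the coded Delaunay triangles -/

theorem pvcd_meas_mem_sites (i : DelgpIx) : MeasurableSet {ω | delgpW ω i ∈ cfSites (pvConf ω)} := by
  have e : {ω | delgpW ω i ∈ cfSites (pvConf ω)} = ⋃ j : DelgpIx, {ω | pvcdAct ω j} ∩ {ω | delgpW ω j = delgpW ω i} := by
    ext ω
    simp only [mem_ofPred_eq, pvcd_mem_sites, mem_iUnion, mem_inter_iff]
  rw [e]
  exact MeasurableSet.iUnion fun j => (pvcd_meas_act j).inter (pvcd_meas_pos_eq j i)

theorem pvcd_col_iff (ω : PVSample) (i : DelgpIx) : cfCol (pvConf ω) (delgpW ω i) = true ↔ ∃ j, pvcdAct ω j ∧ delgpW ω j = delgpW ω i ∧ (ω.2 j).2 = true := by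
  unfold cfCol
  rw [@decide_eq_true_iff, delgp_mem_conf]
  constructor
  · rintro ⟨j, hj, h⟩
    exact ⟨j, hj, (congrArg Prod.fst h).symm, (congrArg Prod.snd h).symm⟩
  · rintro ⟨j, hj, h1, h2⟩
    exact ⟨j, hj, by rw [h1, h2]⟩

theorem pvcd_meas_col (i : DelgpIx) (c : Bool) : MeasurableSet {ω | cfCol (pvConf ω) (delgpW ω i) = c} := by
  have ht : MeasurableSet {ω | cfCol (pvConf ω) (delgpW ω i) = true} := by
    have e : {ω | cfCol (pvConf ω) (delgpW ω i) = true} = ⋃ j : DelgpIx, {ω | pvcdAct ω j} ∩ ({ω | delgpW ω j = delgpW ω i} ∩ {ω : PVSample | (ω.2 j).2 = true}) := by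
      ext ω
      simp only [mem_ofPred_eq, pvcd_col_iff, mem_iUnion, mem_inter_iff]
    rw [e]
    refine MeasurableSet.iUnion fun j => (pvcd_meas_act j).inter ((pvcd_meas_pos_eq j i).inter ?_)
    have h : Measurable fun ω : PVSample => (ω.2 j).2 := measurable_snd.comp ((measurable_pi_apply j).comp measurable_snd)
    exact h (measurableSet_singleton true)
  cases c
  · have e : {ω | cfCol (pvConf ω) (delgpW ω i) = false} = {ω | cfCol (pvConf ω) (delgpW ω i) = true}ᶜ := by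
      ext ω
      simp only [mem_ofPred_eq, mem_compl_iff, Bool.not_eq_true]
    rw [e]; exact ht.compl
  · exact ht

theorem pvcd_measurable_col (i : DelgpIx) : Measurable fun ω => cfCol (pvConf ω) (delgpW ω i) :=
  measurable_to_countable' fun c => pvcd_meas_col i c

theorem pvcd_measurable_det (i j k : DelgpIx) : Measurable fun ω => vorDet (delgpW ω i) (delgpW ω j) (delgpW ω k) := by
  have hr : ∀ i, Measurable fun ω => (delgpW ω i).re := fun i => Complex.measurable_re.comp (delgp_measurable_W i)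
  have hi : ∀ i, Measurable fun ω => (delgpW ω i).im := fun i => Complex.measurable_im.comp (delgp_measurable_W i)
  unfold vorDet
  exact (((hr j).sub (hr i)).mul ((hi k).sub (hi i))).sub (((hi j).sub (hi i)).mul ((hr k).sub (hr i)))

theorem pvcd_measurable_O (i j k : DelgpIx) : Measurable fun ω => delO (delgpW ω i) (delgpW ω j) (delgpW ω k) := by
  have hr : ∀ i, Measurable fun ω => (delgpW ω i).re := fun i => Complex.measurable_re.comp (delgp_measurable_W i)
  have hi : ∀ i, Measurable fun ω => (delgpW ω i).im := fun i => Complex.measurable_im.comp (delgp_measurable_W i)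
  have hP : Measurable fun ω => delP (delgpW ω i) (delgpW ω j) (delgpW ω k) := by
    unfold delP
    exact (((hr k).sub (hr i)).mul ((hr k).sub (hr j))).add (((hi k).sub (hi i)).mul ((hi k).sub (hi j)))
  have hS : Measurable fun ω => delS (delgpW ω i) (delgpW ω j) (delgpW ω k) := by
    unfold delS
    exact hP.div ((pvcd_measurable_det i j k).const_mul 2)
  unfold delO delBis
  exact (((delgp_measurable_W i).add (delgp_measurable_W j)).div_const 2).add
    ((Complex.measurable_ofReal.comp hS).mul (((delgp_measurable_W j).sub (delgp_measurable_W i)).const_mul Complex.I))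

/-- **the Delaunay triangles are measurable in index form** -/
theorem pvcd_meas_tri (i j k : DelgpIx) : MeasurableSet {ω | DelTri (cfSites (pvConf ω)) (delgpW ω i) (delgpW ω j) (delgpW ω k)} := by
  have e : {ω | DelTri (cfSites (pvConf ω)) (delgpW ω i) (delgpW ω j) (delgpW ω k)}
      = {ω | delgpW ω i ∈ cfSites (pvConf ω)} ∩ ({ω | delgpW ω j ∈ cfSites (pvConf ω)} ∩ ({ω | delgpW ω k ∈ cfSites (pvConf ω)} ∩
        ({ω | 0 < vorDet (delgpW ω i) (delgpW ω j) (delgpW ω k)} ∩ ⋂ l : DelgpIx, ({ω | pvcdAct ω l}ᶜ ∪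
          {ω | ‖delO (delgpW ω i) (delgpW ω j) (delgpW ω k) - delgpW ω i‖ ≤ ‖delO (delgpW ω i) (delgpW ω j) (delgpW ω k) - delgpW ω l‖})))) := by
    ext ω
    simp only [mem_ofPred_eq, del_tri_iff, mem_inter_iff, mem_iInter, mem_union, mem_compl_iff]
    refine and_congr_right fun _ => and_congr_right fun _ => and_congr_right fun _ => and_congr_right fun _ => ?_
    constructor
    · intro h l
      by_cases hl : pvcdAct ω l
      · exact Or.inr (h _ (pvcd_mem_sites.2 ⟨l, hl, rfl⟩))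
      · exact Or.inl hl
    · intro h w hw
      obtain ⟨l, hl, rfl⟩ := pvcd_mem_sites.1 hw
      exact (h l).resolve_left (not_not.2 hl)
  rw [e]
  refine (pvcd_meas_mem_sites i).inter ((pvcd_meas_mem_sites j).inter ((pvcd_meas_mem_sites k).inter
    ((measurableSet_lt measurable_const (pvcd_measurable_det i j k)).inter (MeasurableSet.iInter fun l => (pvcd_meas_act l).compl.union ?_))))
  exact measurableSet_le ((pvcd_measurable_O i j k).sub (delgp_measurable_W i)).norm ((pvcd_measurable_O i j k).sub (delgp_measurable_W l)).norm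



/-! ## 4. (NAT) on a subset: `f` is injective only on the carrier `A` of `Tr` -/

/-- the hypothesis of naturality ON A SUBSET `A` which carries `Tr` -/
structure PvcdNatOn {V V' : Type} (A : Set V) (f : V → V') (Tr : V → V → V → Prop) (Tr' : V' → V' → V' → Prop) : Prop where
  injOn : InjOn f A
  supp : ∀ a b c, Tr a b c → a ∈ A ∧ b ∈ A ∧ c ∈ A
  iff : ∀ a ∈ A, ∀ b ∈ A, ∀ c ∈ A, Tr' (f a) (f b) (f c) ↔ Tr a b c
  rng : ∀ a ∈ A, ∀ b ∈ A, ∀ c', Tr' (f a) (f b) c' → ∃ c ∈ A, c' = f c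

section naton

variable {V V' : Type} {A : Set V} {f : V → V'} {Tr : V → V → V → Prop} {Tr' : V' → V' → V' → Prop}

/-- the triangle relation on the subtype -/
def pvcdTrA (A : Set V) (Tr : V → V → V → Prop) (a b c : ↥A) : Prop := Tr a b c

theorem PvcdNatOn.nat1 (H : PvcdNatOn A f Tr Tr') : PvqNat (Subtype.val : ↥A → V) (pvcdTrA A Tr) Tr where
  inj := Subtype.val_injective
  iff _ _ _ := Iff.rfl
  rng _ _ c' h := ⟨⟨c', (H.supp _ _ _ h).2.2⟩, rfl⟩

theorem PvcdNatOn.nat2 (H : PvcdNatOn A f Tr Tr') : PvqNat (fun a : ↥A => f a) (pvcdTrA A Tr) Tr' where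
  inj a b h := Subtype.ext (H.injOn a.2 b.2 h)
  iff a b c := H.iff a a.2 b b.2 c c.2
  rng a b c' h := by
    obtain ⟨c, hc, rfl⟩ := H.rng a a.2 b b.2 c' h
    exact ⟨⟨c, hc⟩, rfl⟩

theorem PvcdNatOn.map_injOn (H : PvcdNatOn A f Tr Tr') : InjOn (Prod.map f f) (A ×ˢ A) := by
  rintro ⟨a, b⟩ ⟨ha, hb⟩ ⟨c, d⟩ ⟨hc, hd⟩ h
  have h1 : f a = f c := congrArg Prod.fst h
  have h2 : f b = f d := congrArg Prod.snd h
  exact Prod.ext (H.injOn ha hc h1) (H.injOn hb hd h2)

theorem pvcd_on_tag (H : PvcdNatOn A f Tr Tr') (s' : V' → Bool) {x : V × V} (hx : x ∈ A ×ˢ A) : pvqTag Tr' s' (Prod.map f f x) ↔ pvqTag Tr (s' ∘ f) x := by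
  obtain ⟨a, b⟩ := x
  have e1 := pvq_nat_tag H.nat2 s' ((⟨a, hx.1⟩, ⟨b, hx.2⟩) : ↥A × ↥A)
  have e2 := pvq_nat_tag H.nat1 (s' ∘ f) ((⟨a, hx.1⟩, ⟨b, hx.2⟩) : ↥A × ↥A)
  exact e1.trans e2.symm

/-- the general transfer: a raw relation `X` which satisfies (NAT) in the image form -/
theorem pvcd_on_rel (H : PvcdNatOn A f Tr Tr') (s' : V' → Bool)
    (X : ∀ {W : Type}, (W → W → W → Prop) → (W → Bool) → W × W → W × W → Prop)
    (hX : ∀ {W W' : Type} {g : W → W'} {T : W → W → W → Prop} {T' : W' → W' → W' → Prop}, PvqNat g T T' → ∀ (t' : W' → Bool) (x : W × W) (y' : W' × W'),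
      X T' t' (Prod.map g g x) y' ↔ ∃ y, y' = Prod.map g g y ∧ X T (t' ∘ g) x y)
    {x : V × V} (hx : x ∈ A ×ˢ A) (y' : V' × V') : X Tr' s' (Prod.map f f x) y' ↔ ∃ y ∈ A ×ˢ A, y' = Prod.map f f y ∧ X Tr (s' ∘ f) x y := by
  obtain ⟨a, b⟩ := x
  have e1 := hX H.nat2 s' ((⟨a, hx.1⟩, ⟨b, hx.2⟩) : ↥A × ↥A) y'
  have e2 := hX H.nat1 (s' ∘ f) ((⟨a, hx.1⟩, ⟨b, hx.2⟩) : ↥A × ↥A)
  constructor
  · intro h
    obtain ⟨y, rfl, hy⟩ := e1.1 h
    exact ⟨Prod.map Subtype.val Subtype.val y, ⟨y.1.2, y.2.2⟩, rfl, (e2 _).2 ⟨y, rfl, hy⟩⟩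
  · rintro ⟨y, -, rfl, hy⟩
    obtain ⟨z, rfl, hz⟩ := (e2 _).1 hy
    exact e1.2 ⟨z, rfl, hz⟩

theorem pvcd_on_wall (H : PvcdNatOn A f Tr Tr') (s' : V' → Bool) {x : V × V} (hx : x ∈ A ×ˢ A) (y' : V' × V') :
    pvqWall Tr' s' (Prod.map f f x) y' ↔ ∃ y ∈ A ×ˢ A, y' = Prod.map f f y ∧ pvqWall Tr (s' ∘ f) x y :=
  pvcd_on_rel H s' (fun T t => pvqWall T t) (fun h => pvq_nat_wall h) hx y'

theorem pvcd_on_inComp (H : PvcdNatOn A f Tr Tr') (s' : V' → Bool) {x : V × V} (hx : x ∈ A ×ˢ A) (y' : V' × V') :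
    pvqInComp Tr' s' (Prod.map f f x) y' ↔ ∃ y ∈ A ×ˢ A, y' = Prod.map f f y ∧ pvqInComp Tr (s' ∘ f) x y :=
  pvcd_on_rel H s' (fun T t => pvqInComp T t) (fun h => pvq_nat_inComp h) hx y'

theorem pvcd_on_same (H : PvcdNatOn A f Tr Tr') (s' : V' → Bool) {x : V × V} (hx : x ∈ A ×ˢ A) (y' : V' × V') :
    pvqSame Tr' s' (Prod.map f f x) y' ↔ ∃ y ∈ A ×ˢ A, y' = Prod.map f f y ∧ pvqSame Tr (s' ∘ f) x y :=
  pvcd_on_rel H s' (fun T t => pvqSame T t) (fun h => pvq_nat_same h) hx y'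

/-- a tag lives on the carrier -/
theorem pvcd_tag_mem (H : PvcdNatOn A f Tr Tr') {s : V → Bool} {x : V × V} (h : pvqTag Tr s x) : x ∈ A ×ˢ A := by
  obtain ⟨c, hT, -⟩ := h
  exact ⟨(H.supp _ _ _ hT).1, (H.supp _ _ _ hT).2.1⟩

theorem pvcd_on_same_set (H : PvcdNatOn A f Tr Tr') (s' : V' → Bool) {x : V × V} (hx : x ∈ A ×ˢ A) :
    {y' | pvqSame Tr' s' (Prod.map f f x) y'} = Prod.map f f '' {y | pvqSame Tr (s' ∘ f) x y} := by
  ext y'
  simp only [mem_ofPred_eq, mem_image]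
  rw [pvcd_on_same H s' hx]
  constructor
  · rintro ⟨y, -, rfl, h⟩; exact ⟨y, h, rfl⟩
  · rintro ⟨y, h, rfl⟩; exact ⟨y, pvcd_tag_mem H h.2.1, rfl, h⟩

theorem pvcd_on_same_injOn (H : PvcdNatOn A f Tr Tr') (s : V → Bool) (x : V × V) : InjOn (Prod.map f f) {y | pvqSame Tr s x y} :=
  H.map_injOn.mono fun _ h => pvcd_tag_mem H h.2.1

theorem pvcd_on_same' (H : PvcdNatOn A f Tr Tr') (s' : V' → Bool) {x y : V × V} (hx : x ∈ A ×ˢ A) (hy : y ∈ A ×ˢ A) :
    pvqSame Tr' s' (Prod.map f f x) (Prod.map f f y) ↔ pvqSame Tr (s' ∘ f) x y := by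
  rw [pvcd_on_same H s' hx]
  constructor
  · rintro ⟨z, hz, e, h⟩
    rwa [H.map_injOn hy hz e]
  · intro h
    exact ⟨y, hy, rfl, h⟩

theorem pvcd_on_sum (H : PvcdNatOn A f Tr Tr') (s' : V' → Bool) (w' : V' × V' → ℂ) {x : V × V} (hx : x ∈ A ×ˢ A) :
    pvqSum Tr' s' w' (Prod.map f f x) = pvqSum Tr (s' ∘ f) (w' ∘ Prod.map f f) x := by
  unfold pvqSum
  have h1 : (∑ᶠ (y : V' × V') (_ : pvqSame Tr' s' (Prod.map f f x) y), w' y) = ∑ᶠ y ∈ {y' | pvqSame Tr' s' (Prod.map f f x) y'}, w' y := rfl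
  rw [h1, pvcd_on_same_set H s' hx, finsum_mem_image (pvcd_on_same_injOn H _ x)]
  rfl

theorem pvcd_on_card (H : PvcdNatOn A f Tr Tr') (s' : V' → Bool) {x : V × V} (hx : x ∈ A ×ˢ A) : pvqCard Tr' s' (Prod.map f f x) = pvqCard Tr (s' ∘ f) x := by
  unfold pvqCard
  rw [pvcd_on_same_set H s' hx, (pvcd_on_same_injOn H _ x).encard_image]

/-- the wall of a raw dart on the carrier stays on the carrier -/
theorem pvcd_on_wall_set (H : PvcdNatOn A f Tr Tr') (s' : V' → Bool) {x : V × V} (hx : x ∈ A ×ˢ A) :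
    {y' | pvqWall Tr' s' (Prod.map f f x) y'} = Prod.map f f '' ({y | pvqWall Tr (s' ∘ f) x y} ∩ A ×ˢ A) := by
  ext y'
  simp only [mem_ofPred_eq, mem_image, mem_inter_iff]
  rw [pvcd_on_wall H s' hx]
  constructor
  · rintro ⟨y, hy, rfl, h⟩; exact ⟨y, ⟨h, hy⟩, rfl⟩
  · rintro ⟨y, ⟨h, hy⟩, rfl⟩; exact ⟨y, hy, rfl, h⟩

end naton

/-! ## 5. the raw notions of a measurable family on a countable vertex type -/

section rawmeas

variable {Ω : Type} [MeasurableSpace Ω] {V : Type} [Countable V] (Tr : Ω → V → V → V → Prop) (s : Ω → V → Bool)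
  (hTr : ∀ a b c, MeasurableSet {ω | Tr ω a b c}) (hs : ∀ a, Measurable fun ω => s ω a)

include hTr in
theorem pvcd_meas_sf (x y : V × V) : MeasurableSet {ω | pvqSF (Tr ω) x y} := by
  have e : {ω | pvqSF (Tr ω) x y} = ⋃ c, {ω | Tr ω x.1 x.2 c} ∩ {_ω | y = x ∨ y = (x.2, c) ∨ y = (c, x.1)} := by
    ext ω
    simp only [pvqSF, mem_ofPred_eq, mem_iUnion, mem_inter_iff]
  rw [e]
  exact MeasurableSet.iUnion fun c => (hTr _ _ c).inter (MeasurableSet.const _)

include hs in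
theorem pvcd_meas_col_eq (a b : V) : MeasurableSet {ω | s ω a = s ω b} := measurableSet_eq_fun (hs a) (hs b)

include hTr hs in
theorem pvcd_meas_tag (x : V × V) : MeasurableSet {ω | pvqTag (Tr ω) (s ω) x} := by
  have e : {ω | pvqTag (Tr ω) (s ω) x} = ⋃ c, {ω | Tr ω x.1 x.2 c} ∩ ({ω | s ω x.1 = s ω x.2} ∩ {ω | s ω c = s ω x.1}ᶜ) := by
    ext ω
    simp only [pvqTag, mem_ofPred_eq, mem_iUnion, mem_inter_iff, mem_compl_iff, ne_eq]
  rw [e]
  exact MeasurableSet.iUnion fun c => (hTr _ _ c).inter ((pvcd_meas_col_eq s hs _ _).inter (pvcd_meas_col_eq s hs _ _).compl)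

include hTr hs in
theorem pvcd_meas_wstep (x y : V × V) : MeasurableSet {ω | pvqWStep (Tr ω) (s ω) x y} :=
  (pvcd_meas_sf Tr hTr x y).union ((pvcd_meas_col_eq s hs _ _).compl.inter (MeasurableSet.const _))

include hTr hs in
theorem pvcd_meas_wall (x y : V × V) : MeasurableSet {ω | pvqWall (Tr ω) (s ω) x y} :=
  pvf_meas_rtg (fun ω => pvqWStep (Tr ω) (s ω)) (pvcd_meas_wstep Tr s hTr hs) x y

include hTr hs in
theorem pvcd_meas_cstep (x₀ a b : V × V) : MeasurableSet {ω | pvqCStep (Tr ω) (s ω) x₀ a b} :=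
  (MeasurableSet.const _).union ((pvcd_meas_sf Tr hTr a b).inter (pvcd_meas_wall Tr s hTr hs x₀ a).compl)

include hTr hs in
theorem pvcd_meas_inComp (x y : V × V) : MeasurableSet {ω | pvqInComp (Tr ω) (s ω) x y} :=
  pvf_meas_rtg (fun ω => pvqCStep (Tr ω) (s ω) x) (pvcd_meas_cstep Tr s hTr hs x) x y

include hTr hs in
theorem pvcd_meas_same (x y : V × V) : MeasurableSet {ω | pvqSame (Tr ω) (s ω) x y} :=
  (pvcd_meas_tag Tr s hTr hs x).inter ((pvcd_meas_tag Tr s hTr hs y).inter ((pvcd_meas_wall Tr s hTr hs x y).inter (pvcd_meas_inComp Tr s hTr hs x y)))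

end rawmeas




section rawmeas2

variable {Ω : Type} [MeasurableSpace Ω] {V : Type} [Countable V] (Tr : Ω → V → V → V → Prop) (s : Ω → V → Bool)
  (hTr : ∀ a b c, MeasurableSet {ω | Tr ω a b c}) (hs : ∀ a, Measurable fun ω => s ω a)

include hTr hs in
theorem pvcd_measurable_sum (w : Ω → V × V → ℂ) (hw : ∀ y, Measurable fun ω => w ω y) (x : V × V) :
    Measurable fun ω => pvqSum (Tr ω) (s ω) (w ω) x :=
  pvcd_measurable_finsum (fun ω y => pvqSame (Tr ω) (s ω) x y) (pvcd_meas_same Tr s hTr hs x) w hw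

include hTr hs in
/-- every function of the number of tags of a label is measurable -/
theorem pvcd_measurable_card {β : Type*} [MeasurableSpace β] (φ : ℕ∞ → β) (x : V × V) : Measurable fun ω => φ (pvqCard (Tr ω) (s ω) x) := by
  refine pvcd_measurable_of_finset (fun ω y => pvqSame (Tr ω) (s ω) x y) (pvcd_meas_same Tr s hTr hs x) _ (fun L _ => φ L.card) (fun _ => measurable_const)
    (fun _ => φ ⊤) measurable_const ?_ ?_
  · intro L ω h
    show φ ({y | pvqSame (Tr ω) (s ω) x y}.encard) = φ L.card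
    rw [h, Set.encard_coe_eq_coe_finsetCard]
  · intro ω h
    show φ ({y | pvqSame (Tr ω) (s ω) x y}.encard) = φ ⊤
    rw [Set.encard_eq_top_iff.2 h]

include hTr hs in
theorem pvcd_measurable_lab_ediam (p : Ω → V × V → ℂ) (hp : ∀ y, Measurable fun ω => p ω y) (x : V × V) :
    Measurable fun ω => Metric.ediam (p ω '' {y | pvqSame (Tr ω) (s ω) x y}) :=
  pvcd_measurable_ediam (fun ω y => pvqSame (Tr ω) (s ω) x y) (pvcd_meas_same Tr s hTr hs x) p hp

include hTr hs in
theorem pvcd_meas_wall_finite (x : V × V) : MeasurableSet {ω | {y | pvqWall (Tr ω) (s ω) x y}.Finite} :=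
  pvcd_meas_finite (fun ω y => pvqWall (Tr ω) (s ω) x y) (pvcd_meas_wall Tr s hTr hs x)

include hTr hs in
theorem pvcd_meas_lab_finite (x : V × V) : MeasurableSet {ω | {y | pvqSame (Tr ω) (s ω) x y}.Finite} :=
  pvcd_meas_finite (fun ω y => pvqSame (Tr ω) (s ω) x y) (pvcd_meas_same Tr s hTr hs x)

end rawmeas2

/-! ## 6. the model in index code -/

/-- the coded triangle relation -/
def pvcdTr (ω : PVSample) (i j k : DelgpIx) : Prop :=
  pvcdPri ω i ∧ pvcdPri ω j ∧ pvcdPri ω k ∧ DelTri (cfSites (pvConf ω)) (delgpW ω i) (delgpW ω j) (delgpW ω k)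

/-- the coded colouring -/
noncomputable def pvcdCol (ω : PVSample) (i : DelgpIx) : Bool := cfCol (pvConf ω) (delgpW ω i)

/-- the raw dart of a pair of indices -/
def pvcdW (ω : PVSample) (p : DelgpIx × DelgpIx) : ℂ × ℂ := (delgpW ω p.1, delgpW ω p.2)

/-- both indices are primary -/
def pvcdPri2 (ω : PVSample) (p : DelgpIx × DelgpIx) : Prop := pvcdPri ω p.1 ∧ pvcdPri ω p.2

theorem pvcd_eqns_cite2 : True := by
  have := @pvcdTr.eq_1; have := @pvcdCol.eq_1; have := @pvcdW.eq_1; have := @pvcdPri2.eq_1; have := @pvcdTrA.eq_1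
  trivial

theorem pvcd_meas_Tr (i j k : DelgpIx) : MeasurableSet {ω | pvcdTr ω i j k} :=
  (pvcd_meas_pri i).inter ((pvcd_meas_pri j).inter ((pvcd_meas_pri k).inter (pvcd_meas_tri i j k)))

theorem pvcd_measurable_Col (i : DelgpIx) : Measurable fun ω => pvcdCol ω i := pvcd_measurable_col i

theorem pvcd_measurable_W (p : DelgpIx × DelgpIx) : Measurable fun ω => pvcdW ω p := (delgp_measurable_W p.1).prodMk (delgp_measurable_W p.2)

theorem pvcd_meas_pri2 (p : DelgpIx × DelgpIx) : MeasurableSet {ω | pvcdPri2 ω p} := (pvcd_meas_pri p.1).inter (pvcd_meas_pri p.2)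

/-- **(NAT) for the index code**, for EVERY sample -/
theorem pvcd_natOn (ω : PVSample) : PvcdNatOn {i | pvcdPri ω i} (delgpW ω) (pvcdTr ω) (DelTri (cfSites (pvConf ω))) where
  injOn := pvcd_pri_injOn ω
  supp _ _ _ h := ⟨h.1, h.2.1, h.2.2.1⟩
  iff _ ha _ hb _ hc := ⟨fun h => ⟨ha, hb, hc, h⟩, fun h => h.2.2.2⟩
  rng _ _ _ _ c' h := by
    have hc : c' ∈ cfSites (pvConf ω) := h.2.2.1
    rw [pvcd_sites] at hc
    obtain ⟨c, hc, rfl⟩ := hc
    exact ⟨c, hc, rfl⟩

theorem pvcd_W_eq (ω : PVSample) (p : DelgpIx × DelgpIx) : pvcdW ω p = Prod.map (delgpW ω) (delgpW ω) p := rfl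

theorem pvcd_col_comp (ω : PVSample) : cfCol (pvConf ω) ∘ delgpW ω = pvcdCol ω := rfl

section dict

variable (ω : PVSample) {p q : DelgpIx × DelgpIx}

theorem pvcd_code_tag (hp : pvcdPri2 ω p) : pvqTag (DelTri (cfSites (pvConf ω))) (cfCol (pvConf ω)) (pvcdW ω p) ↔ pvqTag (pvcdTr ω) (pvcdCol ω) p :=
  pvcd_on_tag (pvcd_natOn ω) _ (x := p) hp

theorem pvcd_code_same (hp : pvcdPri2 ω p) (hq : pvcdPri2 ω q) :
    pvqSame (DelTri (cfSites (pvConf ω))) (cfCol (pvConf ω)) (pvcdW ω p) (pvcdW ω q) ↔ pvqSame (pvcdTr ω) (pvcdCol ω) p q :=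
  pvcd_on_same' (pvcd_natOn ω) _ (x := p) (y := q) hp hq

theorem pvcd_code_same_set (hp : pvcdPri2 ω p) :
    {y | pvqSame (DelTri (cfSites (pvConf ω))) (cfCol (pvConf ω)) (pvcdW ω p) y} = pvcdW ω '' {q | pvqSame (pvcdTr ω) (pvcdCol ω) p q} :=
  pvcd_on_same_set (pvcd_natOn ω) _ (x := p) hp

theorem pvcd_code_wall_set (hp : pvcdPri2 ω p) :
    {y | pvqWall (DelTri (cfSites (pvConf ω))) (cfCol (pvConf ω)) (pvcdW ω p) y} = pvcdW ω '' ({q | pvqWall (pvcdTr ω) (pvcdCol ω) p q} ∩ {q | pvcdPri2 ω q}) :=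
  pvcd_on_wall_set (pvcd_natOn ω) _ (x := p) hp

theorem pvcd_code_sum (w : ℂ × ℂ → ℂ) (hp : pvcdPri2 ω p) :
    pvqSum (DelTri (cfSites (pvConf ω))) (cfCol (pvConf ω)) w (pvcdW ω p) = pvqSum (pvcdTr ω) (pvcdCol ω) (fun q => w (pvcdW ω q)) p :=
  pvcd_on_sum (pvcd_natOn ω) _ w (x := p) hp

theorem pvcd_code_card (hp : pvcdPri2 ω p) :
    pvqCard (DelTri (cfSites (pvConf ω))) (cfCol (pvConf ω)) (pvcdW ω p) = pvqCard (pvcdTr ω) (pvcdCol ω) p :=
  pvcd_on_card (pvcd_natOn ω) _ (x := p) hp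

theorem pvcd_W_injOn : InjOn (pvcdW ω) {q | pvcdPri2 ω q} := (pvcd_natOn ω).map_injOn

/-- every pair of sites is coded by a pair of primary indices -/
theorem pvcd_exists_code {x : ℂ × ℂ} (h1 : x.1 ∈ cfSites (pvConf ω)) (h2 : x.2 ∈ cfSites (pvConf ω)) : ∃ p, pvcdPri2 ω p ∧ pvcdW ω p = x := by
  rw [pvcd_sites] at h1 h2
  obtain ⟨i, hi, e1⟩ := h1
  obtain ⟨j, hj, e2⟩ := h2
  exact ⟨(i, j), ⟨hi, hj⟩, Prod.ext e1 e2⟩

end dict

/-! ### the coded apex -/

open Classical in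
/-- the coded apex: the position of the FIRST primary index which closes a triangle on the left of `i → j` -/
noncomputable def pvcdApex (ω : PVSample) (p : DelgpIx × DelgpIx) : ℂ :=
  if h : ∃ n, ∃ k : DelgpIx, Encodable.encode k = n ∧ pvcdTr ω p.1 p.2 k then delgpW ω (Nat.find_spec h).choose else delgpW ω p.1

theorem pvcd_measurable_apex (p : DelgpIx × DelgpIx) : Measurable fun ω => pvcdApex ω p := by
  classical
  -- cover: the first closing index is `k`, or there is none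
  refine pvcd_measurable_of_cover (ι := Option DelgpIx)
    (fun o => Option.casesOn o {ω | ∀ k, ¬ pvcdTr ω p.1 p.2 k}
      fun k => {ω | pvcdTr ω p.1 p.2 k ∧ ∀ l : DelgpIx, Encodable.encode l < Encodable.encode k → ¬ pvcdTr ω p.1 p.2 l}) ?_ ?_ _
    (fun o => Option.casesOn o (fun ω => delgpW ω p.1) fun k ω => delgpW ω k) ?_ ?_
  · rintro (_ | k)
    · have e : {ω | ∀ k, ¬ pvcdTr ω p.1 p.2 k} = ⋂ k, {ω | pvcdTr ω p.1 p.2 k}ᶜ := by
        ext ω; simp only [mem_ofPred_eq, mem_iInter, mem_compl_iff]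
      show MeasurableSet {ω | ∀ k, ¬ pvcdTr ω p.1 p.2 k}
      rw [e]
      exact MeasurableSet.iInter fun k => (pvcd_meas_Tr _ _ k).compl
    · have e : {ω | pvcdTr ω p.1 p.2 k ∧ ∀ l : DelgpIx, Encodable.encode l < Encodable.encode k → ¬ pvcdTr ω p.1 p.2 l}
          = {ω | pvcdTr ω p.1 p.2 k} ∩ ⋂ l : DelgpIx, ⋂ (_ : Encodable.encode l < Encodable.encode k), {ω | pvcdTr ω p.1 p.2 l}ᶜ := by
        ext ω; simp only [mem_ofPred_eq, mem_inter_iff, mem_iInter, mem_compl_iff]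
      show MeasurableSet {ω | pvcdTr ω p.1 p.2 k ∧ ∀ l : DelgpIx, Encodable.encode l < Encodable.encode k → ¬ pvcdTr ω p.1 p.2 l}
      rw [e]
      exact (pvcd_meas_Tr _ _ k).inter (MeasurableSet.iInter fun l => MeasurableSet.iInter fun _ => (pvcd_meas_Tr _ _ l).compl)
  · intro ω
    by_cases h : ∃ n, ∃ k : DelgpIx, Encodable.encode k = n ∧ pvcdTr ω p.1 p.2 k
    · obtain ⟨k, hk, hT⟩ := Nat.find_spec h
      refine ⟨some k, hT, fun l hl hTl => ?_⟩
      rw [hk] at hl
      exact Nat.find_min h hl ⟨l, rfl, hTl⟩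
    · exact ⟨none, fun k hk => h ⟨_, k, rfl, hk⟩⟩
  · rintro (_ | k)
    · exact delgp_measurable_W _
    · exact delgp_measurable_W _
  · rintro (_ | k) ω hω
    · have h : ¬ ∃ n, ∃ k : DelgpIx, Encodable.encode k = n ∧ pvcdTr ω p.1 p.2 k := by
        rintro ⟨_, k, -, hk⟩
        exact hω k hk
      show pvcdApex ω p = delgpW ω p.1
      unfold pvcdApex
      rw [dif_neg h]
    · obtain ⟨hT, hmin⟩ := hω
      have h : ∃ n, ∃ k : DelgpIx, Encodable.encode k = n ∧ pvcdTr ω p.1 p.2 k := ⟨_, k, rfl, hT⟩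
      show pvcdApex ω p = delgpW ω k
      unfold pvcdApex
      rw [dif_pos h]
      have hs := (Nat.find_spec h).choose_spec
      have h1 : Nat.find h = Encodable.encode k := by
        refine le_antisymm (Nat.find_min' h ⟨k, rfl, hT⟩) ?_
        by_contra hlt
        rw [not_le, ← hs.1] at hlt
        exact hmin _ hlt hs.2
      have h2 : (Nat.find_spec h).choose = k := Encodable.encode_injective (hs.1.trans h1)
      rw [h2]

/-- in general position the coded apex is the apex -/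
theorem pvcd_apex_eq {ω : PVSample} (hgp : VorGP (cfSites (pvConf ω))) {p : DelgpIx × DelgpIx} (hp : pvcdPri2 ω p) :
    delApex (cfSites (pvConf ω)) (delgpW ω p.1) (delgpW ω p.2) = pvcdApex ω p := by
  classical
  unfold pvcdApex
  split_ifs with h
  · exact del_apex_eq hgp (Nat.find_spec h).choose_spec.2.2.2.2
  · unfold delApex
    rw [dif_neg]
    rintro ⟨c, hc⟩
    obtain ⟨k, hk, rfl⟩ := (pvcd_natOn ω).rng _ hp.1 _ hp.2 c hc
    exact h ⟨_, k, rfl, hp.1, hp.2, hk, hc⟩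




/-! ### the coded weights -/

/-- the coded `Q`-summand -/
noncomputable def pvcdWQ (ω : PVSample) (p : DelgpIx × DelgpIx) : ℂ := pvqq (delgpW ω p.1) (delgpW ω p.2) (pvcdApex ω p)
/-- the coded `U`-summand -/
noncomputable def pvcdWU (ω : PVSample) (p : DelgpIx × DelgpIx) : ℂ := pvqp (delgpW ω p.1) (delgpW ω p.2) (pvcdApex ω p)
/-- the coded barycentre -/
noncomputable def pvcdBar (ω : PVSample) (p : DelgpIx × DelgpIx) : ℂ := (delgpW ω p.1 + delgpW ω p.2 + pvcdApex ω p) / 3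

theorem pvcd_eqns_cite3 : True := by
  have := @pvcdApex.eq_1; have := @pvcdWQ.eq_1; have := @pvcdWU.eq_1; have := @pvcdBar.eq_1
  trivial

theorem pvcd_measurable_WQ (p : DelgpIx × DelgpIx) : Measurable fun ω => pvcdWQ ω p := by
  have h1 := delgp_measurable_W p.1
  have h2 := delgp_measurable_W p.2
  have h3 := pvcd_measurable_apex p
  unfold pvcdWQ pvqq
  exact (((h1.sub h2).add ((h2.sub h3).const_mul _)).add ((h3.sub h1).const_mul _)).div_const 3

theorem pvcd_measurable_WU (p : DelgpIx × DelgpIx) : Measurable fun ω => pvcdWU ω p := by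
  have h1 := delgp_measurable_W p.1
  have h2 := delgp_measurable_W p.2
  have h3 := pvcd_measurable_apex p
  unfold pvcdWU pvqp
  exact (((h1.sub h2).add ((h2.sub h3).const_mul _)).add ((h3.sub h1).const_mul _)).div_const 3

theorem pvcd_measurable_Bar (p : DelgpIx × DelgpIx) : Measurable fun ω => pvcdBar ω p := by
  unfold pvcdBar
  exact (((delgp_measurable_W p.1).add (delgp_measurable_W p.2)).add (pvcd_measurable_apex p)).div_const 3

section wts

variable {ω : PVSample} (hgp : VorGP (cfSites (pvConf ω))) {p : DelgpIx × DelgpIx} (hp : pvcdPri2 ω p)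

include hgp hp

theorem pvcd_WQ_eq : pvqWQ (cfSites (pvConf ω)) (pvcdW ω p) = pvcdWQ ω p := by
  unfold pvqWQ pvcdWQ pvcdW
  rw [pvcd_apex_eq hgp hp]

theorem pvcd_WU_eq : pvqWU (cfSites (pvConf ω)) (pvcdW ω p) = pvcdWU ω p := by
  unfold pvqWU pvcdWU pvcdW
  rw [pvcd_apex_eq hgp hp]

theorem pvcd_Bar_eq : pvqBar (cfSites (pvConf ω)) (pvcdW ω p) = pvcdBar ω p := by
  unfold pvqBar pvcdBar pvcdW
  rw [pvcd_apex_eq hgp hp]

end wts

/-- a sum of a weight over a label, in code: only the values of the weight ON THE LABEL matter -/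
theorem pvcd_sum_congr {V : Type} (Tr : V → V → V → Prop) (s : V → Bool) {w w' : V × V → ℂ} (x : V × V) (h : ∀ y, pvqSame Tr s x y → w y = w' y) :
    pvqSum Tr s w x = pvqSum Tr s w' x := by
  unfold pvqSum
  refine finsum_congr fun y => ?_
  exact finsum_congr fun hy => h y hy

/-- a label lives on the primary indices -/
theorem pvcd_same_pri2 {ω : PVSample} {p q : DelgpIx × DelgpIx} (h : pvqSame (pvcdTr ω) (pvcdCol ω) p q) : pvcdPri2 ω q :=
  pvcd_tag_mem (pvcd_natOn ω) h.2.1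

/-- **the label sum of the `Q`-summands in code** -/
theorem pvcd_code_sum_WQ {ω : PVSample} (hgp : VorGP (cfSites (pvConf ω))) {p : DelgpIx × DelgpIx} (hp : pvcdPri2 ω p) :
    pvqSum (DelTri (cfSites (pvConf ω))) (cfCol (pvConf ω)) (pvqWQ (cfSites (pvConf ω))) (pvcdW ω p) = pvqSum (pvcdTr ω) (pvcdCol ω) (pvcdWQ ω) p := by
  rw [pvcd_code_sum ω _ hp]
  exact pvcd_sum_congr _ _ p fun q hq => pvcd_WQ_eq hgp (pvcd_same_pri2 hq)

theorem pvcd_code_sum_WU {ω : PVSample} (hgp : VorGP (cfSites (pvConf ω))) {p : DelgpIx × DelgpIx} (hp : pvcdPri2 ω p) :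
    pvqSum (DelTri (cfSites (pvConf ω))) (cfCol (pvConf ω)) (pvqWU (cfSites (pvConf ω))) (pvcdW ω p) = pvqSum (pvcdTr ω) (pvcdCol ω) (pvcdWU ω) p := by
  rw [pvcd_code_sum ω _ hp]
  exact pvcd_sum_congr _ _ p fun q hq => pvcd_WU_eq hgp (pvcd_same_pri2 hq)

/-! ## 7. the bridge to `pvP ε` -/

/-- **BRIDGE**: a functional of the configuration which on the good configurations is read from the sample by a measurable rule is a.e. measurable -/
theorem pvcd_bridge {β : Type*} [MeasurableSpace β] (F : Conf PvPt → β) (FI : PVSample → β) (hFI : Measurable FI)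
    (h : ∀ ω, DelgpCf (pvConf ω) → F (pvConf ω) = FI ω) (ε : ℝ) : AEMeasurable F (pvP ε) := by
  classical
  let b₀ : β := F ⟨∅⟩
  have h1 : AEMeasurable (fun η => if DelgpCf η then F η else b₀) (pvP ε) := by
    refine pvcn_bridge_fun ?_ ε
    have e : (fun ω => if DelgpCf (pvConf ω) then F (pvConf ω) else b₀) = fun ω => if DelgpCf (pvConf ω) then FI ω else b₀ := by
      funext ω
      by_cases hω : DelgpCf (pvConf ω)
      · rw [if_pos hω, if_pos hω, h ω hω]
      · rw [if_neg hω, if_neg hω]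
    rw [e]
    exact Measurable.ite delgp_cf_meas hFI measurable_const
  refine h1.congr ?_
  filter_upwards [delgp_ae_cf ε] with η hη
  rw [if_pos hη]

/-- a sum over raw darts of ℂ is a sum over pairs of primary indices -/
theorem pvcd_tsum_code (ω : PVSample) (F : ℂ × ℂ → ℝ≥0∞) (hF : ∀ x, F x ≠ 0 → x.1 ∈ cfSites (pvConf ω) ∧ x.2 ∈ cfSites (pvConf ω)) :
    ∑' x, F x = ∑' p : DelgpIx × DelgpIx, {q | pvcdPri2 ω q}.indicator (fun q => F (pvcdW ω q)) p := by
  have hs : ∀ p : Function.support ({q | pvcdPri2 ω q}.indicator fun q => F (pvcdW ω q)), pvcdPri2 ω p.1 := by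
    rintro ⟨p, hp⟩
    by_contra hn
    exact hp (indicator_of_notMem (show p ∉ {q | pvcdPri2 ω q} from hn) _)
  refine tsum_eq_tsum_of_ne_zero_bij (fun p => pvcdW ω p.1) ?_ ?_ ?_
  · intro p q hpq
    exact Subtype.ext (pvcd_W_injOn ω (hs p) (hs q) hpq)
  · intro x hx
    obtain ⟨p, hp, rfl⟩ := pvcd_exists_code ω (hF x hx).1 (hF x hx).2
    refine ⟨⟨p, ?_⟩, rfl⟩
    rw [Function.mem_support, indicator_of_mem (show p ∈ {q | pvcdPri2 ω q} from hp)]
    exact hx
  · intro p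
    rw [indicator_of_mem (show p.1 ∈ {q | pvcdPri2 ω q} from hs p)]

/-- **MAIN, general form**: a random measure `∑_x mass x · δ_{loc x}` over the raw darts, whose masses and locations are read from the sample by measurable rules on the good configurations -/
theorem pvcd_aemeasurable_sum (mass : Conf PvPt → ℂ × ℂ → ℝ≥0∞) (loc : Conf PvPt → ℂ × ℂ → ℂ)
    (hsupp : ∀ η x, mass η x ≠ 0 → x.1 ∈ cfSites η ∧ x.2 ∈ cfSites η)
    (massI : DelgpIx × DelgpIx → PVSample → ℝ≥0∞) (locI : DelgpIx × DelgpIx → PVSample → ℂ)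
    (hmI : ∀ p, Measurable (massI p)) (hlI : ∀ p, Measurable (locI p))
    (hm : ∀ ω, DelgpCf (pvConf ω) → ∀ p, pvcdPri2 ω p → mass (pvConf ω) (pvcdW ω p) = massI p ω)
    (hl : ∀ ω, DelgpCf (pvConf ω) → ∀ p, pvcdPri2 ω p → loc (pvConf ω) (pvcdW ω p) = locI p ω)
    {B : Set ℂ} (hB : MeasurableSet B) (ε : ℝ) :
    AEMeasurable (fun η => Measure.sum (fun x : ℂ × ℂ => mass η x • Measure.dirac (loc η x)) B) (pvP ε) := by
  refine pvcd_bridge _ (fun ω => ∑' p : DelgpIx × DelgpIx, {ω | pvcdPri2 ω p}.indicator (fun ω => massI p ω * B.indicator 1 (locI p ω)) ω) ?_ ?_ ε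
  · refine Measurable.tsum fun p => Measurable.indicator ?_ (pvcd_meas_pri2 p)
    exact (hmI p).mul ((measurable_one.indicator hB).comp (hlI p))
  · intro ω hω
    rw [Measure.sum_apply _ hB]
    simp only [Measure.smul_apply, Measure.dirac_apply' _ hB, smul_eq_mul]
    rw [pvcd_tsum_code ω (fun x => mass (pvConf ω) x * B.indicator 1 (loc (pvConf ω) x)) fun x hx => hsupp _ x (left_ne_zero_of_mul hx)]
    refine tsum_congr fun p => ?_
    by_cases hp : pvcdPri2 ω p
    · rw [indicator_of_mem (show p ∈ {q | pvcdPri2 ω q} from hp), indicator_of_mem (show ω ∈ {ω | pvcdPri2 ω p} from hp), hm ω hω p hp, hl ω hω p hp]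
    · rw [indicator_of_notMem (show p ∉ {q | pvcdPri2 ω q} from hp), indicator_of_notMem (show ω ∉ {ω | pvcdPri2 ω p} from hp)]


/-! ## 8. series over the raw darts, quantifiers over a label, label masses -/

/-- **MAIN, series form** -/
theorem pvcd_aemeasurable_tsum (F : Conf PvPt → ℂ × ℂ → ℝ≥0∞) (hsupp : ∀ η x, F η x ≠ 0 → x.1 ∈ cfSites η ∧ x.2 ∈ cfSites η)
    (FI : DelgpIx × DelgpIx → PVSample → ℝ≥0∞) (hFI : ∀ p, Measurable (FI p))
    (h : ∀ ω, DelgpCf (pvConf ω) → ∀ p, pvcdPri2 ω p → F (pvConf ω) (pvcdW ω p) = FI p ω) (ε : ℝ) :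
    AEMeasurable (fun η => ∑' x : ℂ × ℂ, F η x) (pvP ε) := by
  refine pvcd_bridge _ (fun ω => ∑' p : DelgpIx × DelgpIx, {ω | pvcdPri2 ω p}.indicator (FI p) ω) ?_ ?_ ε
  · exact Measurable.tsum fun p => (hFI p).indicator (pvcd_meas_pri2 p)
  · intro ω hω
    rw [pvcd_tsum_code ω (F (pvConf ω)) (hsupp _)]
    refine tsum_congr fun p => ?_
    by_cases hp : pvcdPri2 ω p
    · rw [indicator_of_mem (show p ∈ {q | pvcdPri2 ω q} from hp), indicator_of_mem (show ω ∈ {ω | pvcdPri2 ω p} from hp), h ω hω p hp]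
    · rw [indicator_of_notMem (show p ∉ {q | pvcdPri2 ω q} from hp), indicator_of_notMem (show ω ∉ {ω | pvcdPri2 ω p} from hp)]

section quant

variable (ω : PVSample) {p : DelgpIx × DelgpIx}

theorem pvcd_code_forall (hp : pvcdPri2 ω p) (P : ℂ × ℂ → Prop) :
    (∀ y, pvqSame (DelTri (cfSites (pvConf ω))) (cfCol (pvConf ω)) (pvcdW ω p) y → P y) ↔ ∀ q, pvqSame (pvcdTr ω) (pvcdCol ω) p q → P (pvcdW ω q) := by
  have e := pvcd_code_same_set ω hp
  constructor
  · intro h q hq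
    refine h _ ?_
    have : pvcdW ω q ∈ pvcdW ω '' {q | pvqSame (pvcdTr ω) (pvcdCol ω) p q} := mem_image_of_mem _ hq
    rw [← e] at this
    exact this
  · intro h y hy
    have : y ∈ {y | pvqSame (DelTri (cfSites (pvConf ω))) (cfCol (pvConf ω)) (pvcdW ω p) y} := hy
    rw [e] at this
    obtain ⟨q, hq, rfl⟩ := this
    exact h q hq

theorem pvcd_code_exists (hp : pvcdPri2 ω p) (P : ℂ × ℂ → Prop) :
    (∃ y, pvqSame (DelTri (cfSites (pvConf ω))) (cfCol (pvConf ω)) (pvcdW ω p) y ∧ P y) ↔ ∃ q, pvqSame (pvcdTr ω) (pvcdCol ω) p q ∧ P (pvcdW ω q) := by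
  have h := pvcd_code_forall ω hp fun y => ¬ P y
  have h' := not_congr h
  push Not at h'
  exact h'

/-- the face on the left of a raw dart exists -/
theorem pvcd_code_live (hp : pvcdPri2 ω p) : (∃ c, DelTri (cfSites (pvConf ω)) (pvcdW ω p).1 (pvcdW ω p).2 c) ↔ ∃ k, pvcdTr ω p.1 p.2 k := by
  constructor
  · rintro ⟨c, hc⟩
    obtain ⟨k, hk, rfl⟩ := (pvcd_natOn ω).rng _ hp.1 _ hp.2 c hc
    exact ⟨k, hp.1, hp.2, hk, hc⟩
  · rintro ⟨k, hk⟩
    exact ⟨_, hk.2.2.2⟩

end quant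

theorem pvcd_meas_live (p : DelgpIx × DelgpIx) : MeasurableSet {ω | ∃ k, pvcdTr ω p.1 p.2 k} := by
  have e : {ω | ∃ k, pvcdTr ω p.1 p.2 k} = ⋃ k, {ω | pvcdTr ω p.1 p.2 k} := by
    ext ω; simp only [mem_ofPred_eq, mem_iUnion]
  rw [e]
  exact MeasurableSet.iUnion fun k => pvcd_meas_Tr _ _ k

theorem pvcd_live_sites {Y : Set ℂ} {x : ℂ × ℂ} (h : ∃ c, DelTri Y x.1 x.2 c) : x.1 ∈ Y ∧ x.2 ∈ Y := by
  obtain ⟨c, hc⟩ := h
  exact ⟨hc.1, hc.2.1⟩

theorem pvcd_tag_sites {Y : Set ℂ} {s : ℂ → Bool} {x : ℂ × ℂ} (h : pvqTag (DelTri Y) s x) : x.1 ∈ Y ∧ x.2 ∈ Y := by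
  obtain ⟨c, hc, -⟩ := h
  exact ⟨hc.1, hc.2.1⟩

/-- the events of the model in code -/
theorem pvcd_meas_Tag (p : DelgpIx × DelgpIx) : MeasurableSet {ω | pvqTag (pvcdTr ω) (pvcdCol ω) p} :=
  pvcd_meas_tag pvcdTr pvcdCol pvcd_meas_Tr pvcd_measurable_Col p

theorem pvcd_meas_Same (p q : DelgpIx × DelgpIx) : MeasurableSet {ω | pvqSame (pvcdTr ω) (pvcdCol ω) p q} :=
  pvcd_meas_same pvcdTr pvcdCol pvcd_meas_Tr pvcd_measurable_Col p q

theorem pvcd_meas_Wall (p q : DelgpIx × DelgpIx) : MeasurableSet {ω | pvqWall (pvcdTr ω) (pvcdCol ω) p q} :=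
  pvcd_meas_wall pvcdTr pvcdCol pvcd_meas_Tr pvcd_measurable_Col p q

theorem pvcd_meas_forall_lab (p : DelgpIx × DelgpIx) (P : DelgpIx × DelgpIx → Set PVSample) (hP : ∀ q, MeasurableSet (P q)) :
    MeasurableSet {ω | ∀ q, pvqSame (pvcdTr ω) (pvcdCol ω) p q → ω ∈ P q} := by
  have e : {ω | ∀ q, pvqSame (pvcdTr ω) (pvcdCol ω) p q → ω ∈ P q} = ⋂ q, ({ω | pvqSame (pvcdTr ω) (pvcdCol ω) p q}ᶜ ∪ P q) := by
    ext ω
    simp only [mem_ofPred_eq, mem_iInter, mem_union, mem_compl_iff]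
    exact forall_congr' fun q => imp_iff_not_or
  rw [e]
  exact MeasurableSet.iInter fun q => (pvcd_meas_Same p q).compl.union (hP q)

theorem pvcd_meas_exists_lab (p : DelgpIx × DelgpIx) (P : DelgpIx × DelgpIx → Set PVSample) (hP : ∀ q, MeasurableSet (P q)) :
    MeasurableSet {ω | ∃ q, pvqSame (pvcdTr ω) (pvcdCol ω) p q ∧ ω ∈ P q} := by
  have e : {ω | ∃ q, pvqSame (pvcdTr ω) (pvcdCol ω) p q ∧ ω ∈ P q} = ⋃ q, ({ω | pvqSame (pvcdTr ω) (pvcdCol ω) p q} ∩ P q) := by
    ext ω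
    simp only [mem_ofPred_eq, mem_iUnion, mem_inter_iff]
  rw [e]
  exact MeasurableSet.iUnion fun q => (pvcd_meas_Same p q).inter (hP q)

open Classical in
/-- **the coded share of a tag in `|X_λ(w)|²`**, with a guard `GI` -/
noncomputable def pvcdMassI (GI : DelgpIx × DelgpIx → Set PVSample) (wI : DelgpIx × DelgpIx → PVSample → ℂ) (p : DelgpIx × DelgpIx) (ω : PVSample) : ℝ≥0∞ :=
  if pvqTag (pvcdTr ω) (pvcdCol ω) p ∧ ω ∈ GI p then
    ENNReal.ofReal (‖pvqSum (pvcdTr ω) (pvcdCol ω) (fun q => wI q ω) p‖ ^ 2) / (pvqCard (pvcdTr ω) (pvcdCol ω) p : ℝ≥0∞) else 0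

theorem pvcd_eqns_cite4 : True := by
  have := @pvcdMassI.eq_1
  trivial

theorem pvcd_measurable_massI {GI : DelgpIx × DelgpIx → Set PVSample} {wI : DelgpIx × DelgpIx → PVSample → ℂ} (hGI : ∀ p, MeasurableSet (GI p))
    (hwI : ∀ p, Measurable (wI p)) (p : DelgpIx × DelgpIx) : Measurable (pvcdMassI GI wI p) := by
  unfold pvcdMassI
  refine Measurable.ite ((pvcd_meas_Tag p).inter (hGI p)) ?_ measurable_const
  have h1 : Measurable fun ω => pvqSum (pvcdTr ω) (pvcdCol ω) (fun q => wI q ω) p :=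
    pvcd_measurable_sum pvcdTr pvcdCol pvcd_meas_Tr pvcd_measurable_Col (fun ω q => wI q ω) hwI p
  have h2 : Measurable fun ω => ((pvqCard (pvcdTr ω) (pvcdCol ω) p : ℕ∞) : ℝ≥0∞) :=
    pvcd_measurable_card pvcdTr pvcdCol pvcd_meas_Tr pvcd_measurable_Col (fun n : ℕ∞ => (n : ℝ≥0∞)) p
  exact (h1.norm.pow_const 2).ennreal_ofReal.div h2

/-- the share of a tag of the model is its coded share -/
theorem pvcd_mass_eq {GI : DelgpIx × DelgpIx → Set PVSample} {wI : DelgpIx × DelgpIx → PVSample → ℂ} {ω : PVSample} {p : DelgpIx × DelgpIx}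
    (hp : pvcdPri2 ω p) (G : Prop) (w : ℂ × ℂ → ℂ) (hG : G ↔ ω ∈ GI p) (hw : ∀ q, pvcdPri2 ω q → w (pvcdW ω q) = wI q ω)
    [Decidable (pvqTag (DelTri (cfSites (pvConf ω))) (cfCol (pvConf ω)) (pvcdW ω p) ∧ G)] :
    (if pvqTag (DelTri (cfSites (pvConf ω))) (cfCol (pvConf ω)) (pvcdW ω p) ∧ G then
      ENNReal.ofReal (‖pvqSum (DelTri (cfSites (pvConf ω))) (cfCol (pvConf ω)) w (pvcdW ω p)‖ ^ 2)
        / (pvqCard (DelTri (cfSites (pvConf ω))) (cfCol (pvConf ω)) (pvcdW ω p) : ℝ≥0∞) else 0) = pvcdMassI GI wI p ω := by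
  unfold pvcdMassI
  have e1 : pvqSum (DelTri (cfSites (pvConf ω))) (cfCol (pvConf ω)) w (pvcdW ω p) = pvqSum (pvcdTr ω) (pvcdCol ω) (fun q => wI q ω) p := by
    rw [pvcd_code_sum ω _ hp]
    exact pvcd_sum_congr _ _ p fun q hq => hw q (pvcd_same_pri2 hq)
  rw [e1, pvcd_code_card ω hp]
  have e2 : (pvqTag (DelTri (cfSites (pvConf ω))) (cfCol (pvConf ω)) (pvcdW ω p) ∧ G) ↔ (pvqTag (pvcdTr ω) (pvcdCol ω) p ∧ ω ∈ GI p) := by
    rw [pvcd_code_tag ω hp, hG]
  by_cases h : pvqTag (pvcdTr ω) (pvcdCol ω) p ∧ ω ∈ GI p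
  · rw [if_pos h, if_pos (e2.2 h)]
  · rw [if_neg h, if_neg fun h' => h (e2.1 h')]


end Claimed.Agent.R289
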