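import Claimed.Agent.R289.S1P.Raw

/-!
# Row 289 (S0537), box S1P (head helper244), file S1P/LocFin : LOCAL FINITENESS OF THE DELAUNAY TRIANGLES      (helper181, adversary of the S1P interfaces; prefix `pvlf_`)

Cure of the alarm S1P-A2.      Imports `S1P/Raw` only, so that `S1/Closed`, `S1P/Ann`, `S1P/Camp` may import it.
* `pvlf_cell_unif`    the cells `vorCell Y z`, `‖z‖ ≤ R`, are UNIFORMLY bounded as soon as the cells of the four points `± 3R`, `± 3R i` are bounded;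
* `pvlf_centre`       the circumcentre of a Delaunay triangle lies in the cell of its barycentre;
* `pvlf_tri_bdd`      the vertices of the Delaunay triangles with barycentre in a ball are bounded;
* **`pvlf_tri_finite`**   under `DelGood Y` only finitely many raw darts have the barycentre of their face in a bounded set;
* **`pvlf_mask_finite`**  = hypothesis `hfin` of `pvq_ann` (244) for every weight carried by the live darts with barycentre in a bounded set (`pvclW Y W` of 104, `g (pvqBar Y x) * pvqWQ Y x` of 89);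
* `pvlf_dart_finite`  the same for the darts of `delPl h`.
-/

set_option autoImplicit false

namespace Claimed.Agent.R289

open MeasureTheory Set Metric
open scoped ENNReal

/-! ## 1. local finiteness -/

/-- the real inequality behind `pvlf_cell_unif` -/
theorem pvlf_key {R x y a b : ℝ} (hR : 0 ≤ R) (hx : 6 * R ≤ x) (hy : |y| ≤ x) (ha : |a| ≤ R) (hb : |b| ≤ R) :
    2 * ((x - 3 * R) * (a - 3 * R) + y * b) ≤ (a - 3 * R) ^ 2 + b ^ 2 := by
  have h1 : (x - 3 * R) * (a - 3 * R) ≤ (x - 3 * R) * (-(2 * R)) :=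
    mul_le_mul_of_nonneg_left (by linarith [(abs_le.1 ha).2]) (by linarith)
  have h2 : y * b ≤ x * R := by
    calc y * b ≤ |y * b| := le_abs_self _
      _ = |y| * |b| := abs_mul _ _
      _ ≤ x * R := mul_le_mul hy hb (abs_nonneg _) (by linarith)
  have h3 : R * (6 * R - x) ≤ 0 := mul_nonpos_of_nonneg_of_nonpos hR (by linarith)
  nlinarith [sq_nonneg (a - 3 * R), sq_nonneg b]

/-- **uniform boundedness of the cells of the points of a bounded set** -/
theorem pvlf_cell_unif {Y : Set ℂ} (hb : ∀ v : ℂ, Bornology.IsBounded (vorCell Y v)) {R : ℝ} (hR : 0 ≤ R) :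
    ∃ M : ℝ, ∀ z : ℂ, ‖z‖ ≤ R → ∀ o ∈ vorCell Y z, ‖o‖ ≤ M := by
  obtain ⟨M1, h1⟩ := (hb ((3 * R : ℝ) : ℂ)).subset_closedBall (0 : ℂ)
  obtain ⟨M2, h2⟩ := (hb ((-(3 * R) : ℝ) : ℂ)).subset_closedBall (0 : ℂ)
  obtain ⟨M3, h3⟩ := (hb (⟨0, 3 * R⟩ : ℂ)).subset_closedBall (0 : ℂ)
  obtain ⟨M4, h4⟩ := (hb (⟨0, -(3 * R)⟩ : ℂ)).subset_closedBall (0 : ℂ)
  refine ⟨12 * R + |M1| + |M2| + |M3| + |M4|, fun z hz o ho => ?_⟩
  have hzr : |z.re| ≤ R := (Complex.abs_re_le_norm z).trans hz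
  have hzi : |z.im| ≤ R := (Complex.abs_im_le_norm z).trans hz
  have p1 := abs_nonneg M1
  have p2 := abs_nonneg M2
  have p3 := abs_nonneg M3
  have p4 := abs_nonneg M4
  -- transfer to one of the four cells
  have tr : ∀ p : ℂ, ‖o - p‖ ≤ ‖o - z‖ → o ∈ vorCell Y p := fun p hp u hu => hp.trans (ho u hu)
  by_cases c1 : 6 * R ≤ o.re ∧ |o.im| ≤ o.re
  · have : o ∈ vorCell Y ((3 * R : ℝ) : ℂ) := by
      refine tr _ ((delp_half _ _ _).2 ?_)
      have := pvlf_key hR c1.1 c1.2 hzr hzi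
      simpa using this
    have := mem_closedBall_zero_iff.1 (h1 this)
    linarith [le_abs_self M1]
  by_cases c2 : 6 * R ≤ -o.re ∧ |o.im| ≤ -o.re
  · have : o ∈ vorCell Y ((-(3 * R) : ℝ) : ℂ) := by
      refine tr _ ((delp_half _ _ _).2 ?_)
      have := pvlf_key (a := -z.re) hR c2.1 c2.2 (by rwa [abs_neg]) hzi
      simp only [Complex.ofReal_re, Complex.ofReal_im]
      nlinarith [this]
    have := mem_closedBall_zero_iff.1 (h2 this)
    linarith [le_abs_self M2]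
  by_cases c3 : 6 * R ≤ o.im ∧ |o.re| ≤ o.im
  · have : o ∈ vorCell Y (⟨0, 3 * R⟩ : ℂ) := by
      refine tr _ ((delp_half _ _ _).2 ?_)
      have := pvlf_key hR c3.1 c3.2 hzi hzr
      simp only
      nlinarith [this]
    have := mem_closedBall_zero_iff.1 (h3 this)
    linarith [le_abs_self M3]
  by_cases c4 : 6 * R ≤ -o.im ∧ |o.re| ≤ -o.im
  · have : o ∈ vorCell Y (⟨0, -(3 * R)⟩ : ℂ) := by
      refine tr _ ((delp_half _ _ _).2 ?_)
      have := pvlf_key (a := -z.im) hR c4.1 c4.2 (by rwa [abs_neg]) hzr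
      simp only
      nlinarith [this]
    have := mem_closedBall_zero_iff.1 (h4 this)
    linarith [le_abs_self M4]
  -- the bounded case
  have hre : |o.re| ≤ 6 * R ∧ |o.im| ≤ 6 * R := by
    rcases le_total |o.im| |o.re| with hh | hh
    · rcases le_total 0 o.re with h0 | h0
      · rw [abs_of_nonneg h0] at hh ⊢
        have : ¬ 6 * R ≤ o.re := fun h => c1 ⟨h, hh⟩
        constructor <;> linarith
      · rw [abs_of_nonpos h0] at hh ⊢
        have : ¬ 6 * R ≤ -o.re := fun h => c2 ⟨h, hh⟩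
        constructor <;> linarith
    · rcases le_total 0 o.im with h0 | h0
      · rw [abs_of_nonneg h0] at hh ⊢
        have : ¬ 6 * R ≤ o.im := fun h => c3 ⟨h, hh⟩
        constructor <;> linarith
      · rw [abs_of_nonpos h0] at hh ⊢
        have : ¬ 6 * R ≤ -o.im := fun h => c4 ⟨h, hh⟩
        constructor <;> linarith
  have := Complex.norm_le_abs_re_add_abs_im o
  linarith [hre.1, hre.2]

/-- the circumcentre of a Delaunay triangle lies in the cell of its barycentre -/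
theorem pvlf_centre {Y : Set ℂ} {a b c o : ℂ} (ha : a ∈ Y) (hb : b ∈ Y) (hc : c ∈ Y) (h1 : o ∈ vorCell Y a) (h2 : o ∈ vorCell Y b) (h3 : o ∈ vorCell Y c) :
    o ∈ vorCell Y ((a + b + c) / 3) := by
  intro u hu
  have e1 : ‖o - b‖ = ‖o - a‖ := vor_equidist hb ha h2 h1
  have e2 : ‖o - c‖ = ‖o - a‖ := vor_equidist hc ha h3 h1
  have e : o - (a + b + c) / 3 = ((o - a) + (o - b) + (o - c)) / 3 := by ring
  have h : ‖o - (a + b + c) / 3‖ ≤ ‖o - a‖ := by
    rw [e, norm_div]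
    have h3' : ‖(3 : ℂ)‖ = 3 := by simp
    rw [h3', div_le_iff₀ (by norm_num)]
    calc ‖(o - a) + (o - b) + (o - c)‖ ≤ ‖o - a‖ + ‖o - b‖ + ‖o - c‖ := norm_add₃_le
      _ = ‖o - a‖ * 3 := by rw [e1, e2]; ring
  exact h.trans (h1 u hu)

/-- the vertices of the Delaunay triangles with barycentre in a ball are bounded -/
theorem pvlf_tri_bdd {Y : Set ℂ} (h : DelGood Y) {R : ℝ} (hR : 0 ≤ R) :
    ∃ R' : ℝ, ∀ a b c : ℂ, DelTri Y a b c → ‖(a + b + c) / 3‖ ≤ R → ‖a‖ ≤ R' ∧ ‖b‖ ≤ R' ∧ ‖c‖ ≤ R' := by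
  obtain ⟨M, hM⟩ := pvlf_cell_unif h.bdd hR
  obtain ⟨u0, hu0⟩ := h.ne
  refine ⟨2 * M + ‖u0‖, fun a b c ht hz => ?_⟩
  obtain ⟨ha, hb, hc, -, o, ⟨h1, h2⟩, h3⟩ := ht
  have ho : ‖o‖ ≤ M := hM _ hz o (pvlf_centre ha hb hc h1 h2 h3)
  have k : ∀ v : ℂ, o ∈ vorCell Y v → ‖v‖ ≤ 2 * M + ‖u0‖ := by
    intro v hv
    have e1 : ‖o - v‖ ≤ ‖o - u0‖ := hv u0 hu0
    have e2 : ‖o - u0‖ ≤ ‖o‖ + ‖u0‖ := norm_sub_le _ _
    have e3 : ‖v‖ ≤ ‖o‖ + ‖o - v‖ := by
      have : v = o - (o - v) := by ring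
      calc ‖v‖ = ‖o - (o - v)‖ := by rw [← this]
        _ ≤ ‖o‖ + ‖o - v‖ := norm_sub_le _ _
    linarith
  exact ⟨k a h1, k b h2, k c h3⟩

/-- **LOCAL FINITENESS OF THE TRIANGLES**: finitely many raw darts have the barycentre of their face in a bounded set -/
theorem pvlf_tri_finite {Y : Set ℂ} (h : DelGood Y) {W : Set ℂ} (hW : Bornology.IsBounded W) :
    {x : ℂ × ℂ | (∃ c, DelTri Y x.1 x.2 c) ∧ pvqBar Y x ∈ W}.Finite := by
  obtain ⟨R, hR⟩ := hW.subset_closedBall (0 : ℂ)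
  obtain ⟨R', hR'⟩ := pvlf_tri_bdd h (abs_nonneg R)
  refine ((h.lf R').prod (h.lf R')).subset ?_
  rintro ⟨a, b⟩ ⟨⟨c, hc⟩, hx⟩
  have e : pvqBar Y (a, b) = (a + b + c) / 3 := by
    unfold pvqBar
    rw [del_apex_eq h.gp hc]
  rw [e] at hx
  have hz : ‖(a + b + c) / 3‖ ≤ |R| := (mem_closedBall_zero_iff.1 (hR hx)).trans (le_abs_self R)
  obtain ⟨h1, h2, -⟩ := hR' a b c hc hz
  exact ⟨⟨hc.1, mem_closedBall_zero_iff.2 h1⟩, ⟨hc.2.1, mem_closedBall_zero_iff.2 h2⟩⟩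

/-- `hfin` of `pvq_ann` for any weight carried by the live darts with barycentre in a bounded set -/
theorem pvlf_mask_finite {Y : Set ℂ} (h : DelGood Y) {W : Set ℂ} (hW : Bornology.IsBounded W) {w : ℂ × ℂ → ℂ}
    (hw : ∀ x, w x ≠ 0 → (∃ c, DelTri Y x.1 x.2 c) ∧ pvqBar Y x ∈ W) : {x | w x ≠ 0}.Finite :=
  (pvlf_tri_finite h hW).subset fun x hx => hw x hx

/-- finitely many darts of the Delaunay plane have the barycentre of their face in a bounded set -/
theorem pvlf_dart_finite {Y : Set ℂ} (h : DelGood Y) {W : Set ℂ} (hW : Bornology.IsBounded W) :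
    {d : (delPl h).Dart | (delPl h).toMap.bary Subtype.val d ∈ W}.Finite := by
  refine Set.Finite.of_finite_image (f := pvqCode) ((pvlf_tri_finite h hW).subset ?_) (pvq_code_inj h).injOn
  rintro _ ⟨d, hd, rfl⟩
  refine ⟨⟨_, delp_apex_spec h ((pvq_code_range h _).1 ⟨d, rfl⟩)⟩, ?_⟩
  rw [pvq_del_bary]
  exact hd

end Claimed.Agent.R289
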