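import Claimed.Agent.R289.S1P.Ann
import Claimed.Agent.R289.S1P.Meas
import Claimed.Agent.R289.S1P.LocFin

/-!
# Row 289 (S0537), box S1P, file S1P/IBes : **I.BES** of the TR blueprint (TR_295): THE BESSEL BOUND IN THE FULL PLANE, UNIFORM IN THE MESH      (head + owner helper244; prefix `pvib`)

`g : ℂ → ℂ` Borel with bounded support (no bound on `g`), `X ∈ {Q, U, V}`:      `E_ε ∑_λ |X_λ(g)|² ≤ C_B ∫ |g|²`,   the sum over ALL labels of the full plane Delaunay triangulation, `C_B` independent of `ε` and `g`.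
* `pvibK u Y x`       the kernel of the raw dart `x`: `u = false`: `q_t ω̄^j` (`pvqWQ`), `u = true`: `p_t ω^j` (`pvqWU`)
* `pvibW u g Y x`     `= g(z_t) * kernel` on the live raw darts, `0` elsewhere;      `pvibV g Y x = g(z_t) (x.1 - x.2) = pvibW false + pvibW true`
* `pvibN u η`         `= ∑_{x live} |kernel|² δ_{z_t}`;      `pvibTh u` its intensity at mesh one
* **`pvib_bes`**      `∫⁻ pvqEn (cfSites η) (cfCol η) (pvibW u g (cfSites η)) ∂(pvP ε) ≤ 4⁻¹ * pvibTh u * ∫⁻ ‖g‖²`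
* **`pvib_bes_V`**    the same for `pvibV`, constant `2⁻¹ (pvibTh false + pvibTh true)`
* consumer forms      `pvq_en_ge` (`S1P/Ann`: finite families of distinct finite labels, in the vocabulary `delPl lsum`), `pvib_W_qpart`, `pvib_W_upart`, `pvib_V_side` (dictionary of the weights)
-/

set_option autoImplicit false

namespace Claimed.Agent.R289

open MeasureTheory Set
open scoped ENNReal

/-! ## 0. definitions -/

/-- the kernel: `false ↦ q_t ω̄^j`, `true ↦ p_t ω^j` -/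
noncomputable def pvibK (u : Bool) (Y : Set ℂ) (x : ℂ × ℂ) : ℂ := if u = true then pvqWU Y x else pvqWQ Y x

/-- the root of unity of the kernel -/
noncomputable def pvibZ (u : Bool) : ℂ := if u = true then pvOm else (starRingEnd ℂ) pvOm

open Classical in
/-- the weight `g(z_t) * kernel` on the live raw darts -/
noncomputable def pvibW (u : Bool) (g : ℂ → ℂ) (Y : Set ℂ) (x : ℂ × ℂ) : ℂ := if ∃ c, DelTri Y x.1 x.2 c then g (pvqBar Y x) * pvibK u Y x else 0

open Classical in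
/-- the `V`-weight `g(z_t) * side` on the live raw darts -/
noncomputable def pvibV (g : ℂ → ℂ) (Y : Set ℂ) (x : ℂ × ℂ) : ℂ := if ∃ c, DelTri Y x.1 x.2 c then g (pvqBar Y x) * (x.1 - x.2) else 0

open Classical in
/-- the mass of the raw dart `x` -/
noncomputable def pvibNm (u : Bool) (Y : Set ℂ) (x : ℂ × ℂ) : ℝ≥0∞ := if ∃ c, DelTri Y x.1 x.2 c then ENNReal.ofReal (‖pvibK u Y x‖ ^ 2) else 0

/-- `∑_{x live} |kernel|² δ_{z_t}` -/
noncomputable def pvibN (u : Bool) (η : Conf PvPt) : Measure ℂ := Measure.sum fun x : ℂ × ℂ => pvibNm u (cfSites η) x • Measure.dirac (pvqBar (cfSites η) x)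

/-- the intensity at mesh one -/
noncomputable def pvibTh (u : Bool) : ℝ≥0∞ := pvmsTh (pvibN u) 1

theorem pvib_eqns_cite : True := by
  have := @pvibK.eq_1; have := @pvibZ.eq_1; have := @pvibW.eq_1; have := @pvibV.eq_1; have := @pvibNm.eq_1; have := @pvibN.eq_1; have := @pvibTh.eq_1
  trivial

/-! ## 1. the algebra of the kernels -/

theorem pvib_Z_mul (u : Bool) : pvibZ u * (starRingEnd ℂ) (pvibZ u) = 1 := by
  unfold pvibZ
  cases u
  · simp only [Bool.false_eq_true, if_false, Complex.conj_conj]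
    rw [mul_comm]
    exact pvOm_mul_conj
  · simp only [if_true]
    exact pvOm_mul_conj

theorem pvib_Z_ne_one (u : Bool) : pvibZ u ≠ 1 := by
  unfold pvibZ
  intro h
  have hre : pvOm.re = -1 / 2 := pvOm_re
  cases u
  · simp only [Bool.false_eq_true, if_false] at h
    have := congrArg Complex.re h
    rw [Complex.conj_re, hre, Complex.one_re] at this
    norm_num at this
  · simp only [if_true] at h
    have := congrArg Complex.re h
    rw [hre, Complex.one_re] at this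
    norm_num at this

theorem pvib_qq_rot (a b c : ℂ) : pvqq b c a = (starRingEnd ℂ) pvOm * pvqq a b c := by
  unfold pvqq
  have h1 := pvOm_mul_conj
  have h2 := pvOm_conj_sq
  generalize (starRingEnd ℂ) pvOm = w at *
  linear_combination (-(b - c) / 3) * h1 + (-(c - a) / 3) * h2

theorem pvib_pp_rot (a b c : ℂ) : pvqp b c a = pvOm * pvqp a b c := by
  unfold pvqp
  have h1 := pvOm_mul_conj
  have h2 := pvOm_sq
  generalize (starRingEnd ℂ) pvOm = w at *
  linear_combination (-(b - c) / 3) * h1 + (-(c - a) / 3) * h2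

theorem pvib_qq_add_pp (a b c : ℂ) : pvqq a b c + pvqp a b c = a - b := by
  unfold pvqq pvqp
  have h1 := pvOm_sum
  generalize (starRingEnd ℂ) pvOm = w at *
  linear_combination ((b - c) / 3 + (c - a) / 3) * h1

/-- the kernel turns by the root of unity along a face -/
theorem pvib_K_rot (u : Bool) {Y : Set ℂ} (h : VorGP Y) {a b c : ℂ} (ht : DelTri Y a b c) : pvibK u Y (b, c) = pvibZ u * pvibK u Y (a, b) := by
  have h1 : delApex Y a b = c := del_apex_eq h ht
  have h2 : delApex Y b c = a := by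
    have := del_apex_rot h ⟨c, ht⟩
    rwa [h1] at this
  unfold pvibK pvibZ pvqWU pvqWQ
  cases u
  · simp only [Bool.false_eq_true, if_false, h1, h2]
    exact pvib_qq_rot a b c
  · simp only [if_true, h1, h2]
    exact pvib_pp_rot a b c

theorem pvib_Bar_rot {Y : Set ℂ} (h : VorGP Y) {a b c : ℂ} (ht : DelTri Y a b c) : pvqBar Y (b, c) = pvqBar Y (a, b) := by
  unfold pvqBar
  simp only
  rw [del_apex_eq h ht, del_apex_eq h (del_tri_cyc ht)]
  ring

/-- `hcov` of `pvq_ann` -/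
theorem pvib_W_cov (u : Bool) (g : ℂ → ℂ) {Y : Set ℂ} (h : VorGP Y) {a b c : ℂ} (ht : DelTri Y a b c) : pvibW u g Y (b, c) = pvibZ u * pvibW u g Y (a, b) := by
  unfold pvibW
  rw [if_pos (⟨a, del_tri_cyc ht⟩ : ∃ c_1, DelTri Y (b, c).1 (b, c).2 c_1), if_pos (⟨c, ht⟩ : ∃ c_1, DelTri Y (a, b).1 (a, b).2 c_1),
    pvib_Bar_rot h ht, pvib_K_rot u h ht]
  ring

/-- `hlive` of `pvq_ann` -/
theorem pvib_W_live (u : Bool) (g : ℂ → ℂ) (Y : Set ℂ) (x : ℂ × ℂ) (hx : pvibW u g Y x ≠ 0) : DelAdj Y x.1 x.2 := by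
  unfold pvibW at hx
  split_ifs at hx with h
  · obtain ⟨c, hc⟩ := h
    exact (del_tri_adj hc).1
  · exact absurd rfl hx

theorem pvib_V_eq (g : ℂ → ℂ) (Y : Set ℂ) (x : ℂ × ℂ) : pvibV g Y x = pvibW false g Y x + pvibW true g Y x := by
  have e0 : pvibK false Y x = pvqWQ Y x := by simp [pvibK]
  have e1 : pvibK true Y x = pvqWU Y x := by simp [pvibK]
  unfold pvibV pvibW
  rw [e0, e1]
  by_cases h : ∃ c, DelTri Y x.1 x.2 c
  · rw [if_pos h, if_pos h, if_pos h, ← mul_add]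
    unfold pvqWQ pvqWU
    rw [pvib_qq_add_pp]
  · rw [if_neg h, if_neg h, if_neg h, add_zero]

/-- `hfin` of `pvq_ann` -/
theorem pvib_W_fin (u : Bool) {g : ℂ → ℂ} (hg : Bornology.IsBounded (Function.support g)) {Y : Set ℂ} (h : DelGood Y) : {x | pvibW u g Y x ≠ 0}.Finite := by
  refine pvlf_mask_finite h hg fun x hx => ?_
  unfold pvibW at hx
  split_ifs at hx with h1
  · exact ⟨h1, fun h0 => hx (by rw [h0, zero_mul])⟩
  · exact absurd rfl hx

/-! ## 2. measurability      (kit of helper286, `S1P/Meas`) -/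

/-- the kernel in code -/
noncomputable def pvibKI (u : Bool) (p : DelgpIx × DelgpIx) (ω : Claims.C0465.PVSample) : ℂ := if u = true then pvcdWU ω p else pvcdWQ ω p

theorem pvibq_eqns_cite : True := by
  have := @pvibKI.eq_1
  trivial

theorem pvibq_KI_meas (u : Bool) (p : DelgpIx × DelgpIx) : Measurable (pvibKI u p) := by
  unfold pvibKI
  by_cases hu : u = true
  · simp only [hu, if_true]; exact pvcd_measurable_WU p
  · simp only [hu]; exact pvcd_measurable_WQ p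

theorem pvibq_K_eq (u : Bool) {ω : Claims.C0465.PVSample} (hgp : VorGP (cfSites (pvConf ω))) {p : DelgpIx × DelgpIx} (hp : pvcdPri2 ω p) :
    pvibK u (cfSites (pvConf ω)) (pvcdW ω p) = pvibKI u p ω := by
  unfold pvibK pvibKI
  rw [pvcd_WU_eq hgp hp, pvcd_WQ_eq hgp hp]

theorem pvib_N_aem (u : Bool) (ε : ℝ) {B : Set ℂ} (hB : MeasurableSet B) : AEMeasurable (fun η => pvibN u η B) (pvP ε) := by
  classical
  unfold pvibN
  refine pvcd_aemeasurable_sum (fun η => pvibNm u (cfSites η)) (fun η => pvqBar (cfSites η)) ?_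
    (fun p ω => if ∃ k, pvcdTr ω p.1 p.2 k then ENNReal.ofReal (‖pvibKI u p ω‖ ^ 2) else 0) (fun p ω => pvcdBar ω p) ?_ ?_ ?_ ?_ hB ε
  · intro η x hx
    unfold pvibNm at hx
    by_cases h : ∃ c, DelTri (cfSites η) x.1 x.2 c
    · exact pvcd_live_sites h
    · rw [if_neg h] at hx; exact absurd rfl hx
  · intro p
    exact Measurable.ite (pvcd_meas_live p) ((pvibq_KI_meas u p).norm.pow_const 2).ennreal_ofReal measurable_const
  · intro p
    exact pvcd_measurable_Bar p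
  · intro ω hω p hp
    unfold pvibNm
    have hl := pvcd_code_live ω hp
    by_cases h : ∃ k, pvcdTr ω p.1 p.2 k
    · rw [if_pos h, if_pos (hl.2 h), pvibq_K_eq u hω.gp hp]
    · rw [if_neg h, if_neg fun h' => h (hl.1 h')]
  · intro ω hω p hp
    exact pvcd_Bar_eq hω.gp hp

/-- the general form of `hM`: a weight which is read from the sample by a measurable rule -/
theorem pvibq_en_aem (w : Set ℂ → ℂ × ℂ → ℂ) (wI : DelgpIx × DelgpIx → Claims.C0465.PVSample → ℂ) (hwI : ∀ p, Measurable (wI p))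
    (hw : ∀ ω, DelgpCf (pvConf ω) → ∀ q, pvcdPri2 ω q → w (cfSites (pvConf ω)) (pvcdW ω q) = wI q ω) (ε : ℝ) :
    AEMeasurable (fun η => pvqEn (cfSites η) (cfCol η) (w (cfSites η))) (pvP ε) := by
  classical
  unfold pvqEn
  refine pvcd_aemeasurable_tsum _ ?_ (pvcdMassI (fun _ => univ) wI) (pvcd_measurable_massI (fun _ => MeasurableSet.univ) hwI) ?_ ε
  · intro η x hx
    by_cases h : pvqTag (DelTri (cfSites η)) (cfCol η) x
    · exact pvcd_tag_sites h
    · rw [if_neg h] at hx; exact absurd rfl hx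
  · intro ω hω p hp
    have key := pvcd_mass_eq (GI := fun _ => univ) (wI := wI) hp True (w (cfSites (pvConf ω))) (by simp) (hw ω hω)
    rw [← key]
    by_cases h : pvqTag (DelTri (cfSites (pvConf ω))) (cfCol (pvConf ω)) (pvcdW ω p)
    · rw [if_pos h, if_pos ⟨h, trivial⟩]
    · rw [if_neg h, if_neg fun h' => h h'.1]

/-- `hM` of `pvq_ann` -/
theorem pvib_en_aem (u : Bool) {g : ℂ → ℂ} (hg : Measurable g) (ε : ℝ) : AEMeasurable (fun η => pvqEn (cfSites η) (cfCol η) (pvibW u g (cfSites η))) (pvP ε) := by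
  classical
  refine pvibq_en_aem (pvibW u g) (fun p ω => if ∃ k, pvcdTr ω p.1 p.2 k then g (pvcdBar ω p) * pvibKI u p ω else 0) ?_ ?_ ε
  · intro p
    exact Measurable.ite (pvcd_meas_live p) ((hg.comp (pvcd_measurable_Bar p)).mul (pvibq_KI_meas u p)) measurable_const
  · intro ω hω p hp
    unfold pvibW
    have hl := pvcd_code_live ω hp
    by_cases h : ∃ k, pvcdTr ω p.1 p.2 k
    · rw [if_pos h, if_pos (hl.2 h), pvibq_K_eq u hω.gp hp, pvcd_Bar_eq hω.gp hp]
    · rw [if_neg h, if_neg fun h' => h (hl.1 h')]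

theorem pvib_enV_aem {g : ℂ → ℂ} (hg : Measurable g) (ε : ℝ) : AEMeasurable (fun η => pvqEn (cfSites η) (cfCol η) (pvibV g (cfSites η))) (pvP ε) := by
  classical
  refine pvibq_en_aem (pvibV g) (fun p ω => if ∃ k, pvcdTr ω p.1 p.2 k then g (pvcdBar ω p) * (delgpW ω p.1 - delgpW ω p.2) else 0) ?_ ?_ ε
  · intro p
    exact Measurable.ite (pvcd_meas_live p) ((hg.comp (pvcd_measurable_Bar p)).mul ((delgp_measurable_W p.1).sub (delgp_measurable_W p.2))) measurable_const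
  · intro ω hω p hp
    unfold pvibV
    have hl := pvcd_code_live ω hp
    by_cases h : ∃ k, pvcdTr ω p.1 p.2 k
    · rw [if_pos h, if_pos (hl.2 h), pvcd_Bar_eq hω.gp hp]
      rfl
    · rw [if_neg h, if_neg fun h' => h (hl.1 h')]

/-! ## 3. the random measure `N`: covariance, intensity, Campbell      (kit of helper107, `S1P/Cov`, `Mesh/Stat`) -/

theorem pvib_Nm_loc (u : Bool) (Y : Set ℂ) : PvcvLoc Y 2 1 (pvibNm u Y) (pvqBar Y) := by
  intro x hx
  unfold pvibNm at hx ⊢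
  split_ifs at hx ⊢ with h
  · refine ⟨h, ?_, pvcv_bar_mem _ _ _⟩
    rw [one_mul]
    refine ENNReal.ofReal_le_ofReal (pow_le_pow_left₀ (norm_nonneg _) ?_ 2)
    unfold pvibK
    split_ifs
    · exact pvcv_pp_le _ _ _
    · exact pvcv_qq_le _ _ _
  · exact absurd rfl hx

theorem pvib_Th_ne_top (u : Bool) : pvibTh u ≠ ∞ :=
  pvcv_theta_fin ENNReal.one_ne_top (fun η => pvib_Nm_loc u (cfSites η)) one_pos

theorem pvib_K_map (u : Bool) {a b : ℂ} {Y Y' : Set ℂ} (ha : a ≠ 0) (hY : Y' = vorSim a b '' Y) (h : VorGP Y) (x : ℂ × ℂ) :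
    pvibK u Y' (Prod.map (vorSim a b) (vorSim a b) x) = a * pvibK u Y x := by
  unfold pvibK
  cases u
  · rw [if_neg (by simp), if_neg (by simp)]
    exact pvcv_WQ ha hY h x
  · rw [if_pos rfl, if_pos rfl]
    exact pvcv_WU ha hY h x

theorem pvib_Nm_map (u : Bool) {a b : ℂ} {Y Y' : Set ℂ} (ha : a ≠ 0) (hY : Y' = vorSim a b '' Y) (h : VorGP Y) (x : ℂ × ℂ) :
    pvibNm u Y' (Prod.map (vorSim a b) (vorSim a b) x) = ENNReal.ofReal (‖a‖ ^ 2) * pvibNm u Y x := by
  unfold pvibNm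
  have hl := pvcv_live (b := b) ha hY x
  by_cases hx : ∃ c, DelTri Y x.1 x.2 c
  · rw [if_pos hx, if_pos (by simpa using hl.2 hx), pvib_K_map u ha hY h, pvcv_ofReal_sq]
  · rw [if_neg hx, if_neg (by simpa using fun h' => hx (hl.1 h')), mul_zero]

theorem pvib_N_map (u : Bool) {a b : ℂ} (ha : a ≠ 0) (η : Conf PvPt) (h : VorGP (cfSites η)) :
    pvibN u (cfMap (vorSim a b) η) = ENNReal.ofReal (‖a‖ ^ 2) • (pvibN u η).map (vorSim a b) := by
  exact pvcv_sum_map ha (fun x => pvib_Nm_map u ha (pvcv_sites a b η) h x) (fun x _ => pvcv_Bar ha (pvcv_sites a b η) h x)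

/-- **CAMPBELL**, uniformly in the mesh -/
theorem pvib_N_campbell (u : Bool) {ε : ℝ} (hε : 0 < ε) {f : ℂ → ℝ≥0∞} (hf : Measurable f) :
    AEMeasurable (fun η => ∫⁻ z, f z ∂(pvibN u η)) (pvP ε) ∧ ∫⁻ η, ∫⁻ z, f z ∂(pvibN u η) ∂(pvP ε) = pvibTh u * ∫⁻ z, f z := by
  have hcov : ∀ t : ℂ, ∀ᵐ η ∂(pvP 1), pvibN u (cfMap (fun z => z + t) η) = (pvibN u η).map (fun z => z + t) := fun t =>
    (pvcv_gp_ae 1).mono fun η h => by
      rw [pvcv_add_eq, pvib_N_map u one_ne_zero η h]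
      simp
  have hsc : ∀ c : ℝ, 0 < c → ∀ᵐ η ∂(pvP 1), pvibN u (cfMap (fun z => c • z) η) = ENNReal.ofReal (c ^ (2 : ℝ)) • (pvibN u η).map (fun z => c • z) := fun c hc =>
    (pvcv_gp_ae 1).mono fun η h => by
      rw [pvcv_smul_eq, pvib_N_map u (by exact_mod_cast hc.ne') η h]
      congr 2
      rw [Complex.norm_real, Real.norm_of_nonneg hc.le]
      norm_num
  have := pvms_pv_campbell (k := 2) (fun ε _ B hB => pvib_N_aem u ε hB) hcov hsc (pvib_Th_ne_top u) hε hf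
  refine ⟨this.1, ?_⟩
  simpa [pvibTh] using this.2

/-- the right side of the annealed Bessel bound is an integral against `N` -/
theorem pvib_sq_eq (u : Bool) {g : ℂ → ℂ} (hg : Measurable g) (η : Conf PvPt) :
    ∑' x, ENNReal.ofReal (‖pvibW u g (cfSites η) x‖ ^ 2) = ∫⁻ z, ENNReal.ofReal (‖g z‖ ^ 2) ∂(pvibN u η) := by
  have hf : Measurable fun z => ENNReal.ofReal (‖g z‖ ^ 2) := (hg.norm.pow_const 2).ennreal_ofReal
  unfold pvibN
  rw [lintegral_sum_measure]
  refine tsum_congr fun x => ?_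
  rw [lintegral_smul_measure, lintegral_dirac' _ hf, smul_eq_mul]
  unfold pvibW pvibNm
  by_cases hx : ∃ c, DelTri (cfSites η) x.1 x.2 c
  · rw [if_pos hx, if_pos hx, pvcv_ofReal_sq, mul_comm]
  · rw [if_neg hx, if_neg hx]
    simp

/-! ## 4. **I.BES** -/

/-- **I.BES for `Q` (`u = false`) and `U` (`u = true`)** -/
theorem pvib_bes (u : Bool) {ε : ℝ} (hε : 0 < ε) {g : ℂ → ℂ} (hg : Measurable g) (hgb : Bornology.IsBounded (Function.support g)) :
    ∫⁻ η, pvqEn (cfSites η) (cfCol η) (pvibW u g (cfSites η)) ∂(pvP ε) ≤ 4⁻¹ * pvibTh u * ∫⁻ z, ENNReal.ofReal (‖g z‖ ^ 2) := by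
  have hf : Measurable fun z => ENNReal.ofReal (‖g z‖ ^ 2) := (hg.norm.pow_const 2).ennreal_ofReal
  have hC := pvib_N_campbell u hε hf
  have h1 := pvq_ann (pvq_inv hε) (pvib_Z_mul u) (pvib_Z_ne_one u) (pvibW u g) (fun Y hY a b c ht => pvib_W_cov u g hY.gp ht) (fun Y _ x hx => pvib_W_live u g Y x hx)
    ((pvqf_good_ae ε hε.ne').mono fun η hη => pvib_W_fin u hgb hη.del) (pvib_en_aem u hg ε) (by simp only [pvib_sq_eq u hg]; exact hC.1)
  simp only [pvib_sq_eq u hg] at h1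
  rw [hC.2, ← mul_assoc] at h1
  exact h1

/-- the label energy is a quadratic form -/
theorem pvib_en_add (Y : Set ℂ) (s : ℂ → Bool) (w w' : ℂ × ℂ → ℂ) : pvqEn Y s (fun x => w x + w' x) ≤ 2 * pvqEn Y s w + 2 * pvqEn Y s w' := by
  classical
  unfold pvqEn
  rw [← ENNReal.tsum_mul_left, ← ENNReal.tsum_mul_left, ← ENNReal.tsum_add]
  refine ENNReal.tsum_le_tsum fun x => ?_
  by_cases hx : pvqTag (DelTri Y) s x
  · rw [if_pos hx, if_pos hx, if_pos hx]
    by_cases hf : {y | pvqSame (DelTri Y) s x y}.Finite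
    · have e : pvqSum (DelTri Y) s (fun x => w x + w' x) x = pvqSum (DelTri Y) s w x + pvqSum (DelTri Y) s w' x := by
        unfold pvqSum
        exact finsum_mem_add_distrib hf
      rw [e, ← mul_div_assoc, ← mul_div_assoc, ← ENNReal.add_div]
      refine ENNReal.div_le_div_right ?_ _
      have h2 : (2 : ℝ≥0∞) = ENNReal.ofReal 2 := by simp
      rw [h2, ← ENNReal.ofReal_mul (by norm_num), ← ENNReal.ofReal_mul (by norm_num), ← ENNReal.ofReal_add (by positivity) (by positivity)]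
      refine ENNReal.ofReal_le_ofReal ?_
      have h3 := norm_add_le (pvqSum (DelTri Y) s w x) (pvqSum (DelTri Y) s w' x)
      have h4 := norm_nonneg (pvqSum (DelTri Y) s w x + pvqSum (DelTri Y) s w' x)
      nlinarith [sq_nonneg (‖pvqSum (DelTri Y) s w x‖ - ‖pvqSum (DelTri Y) s w' x‖)]
    · have hc : pvqCard (DelTri Y) s x = ⊤ := by
        unfold pvqCard
        exact Set.encard_eq_top_iff.2 hf
      rw [hc]
      simp
  · rw [if_neg hx, if_neg hx, if_neg hx]; simp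

/-- **I.BES for `V`** -/
theorem pvib_bes_V {ε : ℝ} (hε : 0 < ε) {g : ℂ → ℂ} (hg : Measurable g) (hgb : Bornology.IsBounded (Function.support g)) :
    ∫⁻ η, pvqEn (cfSites η) (cfCol η) (pvibV g (cfSites η)) ∂(pvP ε) ≤ 2⁻¹ * (pvibTh false + pvibTh true) * ∫⁻ z, ENNReal.ofReal (‖g z‖ ^ 2) := by
  have h1 : ∀ η : Conf PvPt, pvqEn (cfSites η) (cfCol η) (pvibV g (cfSites η))
      ≤ 2 * pvqEn (cfSites η) (cfCol η) (pvibW false g (cfSites η)) + 2 * pvqEn (cfSites η) (cfCol η) (pvibW true g (cfSites η)) := by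
    intro η
    have e : pvibV g (cfSites η) = fun x => pvibW false g (cfSites η) x + pvibW true g (cfSites η) x := funext fun x => pvib_V_eq g _ x
    rw [e]
    exact pvib_en_add _ _ _ _
  refine (lintegral_mono h1).trans ?_
  rw [lintegral_add_left' ((pvib_en_aem false hg ε).const_mul 2), lintegral_const_mul'' _ (pvib_en_aem false hg ε), lintegral_const_mul'' _ (pvib_en_aem true hg ε)]
  have e : (2 : ℝ≥0∞) * 4⁻¹ = 2⁻¹ := by
    have h4 : (4 : ℝ≥0∞) = 2 * 2 := by norm_num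
    rw [h4, ENNReal.mul_inv (Or.inl two_ne_zero) (Or.inl ENNReal.ofNat_ne_top), ← mul_assoc, ENNReal.mul_inv_cancel two_ne_zero ENNReal.ofNat_ne_top, one_mul]
  calc 2 * ∫⁻ η, pvqEn (cfSites η) (cfCol η) (pvibW false g (cfSites η)) ∂(pvP ε) + 2 * ∫⁻ η, pvqEn (cfSites η) (cfCol η) (pvibW true g (cfSites η)) ∂(pvP ε)
      ≤ 2 * (4⁻¹ * pvibTh false * ∫⁻ z, ENNReal.ofReal (‖g z‖ ^ 2)) + 2 * (4⁻¹ * pvibTh true * ∫⁻ z, ENNReal.ofReal (‖g z‖ ^ 2)) := by
        gcongr
        · exact pvib_bes false hε hg hgb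
        · exact pvib_bes true hε hg hgb
    _ = (2 * 4⁻¹) * (pvibTh false + pvibTh true) * ∫⁻ z, ENNReal.ofReal (‖g z‖ ^ 2) := by ring
    _ = _ := by rw [e]

/-- **I.BES, one constant** -/
theorem pvib_main : ∃ C : ℝ≥0∞, C ≠ ∞ ∧ ∀ ε : ℝ, 0 < ε → ∀ g : ℂ → ℂ, Measurable g → Bornology.IsBounded (Function.support g) →
    (∀ u, ∫⁻ η, pvqEn (cfSites η) (cfCol η) (pvibW u g (cfSites η)) ∂(pvP ε) ≤ C * ∫⁻ z, ENNReal.ofReal (‖g z‖ ^ 2)) ∧
      ∫⁻ η, pvqEn (cfSites η) (cfCol η) (pvibV g (cfSites η)) ∂(pvP ε) ≤ C * ∫⁻ z, ENNReal.ofReal (‖g z‖ ^ 2) := by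
  refine ⟨pvibTh false + pvibTh true, ENNReal.add_ne_top.2 ⟨pvib_Th_ne_top _, pvib_Th_ne_top _⟩, fun ε hε g hg hgb => ⟨fun u => ?_, ?_⟩⟩
  · refine (pvib_bes u hε hg hgb).trans ?_
    gcongr
    have h1 : (4 : ℝ≥0∞)⁻¹ * pvibTh u ≤ 1 * pvibTh u := by
      gcongr
      exact ENNReal.inv_le_one.2 (by norm_num)
    rw [one_mul] at h1
    refine h1.trans ?_
    cases u
    · exact le_self_add
    · exact le_add_self
  · refine (pvib_bes_V hε hg hgb).trans ?_
    gcongr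
    have h1 : (2 : ℝ≥0∞)⁻¹ * (pvibTh false + pvibTh true) ≤ 1 * (pvibTh false + pvibTh true) := by
      gcongr
      exact ENNReal.inv_le_one.2 (by norm_num)
    rwa [one_mul] at h1

/-! ## 5. dictionary of the weights with the vocabulary of record -/

theorem pvib_live_code {Y : Set ℂ} (h : DelGood Y) (d : (delPl h).Dart) : ∃ c, DelTri Y (pvqCode d).1 (pvqCode d).2 c := ⟨_, pvq_code_tri h d⟩

theorem pvib_W_qpart (g : ℂ → ℂ) {Y : Set ℂ} (h : DelGood Y) (d : (delPl h).Dart) :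
    pvibW false g Y (pvqCode d) = g ((delPl h).toMap.bary Subtype.val d) * (delPl h).toMap.qpart Subtype.val d := by
  unfold pvibW pvibK
  rw [if_pos (pvib_live_code h d), if_neg (by decide), pvq_del_qpart, pvq_del_bary]

theorem pvib_W_upart (g : ℂ → ℂ) {Y : Set ℂ} (h : DelGood Y) (d : (delPl h).Dart) :
    pvibW true g Y (pvqCode d) = g ((delPl h).toMap.bary Subtype.val d) * (delPl h).toMap.upart Subtype.val d := by
  unfold pvibW pvibK
  rw [if_pos (pvib_live_code h d), if_pos rfl, pvq_del_upart, pvq_del_bary]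

theorem pvib_V_side (g : ℂ → ℂ) {Y : Set ℂ} (h : DelGood Y) (d : (delPl h).Dart) :
    pvibV g Y (pvqCode d) = g ((delPl h).toMap.bary Subtype.val d) * (delPl h).toMap.side Subtype.val d := by
  unfold pvibV
  rw [if_pos (pvib_live_code h d), pvq_del_bary]
  rfl

/-! ## 6. the form consumed by the wall -/

/-- ONE finite label is bounded by the label energy (raw form) -/
theorem pvib_one {Y : Set ℂ} (h : DelGood Y) (s : ℂ → Bool) (w : ℂ × ℂ → ℂ) {x : ℂ × ℂ} (hx : pvqTag (DelTri Y) s x) (hf : {y | pvqSame (DelTri Y) s x y}.Finite) :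
    ENNReal.ofReal (‖pvqSum (DelTri Y) s w x‖ ^ 2) ≤ pvqEn Y s w := by
  obtain ⟨d, rfl⟩ := pvq_del_tag_code h s hx
  have hfd : {d' | (delPl h).toMap.SameLab (s ∘ Subtype.val) d d'}.Finite := by
    refine Set.Finite.of_finite_image (f := pvqCode) (hf.subset ?_) (pvq_code_inj h).injOn
    rintro _ ⟨d', hd', rfl⟩
    exact (pvq_del_same' h s d d').2 hd'
  have h1 := pvq_en_ge h s w {d} (fun e he => by rw [Finset.mem_singleton.1 he]; exact (pvq_del_tag h s d).1 hx)
    (fun e he => by rw [Finset.mem_singleton.1 he]; exact hfd) (fun e he e' he' _ => by rw [Finset.mem_singleton.1 he, Finset.mem_singleton.1 he'])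
  rw [Finset.sum_singleton, ← pvq_del_sum] at h1
  exact h1

/-- on a label the mask "live" is void -/
theorem pvib_sum_W (u : Bool) (g : ℂ → ℂ) (Y : Set ℂ) (s : ℂ → Bool) (x : ℂ × ℂ) :
    pvqSum (DelTri Y) s (fun y => g (pvqBar Y y) * pvibK u Y y) x = pvqSum (DelTri Y) s (pvibW u g Y) x := by
  refine pvcd_sum_congr _ _ x fun y hy => ?_
  obtain ⟨c, hc, -⟩ := hy.2.1
  unfold pvibW
  rw [if_pos ⟨c, hc⟩]

/-- **I.BES IN THE FORM CONSUMED BY THE WALL** (`PvbeIn` of helper223, `Tr/Bes.lean`): an a.e. measurable majorant of `|X_λ(g)|²`, ALL labels, of mean `≤ C_B ∫ |g|²` -/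
theorem pvib_in (u : Bool) {ε : ℝ} (hε : 0 < ε) {g : ℂ → ℂ} (hg : Measurable g) (hgb : Bornology.IsBounded (Function.support g)) :
    ∃ H : Conf PvPt → ℝ≥0∞, AEMeasurable H (pvP ε) ∧
      (∀ᵐ η ∂(pvP ε), ∀ x, pvqTag (DelTri (cfSites η)) (cfCol η) x →
        ‖pvqSum (DelTri (cfSites η)) (cfCol η) (fun y => g (pvqBar (cfSites η) y) * pvibK u (cfSites η) y) x‖ₑ ^ 2 ≤ H η) ∧
      ∫⁻ η, H η ∂(pvP ε) ≤ 4⁻¹ * pvibTh u * ∫⁻ z, ‖g z‖ₑ ^ 2 := by
  have e : ∀ z : ℂ, ‖z‖ₑ ^ 2 = ENNReal.ofReal (‖z‖ ^ 2) := by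
    intro z
    rw [ENNReal.ofReal_pow (norm_nonneg _), ofReal_norm]
  refine ⟨fun η => pvqEn (cfSites η) (cfCol η) (pvibW u g (cfSites η)), pvib_en_aem u hg ε, ?_, ?_⟩
  · filter_upwards [pvqf_good_ae ε hε.ne', pvqf_raw_same_ae hε] with η h1 h2 x hx
    rw [e, pvib_sum_W]
    exact pvib_one h1.del _ _ hx (h2 x)
  · simp only [e]
    exact pvib_bes u hε hg hgb

theorem pvib_K_false : pvibK false = pvqWQ := by
  funext Y x
  unfold pvibK
  rw [if_neg (by decide)]

theorem pvib_K_true : pvibK true = pvqWU := by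
  funext Y x
  unfold pvibK
  rw [if_pos rfl]

end Claimed.Agent.R289
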