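-- KEEP
import Claimed.Agent.R289.S1.OrthInf
import Claimed.Agent.R289.Cr.Inst
import Claimed.Agent.R289.Mesh.Tri

/-!
# Row 289 (S0537, Cardy for Poisson-Voronoi), box S1P, exit (X2) `exit_l9_bes`, file S1P/BesD : THE BESSEL MAJORANT AT FIXED GEOMETRY      (helper185, second of helper274; prefix `pvqb1`)

Everything here is at a FIXED site set `Y` (no measure on the geometry).      `T : PvMap V D` a finite sphere, `𝔅 : PvBulk X` a bulk family.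

* `pvqb1En T s w`        `∑_λ |∑_{d ∈ λ} w d|²` over ALL labels `λ` of the colouring `s` (`0` if `D` is infinite)
* (D3) `pvqb1_dom`       `|T.lsum s w d|² ≤ pvqb1En T s w`      (every dart `d`)
* (D4) `pvqb1_bessel`, `pvqb1_bessel_lint`, `pvqb1_bessel_add`      Bessel on a finite sphere for `ζ`-covariant summands, and for a sum `u + q`
* (D5) `pvqb1Code`, `pvqb1_code_inj`, `pvqb1_sum_le`      the embedded darts are DISTINCT positively oriented Delaunay triples; the energy is below the series over the Delaunay triples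
* **`pvqb1_Q`, `pvqb1_V`**      the form asked by helper274 (finite family `gs`, `ℝ≥0∞`)
* **`pvqb1_major_Q`, `pvqb1_major_V`** (`_at`)      colour integral at fixed geometry `≤ b² · pvmZS 2 3 3 ε x r η` = the measurable majorant of MESH (helper127)
* (D6) `pvqb1_rim`       domination of the fields of the encoded rims (`Cr/Inst.lean` of helper161)
-/

set_option autoImplicit false

namespace Claimed.Agent.R289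

open MeasureTheory
open scoped ENNReal

open Classical in
/-- `∑_λ |X_λ|²` over all the labels of the colouring `s`, for the field with summands `w` -/
noncomputable def pvqb1En {V D : Type} (T : PvMap V D) (s : V → Bool) (w : D → ℂ) : ℝ :=
  if h : Finite D then T.foE w (@Finset.univ _ (@Fintype.ofFinite _ h)) s else 0

/-- the ordered triple of the positions of the vertices of the face of `d` -/
def PvBulk.besCode {X : Type} (𝔅 : PvBulk X) (Y : Set ℂ) (d : 𝔅.D Y) : ℂ × ℂ × ℂ :=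
  (𝔅.pos Y ((𝔅.T Y).src d), 𝔅.pos Y ((𝔅.T Y).tgt d), 𝔅.pos Y ((𝔅.T Y).apex d))

open Classical in
/-- the `U`-summand `g(z_t) p_t ω^j` (own copy: this file does not import `Cr/Main.lean`) -/
noncomputable def PvBulk.besU {X : Type} (𝔅 : PvBulk X) (Y : Set ℂ) (g : ℂ → ℂ) (d : 𝔅.D Y) : ℂ :=
  if 𝔅.Emb Y d then g ((𝔅.T Y).bary (𝔅.pos Y) d) * (𝔅.T Y).upart (𝔅.pos Y) d else 0

theorem pvqb1_eqns_cite : True := by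
  have := @pvqb1En.eq_1; have := @PvBulk.besCode.eq_1; have := @PvBulk.besU.eq_1
  trivial

section abs

variable {V D : Type} (T : PvMap V D)

theorem pvqb1_En_eq [Fintype D] (s : V → Bool) (w : D → ℂ) : pvqb1En T s w = T.foE w Finset.univ s := by
  unfold pvqb1En
  rw [dif_pos (inferInstance : Finite D)]
  congr 1
  exact congrArg (fun i : Fintype D => @Finset.univ D i) (Subsingleton.elim _ _)

theorem pvqb1_En_nonneg (s : V → Bool) (w : D → ℂ) : 0 ≤ pvqb1En T s w := by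
  unfold pvqb1En
  split_ifs
  · exact T.pvfo_E_nonneg _ _ _
  · exact le_rfl

theorem pvqb1_En_meas [Finite V] (w : D → ℂ) : Measurable fun s : V → Bool => pvqb1En T s w :=
  Measurable.of_discrete

/-- **(D3)** one label against the energy -/
theorem pvqb1_dom [Finite D] (s : V → Bool) (w : D → ℂ) (d : D) : ‖T.lsum s w d‖ ^ 2 ≤ pvqb1En T s w := by
  cases nonempty_fintype D
  rw [pvqb1_En_eq T]
  exact pvf_lsum_sq_le Finset.univ w (fun d h => absurd (Finset.mem_univ d) h) s d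

/-- **(D4)** Bessel on a finite sphere -/
theorem pvqb1_bessel [Finite V] [Finite D] (hT : T.IsSph) {ζ : ℂ} (hζ : ζ * (starRingEnd ℂ) ζ = 1) (hζ1 : ζ ≠ 1) (w : D → ℂ) (hw : ∀ d, w (T.nxt d) = ζ * w d) :
    ∫ s, pvqb1En T s w ∂colLaw V = 1 / 4 * ∑ᶠ d, ‖w d‖ ^ 2 := by
  cases nonempty_fintype D
  cases nonempty_fintype V
  simp only [pvqb1_En_eq T]
  rw [T.pvfo_bessel_sph hT Finset.univ (fun d _ => Finset.mem_univ _) hζ hζ1 w hw, finsum_eq_sum_of_fintype]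

theorem pvqb1_En_integrable [Finite V] (w : D → ℂ) : Integrable (fun s : V → Bool => pvqb1En T s w) (colLaw V) :=
  Integrable.of_finite

theorem pvqb1_bessel_lint [Finite V] [Finite D] (hT : T.IsSph) {ζ : ℂ} (hζ : ζ * (starRingEnd ℂ) ζ = 1) (hζ1 : ζ ≠ 1) (w : D → ℂ) (hw : ∀ d, w (T.nxt d) = ζ * w d) :
    ∫⁻ s, ENNReal.ofReal (pvqb1En T s w) ∂colLaw V = ENNReal.ofReal (1 / 4 * ∑ᶠ d, ‖w d‖ ^ 2) := by
  rw [← pvqb1_bessel T hT hζ hζ1 w hw]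
  exact (ofReal_integral_eq_lintegral_ofReal (pvqb1_En_integrable T w) (Filter.Eventually.of_forall fun s => pvqb1_En_nonneg T s w)).symm

theorem pvqb1_En_add [Finite D] (s : V → Bool) (u q : D → ℂ) : pvqb1En T s (fun d => u d + q d) ≤ 2 * pvqb1En T s u + 2 * pvqb1En T s q := by
  cases nonempty_fintype D
  simp only [pvqb1_En_eq T]
  exact T.pvfo_E_add u q Finset.univ s

/-- Bessel for `V = U + Q` -/
theorem pvqb1_bessel_add [Finite V] [Finite D] (hT : T.IsSph) (u q : D → ℂ) (hu : ∀ d, u (T.nxt d) = pvOm * u d) (hq : ∀ d, q (T.nxt d) = (starRingEnd ℂ) pvOm * q d) :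
    ∫⁻ s, ENNReal.ofReal (pvqb1En T s fun d => u d + q d) ∂colLaw V ≤ ENNReal.ofReal (1 / 2 * ∑ᶠ d, (‖u d‖ ^ 2 + ‖q d‖ ^ 2)) := by
  have h1 := pvqb1_bessel T hT pvOm_mul_conj PvMap.pvfo_om_ne_one u hu
  have h2 := pvqb1_bessel T hT PvMap.pvfo_om_conj_mul PvMap.pvfo_om_conj_ne_one q hq
  rw [← ofReal_integral_eq_lintegral_ofReal (pvqb1_En_integrable T _) (Filter.Eventually.of_forall fun s => pvqb1_En_nonneg T s _)]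
  refine ENNReal.ofReal_le_ofReal ?_
  calc ∫ s, pvqb1En T s (fun d => u d + q d) ∂colLaw V ≤ ∫ s, (2 * pvqb1En T s u + 2 * pvqb1En T s q) ∂colLaw V :=
        integral_mono (pvqb1_En_integrable T _) (((pvqb1_En_integrable T u).const_mul 2).add ((pvqb1_En_integrable T q).const_mul 2)) fun s => pvqb1_En_add T s u q
    _ = 2 * (1 / 4 * ∑ᶠ d, ‖u d‖ ^ 2) + 2 * (1 / 4 * ∑ᶠ d, ‖q d‖ ^ 2) := by
        rw [integral_add ((pvqb1_En_integrable T u).const_mul 2) ((pvqb1_En_integrable T q).const_mul 2), integral_const_mul, integral_const_mul, h1, h2]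
    _ = 1 / 2 * ∑ᶠ d, (‖u d‖ ^ 2 + ‖q d‖ ^ 2) := by
        rw [finsum_add_distrib (Set.toFinite _) (Set.toFinite _)]
        ring

end abs

theorem pvqb1_ball_sub_sq (x : ℂ) {L : ℝ} {z : ℂ} (h : ‖z - x‖ ≤ L) : z ∈ pvmSq x L := by
  refine ⟨?_, ?_⟩
  · rw [← Complex.sub_re]; exact (Complex.abs_re_le_norm _).trans h
  · rw [← Complex.sub_im]; exact (Complex.abs_im_le_norm _).trans h

theorem pvqb1_bary_mem_hull (a b c : ℂ) : (a + b + c) / 3 ∈ convexHull ℝ ({a, b, c} : Set ℂ) := by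
  have ha : a ∈ convexHull ℝ ({a, b, c} : Set ℂ) := subset_convexHull ℝ _ (by simp)
  have hb : b ∈ convexHull ℝ ({a, b, c} : Set ℂ) := subset_convexHull ℝ _ (by simp)
  have hc : c ∈ convexHull ℝ ({a, b, c} : Set ℂ) := subset_convexHull ℝ _ (by simp)
  have hconv := convex_convexHull ℝ ({a, b, c} : Set ℂ)
  have h1 : (1 / 2 : ℝ) • a + (1 / 2 : ℝ) • b ∈ convexHull ℝ ({a, b, c} : Set ℂ) := hconv ha hb (by norm_num) (by norm_num) (by norm_num)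
  have h2 := hconv h1 hc (show (0 : ℝ) ≤ 2 / 3 by norm_num) (show (0 : ℝ) ≤ 1 / 3 by norm_num) (by norm_num)
  convert h2 using 1
  simp only [Complex.real_smul]
  push_cast
  ring

theorem pvqb1_om_norm : ‖pvOm‖ = 1 := by
  have h : ‖pvOm‖ ^ 2 = 1 := by
    have := congrArg Complex.re pvOm_mul_conj
    rw [Complex.mul_conj, Complex.ofReal_re, Complex.normSq_eq_norm_sq] at this
    exact this
  nlinarith [norm_nonneg pvOm]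

theorem pvqb1_om_conj_norm : ‖(starRingEnd ℂ) pvOm‖ = 1 := by
  rw [Complex.norm_conj]; exact pvqb1_om_norm

section bulk

variable {X : Type} (𝔅 : PvBulk X) {Y K : Set ℂ}

theorem pvqb1_emb_nxt (d : 𝔅.D Y) : 𝔅.Emb Y ((𝔅.T Y).nxt d) ↔ 𝔅.Emb Y d := by
  unfold PvBulk.Emb PvMap.tgt PvMap.apex
  rw [(𝔅.T Y).nxt3]
  constructor
  · rintro ⟨a, b, c, h1, h2, h3⟩
    exact ⟨c, a, b, h3, h1, h2⟩
  · rintro ⟨a, b, c, h1, h2, h3⟩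
    exact ⟨b, c, a, h2, h3, h1⟩

theorem pvqb1_bary_nxt (d : 𝔅.D Y) : (𝔅.T Y).bary (𝔅.pos Y) ((𝔅.T Y).nxt d) = (𝔅.T Y).bary (𝔅.pos Y) d := by
  unfold PvMap.bary PvMap.tgt PvMap.apex
  rw [(𝔅.T Y).nxt3]
  ring

theorem pvqb1_U_nxt (g : ℂ → ℂ) (d : 𝔅.D Y) : 𝔅.besU Y g ((𝔅.T Y).nxt d) = pvOm * 𝔅.besU Y g d := by
  have hu : (𝔅.T Y).upart (𝔅.pos Y) ((𝔅.T Y).nxt d) = pvOm * (𝔅.T Y).upart (𝔅.pos Y) d := by
    unfold PvMap.upart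
    rw [(𝔅.T Y).nxt3]
    have e1 := pvOm_mul_conj
    have e2 := pvOm_sq
    linear_combination (-(1 / 3 : ℂ) * (𝔅.T Y).side (𝔅.pos Y) ((𝔅.T Y).nxt d)) * e1
      - (1 / 3 : ℂ) * (𝔅.T Y).side (𝔅.pos Y) ((𝔅.T Y).nxt ((𝔅.T Y).nxt d)) * e2
  unfold PvBulk.besU
  by_cases h : 𝔅.Emb Y d
  · rw [if_pos h, if_pos ((pvqb1_emb_nxt 𝔅 d).2 h), pvqb1_bary_nxt, hu]
    ring
  · rw [if_neg h, if_neg (fun h' => h ((pvqb1_emb_nxt 𝔅 d).1 h')), mul_zero]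

theorem pvqb1_Q_nxt (g : ℂ → ℂ) (d : 𝔅.D Y) : 𝔅.wQ Y g ((𝔅.T Y).nxt d) = (starRingEnd ℂ) pvOm * 𝔅.wQ Y g d := by
  have hu : (𝔅.T Y).qpart (𝔅.pos Y) ((𝔅.T Y).nxt d) = (starRingEnd ℂ) pvOm * (𝔅.T Y).qpart (𝔅.pos Y) d := by
    unfold PvMap.qpart
    rw [(𝔅.T Y).nxt3]
    have e1 := pvOm_mul_conj
    have e2 := pvOm_conj_sq
    linear_combination (-(1 / 3 : ℂ) * (𝔅.T Y).side (𝔅.pos Y) ((𝔅.T Y).nxt d)) * e1
      - (1 / 3 : ℂ) * (𝔅.T Y).side (𝔅.pos Y) ((𝔅.T Y).nxt ((𝔅.T Y).nxt d)) * e2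
  unfold PvBulk.wQ
  by_cases h : 𝔅.Emb Y d
  · rw [if_pos h, if_pos ((pvqb1_emb_nxt 𝔅 d).2 h), pvqb1_bary_nxt, hu]
    ring
  · rw [if_neg h, if_neg (fun h' => h ((pvqb1_emb_nxt 𝔅 d).1 h')), mul_zero]

theorem pvqb1_V_eq (g : ℂ → ℂ) (d : 𝔅.D Y) : 𝔅.wV Y g d = 𝔅.besU Y g d + 𝔅.wQ Y g d := by
  have hs : (𝔅.T Y).side (𝔅.pos Y) d = (𝔅.T Y).upart (𝔅.pos Y) d + (𝔅.T Y).qpart (𝔅.pos Y) d := by
    have h0 : (𝔅.T Y).side (𝔅.pos Y) d + (𝔅.T Y).side (𝔅.pos Y) ((𝔅.T Y).nxt d) + (𝔅.T Y).side (𝔅.pos Y) ((𝔅.T Y).nxt ((𝔅.T Y).nxt d)) = 0 := by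
      unfold PvMap.side PvMap.tgt
      rw [(𝔅.T Y).nxt3]
      ring
    unfold PvMap.upart PvMap.qpart
    have e1 := pvOm_sum
    linear_combination (1 / 3 : ℂ) * h0
      - (1 / 3 : ℂ) * ((𝔅.T Y).side (𝔅.pos Y) ((𝔅.T Y).nxt d) + (𝔅.T Y).side (𝔅.pos Y) ((𝔅.T Y).nxt ((𝔅.T Y).nxt d))) * e1
  unfold PvBulk.wV PvBulk.besU PvBulk.wQ
  by_cases h : 𝔅.Emb Y d
  · rw [if_pos h, if_pos h, if_pos h, hs]
    ring
  · rw [if_neg h, if_neg h, if_neg h, add_zero]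

/-- **(D5a)** an embedded dart is a positively oriented Delaunay triple -/
theorem pvqb1_code_del (hOk : 𝔅.Ok Y K) {d : 𝔅.D Y} (h : 𝔅.Emb Y d) : DelTri Y (𝔅.besCode Y d).1 (𝔅.besCode Y d).2.1 (𝔅.besCode Y d).2.2 := by
  obtain ⟨a, b, c, ha, hb, hc⟩ := h
  unfold PvBulk.besCode
  simp only
  rw [l9_pos_inl 𝔅 ha, l9_pos_inl 𝔅 hb, l9_pos_inl 𝔅 hc]
  exact hOk.emb d a b c ha hb hc

/-- **(D5b)** distinct embedded darts have distinct triples -/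
theorem pvqb1_code_inj (hOk : 𝔅.Ok Y K) {d d' : 𝔅.D Y} (h : 𝔅.Emb Y d) (h' : 𝔅.Emb Y d') (e : 𝔅.besCode Y d = 𝔅.besCode Y d') : d = d' := by
  obtain ⟨a, b, c, ha, hb, hc⟩ := h
  obtain ⟨a', b', c', ha', hb', hc'⟩ := h'
  unfold PvBulk.besCode at e
  rw [l9_pos_inl 𝔅 ha, l9_pos_inl 𝔅 hb, l9_pos_inl 𝔅 hc, l9_pos_inl 𝔅 ha', l9_pos_inl 𝔅 hb', l9_pos_inl 𝔅 hc'] at e
  have e1 : a = a' := congrArg Prod.fst e
  have e2 : b = b' := congrArg (fun t : ℂ × ℂ × ℂ => t.2.1) e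
  subst e1 e2
  exact hOk.simple d d' (hOk.inj (ha.trans ha'.symm)) (hOk.inj (hb.trans hb'.symm))

theorem pvqb1_sides (d : 𝔅.D Y) : ‖(𝔅.T Y).side (𝔅.pos Y) d‖ ≤ pvmtD (𝔅.besCode Y d) ∧ ‖(𝔅.T Y).side (𝔅.pos Y) ((𝔅.T Y).nxt d)‖ ≤ pvmtD (𝔅.besCode Y d) ∧
    ‖(𝔅.T Y).side (𝔅.pos Y) ((𝔅.T Y).nxt ((𝔅.T Y).nxt d))‖ ≤ pvmtD (𝔅.besCode Y d) := by
  unfold PvMap.side pvmtD PvBulk.besCode
  rw [(𝔅.T Y).src_nxt, (𝔅.T Y).tgt_nxt, (𝔅.T Y).src_nxt2, (𝔅.T Y).tgt_nxt2]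
  exact ⟨le_max_left _ _, le_max_of_le_right (le_max_left _ _), le_max_of_le_right (le_max_right _ _)⟩

/-- `|q_t| ≤` longest side -/
theorem pvqb1_qpart_le (d : 𝔅.D Y) : ‖(𝔅.T Y).qpart (𝔅.pos Y) d‖ ≤ pvmtD (𝔅.besCode Y d) := by
  obtain ⟨h1, h2, h3⟩ := pvqb1_sides 𝔅 d
  unfold PvMap.qpart
  rw [norm_div]
  have e3 : ‖(3 : ℂ)‖ = 3 := by simp
  rw [e3, div_le_iff₀ (by norm_num)]
  refine (norm_add₃_le).trans ?_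
  rw [norm_mul, norm_mul, pvqb1_om_norm, pvqb1_om_conj_norm]
  linarith

theorem pvqb1_upart_le (d : 𝔅.D Y) : ‖(𝔅.T Y).upart (𝔅.pos Y) d‖ ≤ pvmtD (𝔅.besCode Y d) := by
  obtain ⟨h1, h2, h3⟩ := pvqb1_sides 𝔅 d
  unfold PvMap.upart
  rw [norm_div]
  have e3 : ‖(3 : ℂ)‖ = 3 := by simp
  rw [e3, div_le_iff₀ (by norm_num)]
  refine (norm_add₃_le).trans ?_
  rw [norm_mul, norm_mul, pvqb1_om_norm, pvqb1_om_conj_norm]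
  linarith

open Classical in
/-- **(D5c)** a sum over the embedded darts is below the series over the Delaunay triples -/
theorem pvqb1_sum_le (hOk : 𝔅.Ok Y K) [Finite (𝔅.D Y)] (F : 𝔅.D Y → ℝ) (Φ : ℂ × ℂ × ℂ → ℝ) (hΦ : ∀ t, 0 ≤ Φ t) (h0 : ∀ d, ¬ 𝔅.Emb Y d → F d ≤ 0)
    (h1 : ∀ d, 𝔅.Emb Y d → F d ≤ Φ (𝔅.besCode Y d)) :
    ENNReal.ofReal (∑ᶠ d, F d) ≤ ∑' t : {t : ℂ × ℂ × ℂ // DelTri Y t.1 t.2.1 t.2.2}, ENNReal.ofReal (Φ t.1) := by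
  cases nonempty_fintype (𝔅.D Y)
  rw [finsum_eq_sum_of_fintype]
  let e : {d : 𝔅.D Y // 𝔅.Emb Y d} → {t : ℂ × ℂ × ℂ // DelTri Y t.1 t.2.1 t.2.2} := fun d => ⟨𝔅.besCode Y d.1, pvqb1_code_del 𝔅 hOk d.2⟩
  have he : Function.Injective e := fun d d' h => Subtype.ext (pvqb1_code_inj 𝔅 hOk d.2 d'.2 (congrArg Subtype.val h))
  calc ENNReal.ofReal (∑ d, F d) ≤ ENNReal.ofReal (∑ d, if 𝔅.Emb Y d then Φ (𝔅.besCode Y d) else 0) := by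
        refine ENNReal.ofReal_le_ofReal (Finset.sum_le_sum fun d _ => ?_)
        by_cases h : 𝔅.Emb Y d
        · rw [if_pos h]; exact h1 d h
        · rw [if_neg h]; exact h0 d h
    _ = ∑ d, ENNReal.ofReal (if 𝔅.Emb Y d then Φ (𝔅.besCode Y d) else 0) :=
        ENNReal.ofReal_sum_of_nonneg fun d _ => by split_ifs <;> [exact hΦ _; exact le_rfl]
    _ = ∑' d, ({d | 𝔅.Emb Y d} : Set (𝔅.D Y)).indicator (fun d => ENNReal.ofReal (Φ (𝔅.besCode Y d))) d := by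
        rw [tsum_fintype]
        refine Finset.sum_congr rfl fun d _ => ?_
        by_cases h : 𝔅.Emb Y d
        · rw [if_pos h, Set.indicator_of_mem (show d ∈ {d | 𝔅.Emb Y d} from h)]
        · rw [if_neg h, Set.indicator_of_notMem (show d ∉ {d | 𝔅.Emb Y d} from h), ENNReal.ofReal_zero]
    _ = ∑' d : {d : 𝔅.D Y // 𝔅.Emb Y d}, ENNReal.ofReal (Φ (𝔅.besCode Y d.1)) :=
        (tsum_subtype ({d | 𝔅.Emb Y d} : Set (𝔅.D Y)) (fun d => ENNReal.ofReal (Φ (𝔅.besCode Y d)))).symm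
    _ ≤ ∑' t : {t : ℂ × ℂ × ℂ // DelTri Y t.1 t.2.1 t.2.2}, ENNReal.ofReal (Φ t.1) :=
        ENNReal.tsum_comp_le_tsum_of_injective he (fun t : {t : ℂ × ℂ × ℂ // DelTri Y t.1 t.2.1 t.2.2} => ENNReal.ofReal (Φ t.1))

theorem pvqb1_bary (d : 𝔅.D Y) : (𝔅.T Y).bary (𝔅.pos Y) d = ((𝔅.besCode Y d).1 + (𝔅.besCode Y d).2.1 + (𝔅.besCode Y d).2.2) / 3 := rfl

theorem pvqb1_wQ_sq (g : ℂ → ℂ) (d : 𝔅.D Y) (h : 𝔅.Emb Y d) :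
    ‖𝔅.wQ Y g d‖ ^ 2 ≤ ‖g (((𝔅.besCode Y d).1 + (𝔅.besCode Y d).2.1 + (𝔅.besCode Y d).2.2) / 3)‖ ^ 2 * pvmtD (𝔅.besCode Y d) ^ 2 := by
  unfold PvBulk.wQ
  rw [if_pos h, norm_mul, mul_pow, pvqb1_bary]
  exact mul_le_mul_of_nonneg_left (pow_le_pow_left₀ (norm_nonneg _) (pvqb1_qpart_le 𝔅 d) 2) (by positivity)

theorem pvqb1_U_sq (g : ℂ → ℂ) (d : 𝔅.D Y) (h : 𝔅.Emb Y d) :
    ‖𝔅.besU Y g d‖ ^ 2 ≤ ‖g (((𝔅.besCode Y d).1 + (𝔅.besCode Y d).2.1 + (𝔅.besCode Y d).2.2) / 3)‖ ^ 2 * pvmtD (𝔅.besCode Y d) ^ 2 := by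
  unfold PvBulk.besU
  rw [if_pos h, norm_mul, mul_pow, pvqb1_bary]
  exact mul_le_mul_of_nonneg_left (pow_le_pow_left₀ (norm_nonneg _) (pvqb1_upart_le 𝔅 d) 2) (by positivity)

theorem pvqb1_wQ_off (g : ℂ → ℂ) (d : 𝔅.D Y) (h : ¬ 𝔅.Emb Y d) : 𝔅.wQ Y g d = 0 := by
  unfold PvBulk.wQ; rw [if_neg h]

theorem pvqb1_U_off (g : ℂ → ℂ) (d : 𝔅.D Y) (h : ¬ 𝔅.Emb Y d) : 𝔅.besU Y g d = 0 := by
  unfold PvBulk.besU; rw [if_neg h]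

/-- **the `Q`-field: quenched Bessel + energy, finite family** -/
theorem pvqb1_Q (hOk : 𝔅.Ok Y K) (hA : 𝔅.Adm Y) {ι : Type} (S : Finset ι) (gs : ι → ℂ → ℂ) :
    ∑ i ∈ S, ∫⁻ s, ENNReal.ofReal (pvqb1En (𝔅.T Y) s (𝔅.wQ Y (gs i))) ∂colLaw (𝔅.V Y)
      ≤ ∑' t : {t : ℂ × ℂ × ℂ // DelTri Y t.1 t.2.1 t.2.2}, ENNReal.ofReal ((∑ i ∈ S, ‖gs i ((t.1.1 + t.1.2.1 + t.1.2.2) / 3)‖ ^ 2) * pvmtD t.1 ^ 2) := by
  have := hA.1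
  have := hA.2
  have h1 : ∀ i, ∫⁻ s, ENNReal.ofReal (pvqb1En (𝔅.T Y) s (𝔅.wQ Y (gs i))) ∂colLaw (𝔅.V Y) = ENNReal.ofReal (1 / 4 * ∑ᶠ d, ‖𝔅.wQ Y (gs i) d‖ ^ 2) := fun i =>
    pvqb1_bessel_lint (𝔅.T Y) hOk.sph PvMap.pvfo_om_conj_mul PvMap.pvfo_om_conj_ne_one _ (pvqb1_Q_nxt 𝔅 (gs i))
  simp only [h1]
  rw [← ENNReal.ofReal_sum_of_nonneg (fun i _ => mul_nonneg (by norm_num) (finsum_nonneg fun d => by positivity))]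
  have e : ∑ i ∈ S, 1 / 4 * ∑ᶠ d, ‖𝔅.wQ Y (gs i) d‖ ^ 2 = ∑ᶠ d, ∑ i ∈ S, 1 / 4 * ‖𝔅.wQ Y (gs i) d‖ ^ 2 := by
    rw [finsum_sum_comm _ _ (fun i _ => Set.toFinite _)]
    exact Finset.sum_congr rfl fun i _ => mul_finsum _ _
  rw [e]
  refine pvqb1_sum_le 𝔅 hOk _ (fun t => (∑ i ∈ S, ‖gs i ((t.1 + t.2.1 + t.2.2) / 3)‖ ^ 2) * pvmtD t ^ 2) (fun t => by positivity) (fun d hd => ?_) (fun d hd => ?_)
  · refine le_of_eq (Finset.sum_eq_zero fun i _ => ?_)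
    rw [pvqb1_wQ_off 𝔅 _ d hd]; simp
  · rw [Finset.sum_mul]
    refine Finset.sum_le_sum fun i _ => ?_
    have := pvqb1_wQ_sq 𝔅 (gs i) d hd
    have h0 : 0 ≤ ‖𝔅.wQ Y (gs i) d‖ ^ 2 := by positivity
    linarith

/-- **the `V`-field** -/
theorem pvqb1_V (hOk : 𝔅.Ok Y K) (hA : 𝔅.Adm Y) {ι : Type} (S : Finset ι) (gs : ι → ℂ → ℂ) :
    ∑ i ∈ S, ∫⁻ s, ENNReal.ofReal (pvqb1En (𝔅.T Y) s (𝔅.wV Y (gs i))) ∂colLaw (𝔅.V Y)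
      ≤ ∑' t : {t : ℂ × ℂ × ℂ // DelTri Y t.1 t.2.1 t.2.2}, ENNReal.ofReal ((∑ i ∈ S, ‖gs i ((t.1.1 + t.1.2.1 + t.1.2.2) / 3)‖ ^ 2) * pvmtD t.1 ^ 2) := by
  have := hA.1
  have := hA.2
  have h1 : ∀ i, ∫⁻ s, ENNReal.ofReal (pvqb1En (𝔅.T Y) s (𝔅.wV Y (gs i))) ∂colLaw (𝔅.V Y)
      ≤ ENNReal.ofReal (1 / 2 * ∑ᶠ d, (‖𝔅.besU Y (gs i) d‖ ^ 2 + ‖𝔅.wQ Y (gs i) d‖ ^ 2)) := fun i => by
    have e : 𝔅.wV Y (gs i) = fun d => 𝔅.besU Y (gs i) d + 𝔅.wQ Y (gs i) d := funext fun d => pvqb1_V_eq 𝔅 (gs i) d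
    rw [e]
    exact pvqb1_bessel_add (𝔅.T Y) hOk.sph _ _ (pvqb1_U_nxt 𝔅 (gs i)) (pvqb1_Q_nxt 𝔅 (gs i))
  refine (Finset.sum_le_sum fun i _ => h1 i).trans ?_
  rw [← ENNReal.ofReal_sum_of_nonneg (fun i _ => mul_nonneg (by norm_num) (finsum_nonneg fun d => by positivity))]
  have e : ∑ i ∈ S, 1 / 2 * ∑ᶠ d, (‖𝔅.besU Y (gs i) d‖ ^ 2 + ‖𝔅.wQ Y (gs i) d‖ ^ 2)
      = ∑ᶠ d, ∑ i ∈ S, 1 / 2 * (‖𝔅.besU Y (gs i) d‖ ^ 2 + ‖𝔅.wQ Y (gs i) d‖ ^ 2) := by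
    rw [finsum_sum_comm _ _ (fun i _ => Set.toFinite _)]
    exact Finset.sum_congr rfl fun i _ => mul_finsum _ _
  rw [e]
  refine pvqb1_sum_le 𝔅 hOk _ (fun t => (∑ i ∈ S, ‖gs i ((t.1 + t.2.1 + t.2.2) / 3)‖ ^ 2) * pvmtD t ^ 2) (fun t => by positivity) (fun d hd => ?_) (fun d hd => ?_)
  · refine le_of_eq (Finset.sum_eq_zero fun i _ => ?_)
    rw [pvqb1_wQ_off 𝔅 _ d hd, pvqb1_U_off 𝔅 _ d hd]; simp
  · rw [Finset.sum_mul]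
    refine Finset.sum_le_sum fun i _ => ?_
    have a1 := pvqb1_wQ_sq 𝔅 (gs i) d hd
    have a2 := pvqb1_U_sq 𝔅 (gs i) d hd
    linarith

theorem pvqb1_swap [Finite (𝔅.V Y)] {ι : Type} (S : Finset ι) (w : ι → 𝔅.D Y → ℂ) :
    ∫⁻ s, ∑ i ∈ S, ENNReal.ofReal (pvqb1En (𝔅.T Y) s (w i)) ∂colLaw (𝔅.V Y) = ∑ i ∈ S, ∫⁻ s, ENNReal.ofReal (pvqb1En (𝔅.T Y) s (w i)) ∂colLaw (𝔅.V Y) :=
  lintegral_finsetSum _ fun i _ => (pvqb1_En_meas (𝔅.T Y) (w i)).ennreal_ofReal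

/-- the same with the sum inside the integral -/
theorem pvqb1_Q' (hOk : 𝔅.Ok Y K) (hA : 𝔅.Adm Y) {ι : Type} (S : Finset ι) (gs : ι → ℂ → ℂ) :
    ∫⁻ s, ∑ i ∈ S, ENNReal.ofReal (pvqb1En (𝔅.T Y) s (𝔅.wQ Y (gs i))) ∂colLaw (𝔅.V Y)
      ≤ ∑' t : {t : ℂ × ℂ × ℂ // DelTri Y t.1 t.2.1 t.2.2}, ENNReal.ofReal ((∑ i ∈ S, ‖gs i ((t.1.1 + t.1.2.1 + t.1.2.2) / 3)‖ ^ 2) * pvmtD t.1 ^ 2) := by
  have := hA.1
  rw [pvqb1_swap]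
  exact pvqb1_Q 𝔅 hOk hA S gs

theorem pvqb1_V' (hOk : 𝔅.Ok Y K) (hA : 𝔅.Adm Y) {ι : Type} (S : Finset ι) (gs : ι → ℂ → ℂ) :
    ∫⁻ s, ∑ i ∈ S, ENNReal.ofReal (pvqb1En (𝔅.T Y) s (𝔅.wV Y (gs i))) ∂colLaw (𝔅.V Y)
      ≤ ∑' t : {t : ℂ × ℂ × ℂ // DelTri Y t.1 t.2.1 t.2.2}, ENNReal.ofReal ((∑ i ∈ S, ‖gs i ((t.1.1 + t.1.2.1 + t.1.2.2) / 3)‖ ^ 2) * pvmtD t.1 ^ 2) := by
  have := hA.1
  rw [pvqb1_swap]
  exact pvqb1_V 𝔅 hOk hA S gs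

/-- the series restricted to the triangles which count -/
theorem pvqb1_series_le {ι : Type} (S : Finset ι) (gs : ι → ℂ → ℂ) (b : ℝ) (B : Set ℂ) (hb : ∀ w, ∑ i ∈ S, ‖gs i w‖ ^ 2 ≤ b ^ 2) (hB : ∀ i ∈ S, ∀ w, w ∉ B → gs i w = 0) :
    ∑' t : {t : ℂ × ℂ × ℂ // DelTri Y t.1 t.2.1 t.2.2}, ENNReal.ofReal ((∑ i ∈ S, ‖gs i ((t.1.1 + t.1.2.1 + t.1.2.2) / 3)‖ ^ 2) * pvmtD t.1 ^ 2)
      ≤ ENNReal.ofReal (b ^ 2) * ∑' t : {t : ℂ × ℂ × ℂ // PvmtAt Y B t}, ENNReal.ofReal (pvmtD t.1 ^ 2) := by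
  classical
  rw [← ENNReal.tsum_mul_left]
  -- both series as series over all the triples
  have e1 := tsum_subtype ({t : ℂ × ℂ × ℂ | DelTri Y t.1 t.2.1 t.2.2}) (fun t => ENNReal.ofReal ((∑ i ∈ S, ‖gs i ((t.1 + t.2.1 + t.2.2) / 3)‖ ^ 2) * pvmtD t ^ 2))
  have e2 := tsum_subtype ({t : ℂ × ℂ × ℂ | PvmtAt Y B t}) (fun t => ENNReal.ofReal (b ^ 2) * ENNReal.ofReal (pvmtD t ^ 2))
  refine (le_of_eq e1).trans (le_trans ?_ (le_of_eq e2.symm))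
  refine ENNReal.tsum_le_tsum fun t => ?_
  by_cases ht : DelTri Y t.1 t.2.1 t.2.2
  · rw [Set.indicator_of_mem (show t ∈ {t : ℂ × ℂ × ℂ | DelTri Y t.1 t.2.1 t.2.2} from ht)]
    by_cases hz : (t.1 + t.2.1 + t.2.2) / 3 ∈ B
    · have hat : PvmtAt Y B t := pvmt_at_of_meet ht ⟨_, pvqb1_bary_mem_hull _ _ _, hz⟩
      rw [Set.indicator_of_mem (show t ∈ {t : ℂ × ℂ × ℂ | PvmtAt Y B t} from hat), ← ENNReal.ofReal_mul (by positivity)]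
      exact ENNReal.ofReal_le_ofReal (mul_le_mul_of_nonneg_right (hb _) (by positivity))
    · have : ∑ i ∈ S, ‖gs i ((t.1 + t.2.1 + t.2.2) / 3)‖ ^ 2 = 0 := Finset.sum_eq_zero fun i hi => by rw [hB i hi _ hz]; simp
      rw [this, zero_mul, ENNReal.ofReal_zero]
      exact zero_le
  · rw [Set.indicator_of_notMem (show t ∉ {t : ℂ × ℂ × ℂ | DelTri Y t.1 t.2.1 t.2.2} from ht)]
    exact zero_le

/-- a point outside the square of half side `r` is at distance `≥ r` of its centre -/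
theorem pvqb1_off_sq {x w : ℂ} {r : ℝ} (h : w ∉ pvmSq x r) : r ≤ ‖w - x‖ := by
  by_contra hlt
  rw [not_le] at hlt
  exact h (pvqb1_ball_sub_sq x hlt.le)

/-- **the geometric majorant of MESH** (`pvmZS 2 3 3 ε x r`, measurable, all moments by `pvmt_mom`): the `Q`-field.      `η` = ANY configuration with the site set `Y`. -/
theorem pvqb1_major_Q {ε : ℝ} (hε : 0 < ε) (η : Conf PvPt) (hOk : 𝔅.Ok (cfSites η) K) (hA : 𝔅.Adm (cfSites η)) {ι : Type} (S : Finset ι) (gs : ι → ℂ → ℂ) (b : ℝ)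
    (x : ℂ) (r : ℝ) (hb : ∀ w, ∑ i ∈ S, ‖gs i w‖ ^ 2 ≤ b ^ 2) (hB : ∀ i ∈ S, ∀ w, r ≤ ‖w - x‖ → gs i w = 0) :
    ∫⁻ s, ∑ i ∈ S, ENNReal.ofReal (pvqb1En (𝔅.T (cfSites η)) s (𝔅.wQ (cfSites η) (gs i))) ∂colLaw (𝔅.V (cfSites η))
      ≤ ENNReal.ofReal (b ^ 2) * pvmZS 2 3 3 ε x r η :=
  ((pvqb1_Q' 𝔅 hOk hA S gs).trans (pvqb1_series_le S gs b (pvmSq x r) hb fun i hi w hw => hB i hi w (pvqb1_off_sq hw))).trans
    (mul_le_mul_right (pvmt_tsum_sq 2 hε x r η) _)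

/-- the `V`-field -/
theorem pvqb1_major_V {ε : ℝ} (hε : 0 < ε) (η : Conf PvPt) (hOk : 𝔅.Ok (cfSites η) K) (hA : 𝔅.Adm (cfSites η)) {ι : Type} (S : Finset ι) (gs : ι → ℂ → ℂ) (b : ℝ)
    (x : ℂ) (r : ℝ) (hb : ∀ w, ∑ i ∈ S, ‖gs i w‖ ^ 2 ≤ b ^ 2) (hB : ∀ i ∈ S, ∀ w, r ≤ ‖w - x‖ → gs i w = 0) :
    ∫⁻ s, ∑ i ∈ S, ENNReal.ofReal (pvqb1En (𝔅.T (cfSites η)) s (𝔅.wV (cfSites η) (gs i))) ∂colLaw (𝔅.V (cfSites η))
      ≤ ENNReal.ofReal (b ^ 2) * pvmZS 2 3 3 ε x r η :=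
  ((pvqb1_V' 𝔅 hOk hA S gs).trans (pvqb1_series_le S gs b (pvmSq x r) hb fun i hi w hw => hB i hi w (pvqb1_off_sq hw))).trans
    (mul_le_mul_right (pvmt_tsum_sq 2 hε x r η) _)

/-- the same at a site set `Y` given with a configuration over it (kills the dependent type at the call site) -/
theorem pvqb1_major_Q_at {ε : ℝ} (hε : 0 < ε) (η : Conf PvPt) (hY : cfSites η = Y) (hOk : 𝔅.Ok Y K) (hA : 𝔅.Adm Y) {ι : Type} (S : Finset ι) (gs : ι → ℂ → ℂ) (b : ℝ)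
    (x : ℂ) (r : ℝ) (hb : ∀ w, ∑ i ∈ S, ‖gs i w‖ ^ 2 ≤ b ^ 2) (hB : ∀ i ∈ S, ∀ w, r ≤ ‖w - x‖ → gs i w = 0) :
    ∫⁻ s, ∑ i ∈ S, ENNReal.ofReal (pvqb1En (𝔅.T Y) s (𝔅.wQ Y (gs i))) ∂colLaw (𝔅.V Y) ≤ ENNReal.ofReal (b ^ 2) * pvmZS 2 3 3 ε x r η := by
  subst hY
  exact pvqb1_major_Q 𝔅 hε η hOk hA S gs b x r hb hB

theorem pvqb1_major_V_at {ε : ℝ} (hε : 0 < ε) (η : Conf PvPt) (hY : cfSites η = Y) (hOk : 𝔅.Ok Y K) (hA : 𝔅.Adm Y) {ι : Type} (S : Finset ι) (gs : ι → ℂ → ℂ) (b : ℝ)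
    (x : ℂ) (r : ℝ) (hb : ∀ w, ∑ i ∈ S, ‖gs i w‖ ^ 2 ≤ b ^ 2) (hB : ∀ i ∈ S, ∀ w, r ≤ ‖w - x‖ → gs i w = 0) :
    ∫⁻ s, ∑ i ∈ S, ENNReal.ofReal (pvqb1En (𝔅.T Y) s (𝔅.wV Y (gs i))) ∂colLaw (𝔅.V Y) ≤ ENNReal.ofReal (b ^ 2) * pvmZS 2 3 3 ε x r η := by
  subst hY
  exact pvqb1_major_V 𝔅 hε η hOk hA S gs b x r hb hB

/-- **(D6)** the fields of the encoded rims are dominated by the energies -/
theorem pvqb1_rim [Finite (𝔅.D Y)] {x : ℂ} {R : ℝ} {s : 𝔅.V Y → Bool} {P : PvbRim} (hP : P ∈ 𝔅.rimsAt Y s x R) (g : ℂ → ℂ) :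
    ‖P.fld P.xQ g‖ ^ 2 ≤ pvqb1En (𝔅.T Y) s (𝔅.wQ Y g) ∧ ‖P.fld P.xV g‖ ^ 2 ≤ pvqb1En (𝔅.T Y) s (𝔅.wV Y g) := by
  obtain ⟨c, hc, -, rfl⟩ := hP
  rw [l9_enc_fldQ, l9_enc_fldV, ← l9_lsum_rim hc, ← l9_lsum_rim hc]
  exact ⟨pvqb1_dom _ _ _ _, pvqb1_dom _ _ _ _⟩

/-- the same for the reaching rims of a sample -/
theorem pvqb1_rims {x : ℂ} {R : ℝ} {p : Claims.C0465.PVSample × (X → Bool)} {P : PvbRim} (hP : P ∈ 𝔅.rims x R p) (g : ℂ → ℂ) :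
    ‖P.fld P.xQ g‖ ^ 2 ≤ pvqb1En (𝔅.T (cfSites (pvConf p.1))) (𝔅.col (pvConf p.1) p.2) (𝔅.wQ (cfSites (pvConf p.1)) g) ∧
      ‖P.fld P.xV g‖ ^ 2 ≤ pvqb1En (𝔅.T (cfSites (pvConf p.1))) (𝔅.col (pvConf p.1) p.2) (𝔅.wV (cfSites (pvConf p.1)) g) := by
  obtain ⟨hA, -, hP⟩ := hP
  have := hA.2
  exact pvqb1_rim 𝔅 hP g

end bulk

end Claimed.Agent.R289
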