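-- KEEP
import Claimed.Agent.R289.S1P.BesD
import Claimed.Agent.R289.Arm.Law
import Claimed.Agent.R289.Defs.Up

/-!
# Row 289 (S0537, Cardy for Poisson-Voronoi), box S1P, exit (X2) = E1 `exit_l9_bes`, file S1P/Bes : THE BESSEL MAJORANTS OF AN ARBITRARY BULK FAMILY      (owner helper274, second helper185; prefix `pvqb2_`)      0 sorry

A bulk family `𝔅 : PvBulk X` is an ARBITRARY function of the site set: the energy `∑_λ |X_λ(g)|²` of its labels is measurable in the colours at fixed geometry only.      So E1 lives on the iterated upper expectation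
`l9Up X ε = PvUp.iter (pvGeo ε) (pvCol.prod (colLaw X))` (`Defs/Up.lean`, `Cr/Inst.lean`), with the SUM over the family of masks INSIDE `E` (the consumer `PvbE.of_sum` of `S6b/Main.lean` needs nothing more; with the sum outside
one would need the measurability in the geometry of `∑_t |g_i(z_t)|² diam(t)²` for every `i`: an upper expectation is only subadditive).

FIXED GEOMETRY = `S1P/BesD.lean` (helper185): `pvqb1En`, `pvqb1_dom`, `pvqb1_Q'`, `pvqb1_V'` (Bessel on the finite sphere `𝔅.T Y` + the embedded darts are distinct Delaunay triples).      HERE: THE GEOMETRY AND THE UPPER EXPECTATION.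
* `pvqb2M ε x r g`       the MESH majorant `pvmZS 2 3 3 ε x r` (127, 223) as a MEASURABLE function of the geometry (colours averaged out);   `pvqb2_M_meas`, `pvqb2_M_lint`, `pvqb2_M_mean` (`≤ K (r + ε)²`), `pvqb2_M_ge`
* `pvqb2_energy`         masks of total square `≤ b²` supported in `B(x,r)`: only the triangles attached to the square `pvmSq x r` count
* `pvqb2_cast`, `pvqb2_quench`      the quench seam of 128 (`Arm/Law.lean`) for functions:   `pvUpInt κ (F ∘ sample) = ∫⁻ F d colLaw (𝔅.V Y)`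
* **`pvqb2W 𝔅 x R Xb g p`**      THE MAJORANT (`false` = `Q`, `true` = `V`): the energy of all the labels, cut by `Adm ∧ Ok`;   `pvqb2_W_nn`
* **`pvqb2_dom`**        on EVERY sample the fields of the reaching rims `𝔅.rims x R p` are dominated (the bad set of the field `dom` of `L9Bes` is EMPTY)
* `pvqb2_fixed`          the colour integral at a fixed good geometry `≤ b² pvqb2M ε x (3R) g`
* **`pvqb2_E_le`**       `E (∑_i W(g_i)) ≤ K (3R + ε)² b²` at every mesh `ε`, for every family, ball, finite family of masks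
* **`pvqb2_exit : L9ExitBes`**      THE EXIT E1 (wired in `Exit/Transport.lean` as `exit_l9_bes`)
-/

set_option autoImplicit false

namespace Claimed.Agent.R289

open MeasureTheory Set Filter Topology Claims.C0465
open scoped ENNReal

/-! ## 1. the measurable geometric majorant -/

/-- the MESH majorant of `∑ diam²` over the Delaunay triangles attached to the square `pvmSq x r`, as a function of the GEOMETRY (the colours are averaged out: the majorant does not see them) -/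
noncomputable def pvqb2M (ε : ℝ) (x : ℂ) (r : ℝ) (g : PvGeoT) : ℝ≥0∞ := ∫⁻ c, pvmZS 2 3 3 ε x r (pvConf (pvMerge (g, c))) ∂pvCol

theorem pvqb2_M_meas (ε : ℝ) (x : ℂ) (r : ℝ) : Measurable (pvqb2M ε x r) := by
  have h : Measurable (fun q : PvGeoT × PvColT => pvmZS 2 3 3 ε x r (pvConf (pvMerge q))) :=
    (pvm_ZS_meas 2 3 3 ε x r).comp (measurable_pvConf.comp measurable_pvMerge)
  exact h.lintegral_prod_right'

theorem pvqb2_M_lint (ε : ℝ) (x : ℂ) (r : ℝ) : ∫⁻ g, pvqb2M ε x r g ∂(pvGeo ε) = ∫⁻ η, pvmZS 2 3 3 ε x r η ∂(pvP ε) := by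
  unfold pvqb2M pvP
  rw [lintegral_map (pvm_ZS_meas 2 3 3 ε x r) measurable_pvConf]
  exact (pvqu_lintegral ε ((pvm_ZS_meas 2 3 3 ε x r).comp measurable_pvConf)).symm

theorem pvqb2_M_mean : ∃ K : ℝ, 0 ≤ K ∧ ∀ ε : ℝ, 0 < ε → ∀ (x : ℂ) (r : ℝ), 0 ≤ r → ∫⁻ g, pvqb2M ε x r g ∂(pvGeo ε) ≤ ENNReal.ofReal (K * (r + ε) ^ 2) := by
  obtain ⟨K, hK, h⟩ := pvmt_mom (p := 1) one_ne_zero 2
  refine ⟨K, hK, fun ε hε x r hr => ?_⟩
  rw [pvqb2_M_lint]
  have h1 := h ε hε (pvP ε) (pv_isPpp ε) x r hr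
  simp only [pow_one] at h1
  have e : ε ^ 2 * ((r + ε) / ε) ^ 2 = (r + ε) ^ 2 := by field_simp
  rwa [e] at h1

theorem pvqb2_M_ge {ε : ℝ} (hε : 0 < ε) (x : ℂ) (r : ℝ) (g : PvGeoT) :
    ∑' t : {t : ℂ × ℂ × ℂ // PvmtAt (pvgSites g) (pvmSq x r) t}, ENNReal.ofReal (pvmtD t.1 ^ 2) ≤ pvqb2M ε x r g := by
  unfold pvqb2M
  have h : ∀ c : PvColT, ∑' t : {t : ℂ × ℂ × ℂ // PvmtAt (pvgSites g) (pvmSq x r) t}, ENNReal.ofReal (pvmtD t.1 ^ 2)
      ≤ pvmZS 2 3 3 ε x r (pvConf (pvMerge (g, c))) := by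
    intro c
    have h1 := pvmt_tsum_sq 2 hε x r (pvConf (pvMerge (g, c)))
    rwa [pvqu_cfSites] at h1
  calc ∑' t : {t : ℂ × ℂ × ℂ // PvmtAt (pvgSites g) (pvmSq x r) t}, ENNReal.ofReal (pvmtD t.1 ^ 2)
      = ∫⁻ _c : PvColT, (∑' t : {t : ℂ × ℂ × ℂ // PvmtAt (pvgSites g) (pvmSq x r) t}, ENNReal.ofReal (pvmtD t.1 ^ 2)) ∂pvCol := by
        rw [lintegral_const, measure_univ, mul_one]
    _ ≤ _ := lintegral_mono h

/-! ## 2. the deterministic energy -/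

theorem pvqb2_bar_mem (a b c : ℂ) : (a + b + c) / 3 ∈ convexHull ℝ ({a, b, c} : Set ℂ) := by
  have hc := convex_convexHull ℝ ({a, b, c} : Set ℂ)
  have ha : a ∈ convexHull ℝ ({a, b, c} : Set ℂ) := subset_convexHull ℝ _ (by simp)
  have hb : b ∈ convexHull ℝ ({a, b, c} : Set ℂ) := subset_convexHull ℝ _ (by simp)
  have hcc : c ∈ convexHull ℝ ({a, b, c} : Set ℂ) := subset_convexHull ℝ _ (by simp)
  have h1 : (1 / 2 : ℝ) • a + (1 / 2 : ℝ) • b ∈ convexHull ℝ ({a, b, c} : Set ℂ) := hc ha hb (by norm_num) (by norm_num) (by norm_num)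
  have h2 : (2 / 3 : ℝ) • ((1 / 2 : ℝ) • a + (1 / 2 : ℝ) • b) + (1 / 3 : ℝ) • c ∈ convexHull ℝ ({a, b, c} : Set ℂ) :=
    hc h1 hcc (by norm_num) (by norm_num) (by norm_num)
  have e : (2 / 3 : ℝ) • ((1 / 2 : ℝ) • a + (1 / 2 : ℝ) • b) + (1 / 3 : ℝ) • c = (a + b + c) / 3 := by
    simp only [Complex.real_smul]; push_cast; ring
  rwa [e] at h2

/-- a family of masks of total square `≤ b²` supported in `B(x,r)`: the weighted energy of ALL Delaunay triangles is below `b²` times the energy of the triangles attached to the square -/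
theorem pvqb2_energy {Y : Set ℂ} {ι : Type} (S : Finset ι) (gs : ι → ℂ → ℂ) {b : ℝ} {x : ℂ} {r : ℝ} (hb : ∀ w, ∑ i ∈ S, ‖gs i w‖ ^ 2 ≤ b ^ 2)
    (h0 : ∀ i ∈ S, ∀ w, r ≤ ‖w - x‖ → gs i w = 0) :
    ∑' t : {t : ℂ × ℂ × ℂ // DelTri Y t.1 t.2.1 t.2.2}, ENNReal.ofReal ((∑ i ∈ S, ‖gs i ((t.1.1 + t.1.2.1 + t.1.2.2) / 3)‖ ^ 2) * pvmtD t.1 ^ 2)
      ≤ ENNReal.ofReal (b ^ 2) * ∑' t : {t : ℂ × ℂ × ℂ // PvmtAt Y (pvmSq x r) t}, ENNReal.ofReal (pvmtD t.1 ^ 2) := by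
  have e1 := tsum_subtype {t : ℂ × ℂ × ℂ | DelTri Y t.1 t.2.1 t.2.2} (fun t => ENNReal.ofReal ((∑ i ∈ S, ‖gs i ((t.1 + t.2.1 + t.2.2) / 3)‖ ^ 2) * pvmtD t ^ 2))
  have e2 := tsum_subtype {t : ℂ × ℂ × ℂ | PvmtAt Y (pvmSq x r) t} (fun t => ENNReal.ofReal (pvmtD t ^ 2))
  refine (le_of_eq e1).trans (le_trans ?_ (le_of_eq (congrArg (fun u => ENNReal.ofReal (b ^ 2) * u) e2.symm)))
  rw [← ENNReal.tsum_mul_left]
  refine ENNReal.tsum_le_tsum fun t => ?_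
  by_cases ht : DelTri Y t.1 t.2.1 t.2.2
  · rw [indicator_of_mem (show t ∈ {t : ℂ × ℂ × ℂ | DelTri Y t.1 t.2.1 t.2.2} from ht)]
    by_cases hr : r ≤ ‖(t.1 + t.2.1 + t.2.2) / 3 - x‖
    · have : ∑ i ∈ S, ‖gs i ((t.1 + t.2.1 + t.2.2) / 3)‖ ^ 2 = 0 := Finset.sum_eq_zero fun i hi => by rw [h0 i hi _ hr]; simp
      rw [this, zero_mul, ENNReal.ofReal_zero]
      exact zero_le
    · have hat : PvmtAt Y (pvmSq x r) t := by
        refine pvmt_at_of_meet ht ⟨(t.1 + t.2.1 + t.2.2) / 3, pvqb2_bar_mem _ _ _, pvmt_ball_sub x r ?_⟩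
        rw [Metric.mem_closedBall, dist_eq_norm]
        exact (not_le.1 hr).le
      rw [indicator_of_mem (show t ∈ {t : ℂ × ℂ × ℂ | PvmtAt Y (pvmSq x r) t} from hat), ← ENNReal.ofReal_mul (sq_nonneg b)]
      exact ENNReal.ofReal_le_ofReal (mul_le_mul_of_nonneg_right (hb _) (sq_nonneg _))
  · rw [indicator_of_notMem (show t ∉ {t : ℂ × ℂ × ℂ | DelTri Y t.1 t.2.1 t.2.2} from ht)]
    exact zero_le

/-! ## 3. the quench seam for functions -/

section quench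

variable {X : Type} (𝔅 : PvBulk X)

/-- NO DEPENDENT TYPES, function form of `pval_col_merge` -/
theorem pvqb2_cast {β : Type} (F : ∀ Y : Set ℂ, (𝔅.V Y → Bool) → β) {g : PvGeoT} (hg : PvgOk g)
    (hs : ∀ v p, 𝔅.lab (pvgSites g) v = Sum.inl p → p ∈ pvgSites g) (c : PvColT) (ξ : X → Bool) :
    F (cfSites (pvConf (pvMerge (g, c)))) (𝔅.col (pvConf (pvMerge (g, c))) ξ) = F (pvgSites g) (𝔅.colY (pvgSites g) (pvgColAt g c) ξ) :=
  (pval_col_merge 𝔅 (fun Y s => F Y s = F (pvgSites g) (𝔅.colY (pvgSites g) (pvgColAt g c) ξ)) hg hs c ξ).2 rfl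

/-- the colour integral at fixed good geometry is an integral against the fair colours of the vertices -/
theorem pvqb2_quench (F : ∀ Y : Set ℂ, (𝔅.V Y → Bool) → ℝ≥0∞) {g : PvGeoT} (hg : PvgOk g) (hi : Function.Injective (𝔅.lab (pvgSites g)))
    (hs : ∀ v p, 𝔅.lab (pvgSites g) v = Sum.inl p → p ∈ pvgSites g) (hF : Measurable (F (pvgSites g))) :
    pvUpInt (pvCol.prod (colLaw X)) (fun k => F (cfSites (pvConf (pvMerge (g, k.1)))) (𝔅.col (pvConf (pvMerge (g, k.1))) k.2))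
      = ∫⁻ s, F (pvgSites g) s ∂(colLaw (𝔅.V (pvgSites g))) := by
  have e : (fun k : PvColT × (X → Bool) => F (cfSites (pvConf (pvMerge (g, k.1)))) (𝔅.col (pvConf (pvMerge (g, k.1))) k.2))
      = fun k => F (pvgSites g) (𝔅.colY (pvgSites g) (pvgColAt g k.1) k.2) := funext fun k => pvqb2_cast 𝔅 F hg hs k.1 k.2
  rw [e, ← pval_quench 𝔅 hi hs, lintegral_map hF (pval_measurable_colY 𝔅 g)]
  exact pvup_int_of_meas _ (hF.comp (pval_measurable_colY 𝔅 g))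

end quench

/-! ## 4. the majorants `W` -/

section main

variable {X : Type} (𝔅 : PvBulk X)

open Classical in
/-- the energy of all the labels at (site set, colouring), cut by `Adm` and `Ok` -/
noncomputable def pvqb2F (K : Set ℂ) (Xb : Bool) (gg : ℂ → ℂ) (Y : Set ℂ) (s : 𝔅.V Y → Bool) : ℝ :=
  if 𝔅.Adm Y ∧ 𝔅.Ok Y K then pvqb1En (𝔅.T Y) s (if Xb then 𝔅.wV Y gg else 𝔅.wQ Y gg) else 0

/-- **the Bessel majorant** as a function of the sample (`false` = the field `Q`, `true` = the field `V`) -/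
noncomputable def pvqb2W (x : ℂ) (R : ℝ) (Xb : Bool) (gg : ℂ → ℂ) (p : PVSample × (X → Bool)) : ℝ :=
  pvqb2F 𝔅 (Metric.closedBall x (6 * R)) Xb gg (cfSites (pvConf p.1)) (𝔅.col (pvConf p.1) p.2)

theorem pvqb2_eqns_cite : True := by
  have := @pvqb2M.eq_1; have := @pvqb2F.eq_1; have := @pvqb2W.eq_1
  trivial

theorem pvqb2_F_nn (K : Set ℂ) (Xb : Bool) (gg : ℂ → ℂ) (Y : Set ℂ) (s : 𝔅.V Y → Bool) : 0 ≤ pvqb2F 𝔅 K Xb gg Y s := by
  unfold pvqb2F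
  by_cases h : 𝔅.Adm Y ∧ 𝔅.Ok Y K
  · rw [if_pos h]
    exact pvqb1_En_nonneg _ _ _
  · rw [if_neg h]

theorem pvqb2_W_nn (x : ℂ) (R : ℝ) (Xb : Bool) (gg : ℂ → ℂ) (p : PVSample × (X → Bool)) : 0 ≤ pvqb2W 𝔅 x R Xb gg p := pvqb2_F_nn 𝔅 _ _ _ _ _

/-- **DOM**: on EVERY sample the fields of the reaching rims are dominated -/
theorem pvqb2_dom {x : ℂ} {R : ℝ} {p : PVSample × (X → Bool)} {P : PvbRim} (hP : P ∈ 𝔅.rims x R p) :
    (∀ g, ‖P.fld P.xQ g‖ ^ 2 ≤ pvqb2W 𝔅 x R false g p) ∧ (∀ g, ‖P.fld P.xV g‖ ^ 2 ≤ pvqb2W 𝔅 x R true g p) := by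
  obtain ⟨hA, hOk, c, hrim, -, rfl⟩ := hP
  have : Finite (𝔅.D (cfSites (pvConf p.1))) := hA.2
  constructor
  · intro g
    unfold pvqb2W pvqb2F
    rw [if_pos ⟨hA, hOk⟩, l9_enc_fldQ, ← l9_lsum_rim hrim]
    exact pvqb1_dom _ _ _ _
  · intro g
    unfold pvqb2W pvqb2F
    rw [if_pos ⟨hA, hOk⟩, l9_enc_fldV, ← l9_lsum_rim hrim]
    exact pvqb1_dom _ _ _ _

/-- the colour integral at a fixed good geometry -/
theorem pvqb2_fixed {ε : ℝ} (hε : 0 < ε) (x : ℂ) (R : ℝ) (Xb : Bool) {ι : Type} (S : Finset ι) (gs : ι → ℂ → ℂ) {b : ℝ}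
    (hb : ∀ w, ∑ i ∈ S, ‖gs i w‖ ^ 2 ≤ b ^ 2) (h0 : ∀ i ∈ S, ∀ w, 3 * R ≤ ‖w - x‖ → gs i w = 0) {g : PvGeoT} (hg : PvgOk g) :
    pvUpInt (pvCol.prod (colLaw X)) (fun k => ∑ i ∈ S, ENNReal.ofReal (pvqb2W 𝔅 x R Xb (gs i) (pvMerge (g, k.1), k.2)))
      ≤ ENNReal.ofReal (b ^ 2) * pvqb2M ε x (3 * R) g := by
  set K : Set ℂ := Metric.closedBall x (6 * R) with hK
  by_cases hc : 𝔅.Adm (pvgSites g) ∧ 𝔅.Ok (pvgSites g) K
  · obtain ⟨hA, hOk⟩ := hc
    have : Finite (𝔅.V (pvgSites g)) := hA.1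
    have hF : Measurable (fun s : 𝔅.V (pvgSites g) → Bool => ∑ i ∈ S, ENNReal.ofReal (pvqb2F 𝔅 K Xb (gs i) (pvgSites g) s)) := measurable_of_countable _
    have h1 := pvqb2_quench 𝔅 (fun Y s => ∑ i ∈ S, ENNReal.ofReal (pvqb2F 𝔅 K Xb (gs i) Y s)) hg hOk.inj hOk.site hF
    refine (le_of_eq h1).trans ?_
    have h2 : ∫⁻ s, ∑ i ∈ S, ENNReal.ofReal (pvqb2F 𝔅 K Xb (gs i) (pvgSites g) s) ∂(colLaw (𝔅.V (pvgSites g)))
        ≤ ∑' t : {t : ℂ × ℂ × ℂ // DelTri (pvgSites g) t.1 t.2.1 t.2.2},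
            ENNReal.ofReal ((∑ i ∈ S, ‖gs i ((t.1.1 + t.1.2.1 + t.1.2.2) / 3)‖ ^ 2) * pvmtD t.1 ^ 2) := by
      unfold pvqb2F
      simp only [if_pos (And.intro hA hOk)]
      cases Xb
      · exact pvqb1_Q' 𝔅 hOk hA S gs
      · exact pvqb1_V' 𝔅 hOk hA S gs
    exact h2.trans ((pvqb2_energy S gs hb h0).trans (mul_le_mul_right (pvqb2_M_ge hε x (3 * R) g) _))
  · have hz : (fun k : PvColT × (X → Bool) => ∑ i ∈ S, ENNReal.ofReal (pvqb2W 𝔅 x R Xb (gs i) (pvMerge (g, k.1), k.2))) = fun _ => 0 := by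
      funext k
      refine Finset.sum_eq_zero fun i _ => ?_
      unfold pvqb2W pvqb2F
      have hc' : ¬ (𝔅.Adm (cfSites (pvConf (pvMerge (g, k.1)))) ∧ 𝔅.Ok (cfSites (pvConf (pvMerge (g, k.1)))) K) := by
        rw [pvqu_cfSites]; exact hc
      rw [if_neg hc', ENNReal.ofReal_zero]
    rw [hz]
    refine (pvup_int_le _ (φ := fun _ => 0) measurable_const fun _ => le_rfl).trans ?_
    simp

/-- **W_bes** on the iterated upper expectation, at every mesh -/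
theorem pvqb2_E_le : ∃ K : ℝ, 0 ≤ K ∧ ∀ ε : ℝ, 0 < ε → ∀ (X : Type) (𝔅 : PvBulk X) (x : ℂ) (R : ℝ), 0 ≤ R → ∀ (Xb : Bool) (ι : Type) (S : Finset ι)
    (gs : ι → ℂ → ℂ) (b : ℝ), (∀ w, ∑ i ∈ S, ‖gs i w‖ ^ 2 ≤ b ^ 2) → (∀ i ∈ S, ∀ w, 3 * R ≤ ‖w - x‖ → gs i w = 0) →
    (PvUp.iter (pvGeo ε) (pvCol.prod (colLaw X))).E (fun o => ∑ i ∈ S, ENNReal.ofReal (pvqb2W 𝔅 x R Xb (gs i) (pvMerge (o.1, o.2.1), o.2.2)))
      ≤ ENNReal.ofReal (K * (3 * R + ε) ^ 2 * b ^ 2) := by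
  obtain ⟨K, hK, hM⟩ := pvqb2_M_mean
  refine ⟨K, hK, fun ε hε X 𝔅 x R hR Xb ι S gs b hb h0 => ?_⟩
  set N : Set PvGeoT := toMeasurable (pvGeo ε) {g | ¬ PvgOk g} with hN
  have hNm : MeasurableSet N := measurableSet_toMeasurable _ _
  have hN0 : pvGeo ε N = 0 := by
    rw [hN, measure_toMeasurable]
    exact pvqu_ok_ae ε
  have hw : Measurable (fun g => ENNReal.ofReal (b ^ 2) * pvqb2M ε x (3 * R) g + N.indicator (fun _ => ⊤) g) :=
    ((pvqb2_M_meas ε x (3 * R)).const_mul _).add (measurable_const.indicator hNm)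
  refine (pvup_iter_E_quenched (pvGeo ε) (pvCol.prod (colLaw X)) hw fun g => ?_).trans ?_
  · by_cases hgN : g ∈ N
    · rw [indicator_of_mem hgN]
      simp
    · have hg : PvgOk g := by
        by_contra h
        exact hgN (subset_toMeasurable _ _ h)
      exact (pvqb2_fixed 𝔅 hε x R Xb S gs hb h0 hg).trans le_self_add
  · rw [lintegral_add_left ((pvqb2_M_meas ε x (3 * R)).const_mul _), lintegral_const_mul _ (pvqb2_M_meas ε x (3 * R)), lintegral_indicator hNm,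
      setLIntegral_measure_zero _ _ hN0, add_zero]
    refine (mul_le_mul_right (hM ε hε x (3 * R) (by positivity)) _).trans ?_
    rw [← ENNReal.ofReal_mul (sq_nonneg b)]
    exact ENNReal.ofReal_le_ofReal (le_of_eq (by ring))

end main

/-! ## 5. THE EXIT E1 -/

/-- **E1**: the Bessel majorants of the reaching rims of an arbitrary bulk family -/
theorem pvqb2_exit : L9ExitBes := by
  obtain ⟨K, hK, hE⟩ := pvqb2_E_le
  intro εs h0 hε X _ 𝔅 x R hR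
  refine ⟨{ W := fun Xb _ g o => pvqb2W 𝔅 x R Xb g (l9Sm o)
            CB := K * (4 * R) ^ 2
            W_nn := fun Xb _ g o => pvqb2_W_nn 𝔅 x R Xb g (l9Sm o)
            W_bes := ?_
            dom := ?_ }⟩
  · intro Xb ι S gs b _ hb hs
    filter_upwards [hε.eventually (ge_mem_nhds hR)] with n hn
    refine (hE (εs n) (h0 n) X 𝔅 x R hR.le Xb ι S gs b hb hs).trans (ENNReal.ofReal_le_ofReal ?_)
    have h1 : (3 * R + εs n) ^ 2 ≤ (4 * R) ^ 2 := pow_le_pow_left₀ (by have := h0 n; positivity) (by linarith) 2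
    exact mul_le_mul_of_nonneg_right (mul_le_mul_of_nonneg_left h1 hK) (sq_nonneg b)
  · have e : ∀ n : ℕ, {o : L9Om X | ¬ ∀ P ∈ 𝔅.rims x R (l9Sm o), (∀ g, ‖P.fld P.xQ g‖ ^ 2 ≤ pvqb2W 𝔅 x R false g (l9Sm o)) ∧
        (∀ g, ‖P.fld P.xV g‖ ^ 2 ≤ pvqb2W 𝔅 x R true g (l9Sm o))} = ∅ := by
      intro n
      ext o
      simp only [mem_ofPred_eq, mem_empty_iff_false, iff_false, not_not]
      exact fun P hP => pvqb2_dom 𝔅 hP
    have e' : (fun n : ℕ => ((l9Up X (εs n)).P {o : L9Om X | ¬ ∀ P ∈ 𝔅.rims x R (l9Sm o), (∀ g, ‖P.fld P.xQ g‖ ^ 2 ≤ pvqb2W 𝔅 x R false g (l9Sm o)) ∧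
        (∀ g, ‖P.fld P.xV g‖ ^ 2 ≤ pvqb2W 𝔅 x R true g (l9Sm o))}).toReal) = fun _ => 0 := by
      funext n
      rw [e n, PvUp.P_empty, ENNReal.toReal_zero]
    exact e' ▸ tendsto_const_nhds

end Claimed.Agent.R289
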